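import Vale.Agent.P113.Coord

/-! One period of the periodic moves applies the matching rule. -/

noncomputable section

open Set

namespace Vale.Agent.P113

/-- Two rules are separated: their old prefixes differ, and their new prefixes differ. -/
def Sep (b c : Branch) : Prop :=
  (Incomp b.1 c.1 ∨ Incomp b.2.1 c.2.1) ∧ (Incomp b.2.2.1 c.2.2.1 ∨ Incomp b.2.2.2 c.2.2.2)

/-- All symbols of a rule fit in the base. -/
def BrOK (B : ℕ) (b : Branch) : Prop :=
  Digs B b.1 ∧ Digs B b.2.1 ∧ Digs B b.2.2.1 ∧ Digs B b.2.2.2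

/-- The point of a pair of stacks at height `z`. -/
def stackPt (B : ℕ) (R L : List ℕ) (z : ℝ) : Pt :=
  pt (1 / 4 + xi B R / 2) (1 / 4 + xi B L / 2) z

lemma cenQ_val {B : ℕ} (hB : 3 ≤ B) (p : List ℕ) :
    rv (cenQ B p) = 1 / 4 + pval B p / 2 + 1 / (4 * (B : ℝ) ^ p.length) := by
  have h : 4 * B ^ p.length ≠ 0 := by positivity
  simp [cenQ, rv_qfrac, rv_pvalQ hB, h]
  ring

lemma cylSlot {B : ℕ} (hB : 3 ≤ B) {p : List ℕ} (hp : Digs B p) (α β : QD) :
    SlotOK ((box (cyl B p (qnat 1) (qnat 0))).1, (box (cyl B p (qnat 1) (qnat 0))).2.1,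
      (box (cyl B p (qnat 1) (qnat 0))).2.2, α, β) := cyl_ok hB hp α β

lemma zslot_low : SlotOK (qfrac 1 4, qfrac 1 2, qnat 16, qnat 1, qnat 0) := by
  refine ⟨?_, ?_, ?_, ?_⟩ <;> simp [rv_qfrac] <;> norm_num

lemma zslot_high : SlotOK (qfrac 1 2, qfrac 3 4, qnat 16, qnat 1, qnat 0) := by
  refine ⟨?_, ?_, ?_, ?_⟩ <;> simp [rv_qfrac] <;> norm_num

lemma zslot_all : SlotOK (qfrac 1 4, qfrac 3 4, qnat 16, qnat 1, qnat 0) := by
  refine ⟨?_, ?_, ?_, ?_⟩ <;> simp [rv_qfrac] <;> norm_num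

lemma branchMoves_ok {B : ℕ} (hB : 3 ≤ B) {b : Branch} (hb : BrOK B b) :
    ∀ m ∈ branchMoves B b, MoveOK m := by
  obtain ⟨h1, h2, h3, h4⟩ := hb
  have hq : ∀ i j : ℕ, 0 < rv (qfrac (B ^ i) (B ^ j)) := by
    intro i j
    rw [rv_qfrac _ (by positivity)]
    have : (0 : ℝ) < B := by exact_mod_cast (show 0 < B by omega)
    push_cast; positivity
  have z : ∀ {c zlo zhi : QD}, SlotOK (zlo, zhi, qnat 16, qnat 1, qnat 0) → ∀ {p q : List ℕ},
      Digs B p → Digs B q → MoveOK (moveZ c zlo zhi (box (cyl B p (qnat 1) (qnat 0)))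
        (box (cyl B q (qnat 1) (qnat 0)))) := fun {c zlo zhi} hz {p q} hp hq' =>
    ⟨fun r hr => absurd hr List.not_mem_nil, cylSlot hB hp _ _, cylSlot hB hq' _ _, hz⟩
  have mx : ∀ c, MoveOK (moveX c) := fun c =>
    ⟨fun r hr => absurd hr List.not_mem_nil, wide_ok _ _, wide_ok _ _, mid_ok _ _⟩
  have my : ∀ c, MoveOK (moveY c) := fun c =>
    ⟨fun r hr => absurd hr List.not_mem_nil, wide_ok _ _, wide_ok _ _, mid_ok _ _⟩
  have sx : ∀ {r}, 0 < rv r → MoveOK (scaleX r) := fun {r} hr =>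
    ⟨fun r' h => by rw [show r' = r from List.mem_singleton.1 h]; exact hr,
      wide_ok _ _, wide_ok _ _, mid_ok _ _⟩
  have sy : ∀ {r}, 0 < rv r → MoveOK (scaleY r) := fun {r} hr =>
    ⟨fun r' h => by rw [show r' = r from List.mem_singleton.1 h]; exact hr,
      wide_ok _ _, wide_ok _ _, mid_ok _ _⟩
  simp only [branchMoves, List.forall_mem_cons]
  exact ⟨z zslot_low h1 h2, mx _, my _, sx (hq _ _), sy (hq _ _), mx _, my _, z zslot_high h3 h4,
    fun m hm => absurd hm List.not_mem_nil⟩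

lemma dropMove_ok : MoveOK dropMove :=
  ⟨by simp [dropMove, moveZ], wide_ok _ _, wide_ok _ _, zslot_all⟩

lemma loadMoves_ok (x y : QD) : ∀ m ∈ loadMoves x y, MoveOK m := by
  intro m hm
  simp only [loadMoves, List.mem_cons, List.not_mem_nil, or_false] at hm
  rcases hm with rfl | rfl | rfl <;> refine ⟨?_, ?_, ?_, ?_⟩ <;>
    simp only [moveZ, moveX, moveY] <;>
    first
      | exact wide_ok _ _
      | exact mid_ok _ _
      | exact zslot_low
      | (intro r hr; simp at hr)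

lemma mid_zero_low {m : Move} (hm : MoveOK m)
    (hz : m.2.2.2.1 = qfrac 1 2 ∧ m.2.2.2.2.2.1 = qnat 16) {p : Pt}
    (hp : p ∈ cube) (h : p 2 = 1 / 4) : moveField m p = 0 := by
  refine moveField_outside hm hp (Or.inr (Or.inr (Or.inl ?_)))
  rw [h, hz.1, hz.2]
  simp [rv_qfrac]
  norm_num

lemma still_low {B : ℕ} (hB : 3 ≤ B) {c : Branch} (hc : BrOK B c) {sR sL tR tL : List ℕ}
    (hR : Digs B (sR ++ tR)) (hL : Digs B (sL ++ tL))
    (hsep : Incomp sR c.1 ∨ Incomp sL c.2.1) :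
    ∀ m ∈ branchMoves B c, moveField m (stackPt B (sR ++ tR) (sL ++ tL) (1 / 4)) = 0 := by
  have hp : stackPt B (sR ++ tR) (sL ++ tL) (1 / 4) ∈ cube :=
    pt_mem_cube (W_sub (coord_mem hB hR)) (W_sub (coord_mem hB hL)) ⟨by norm_num, by norm_num⟩
  intro m hm
  have hok := branchMoves_ok hB hc m hm
  simp only [branchMoves, List.mem_cons, List.not_mem_nil, or_false] at hm
  rcases hm with rfl | rfl | rfl | rfl | rfl | rfl | rfl | rfl
  · refine moveField_outside hok hp ?_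
    rcases hsep with h | h
    · exact Or.inl (cyl_outside hB h hR hc.1 (qnat 1) (qnat 0))
    · exact Or.inr (Or.inl (cyl_outside hB h hL hc.2.1 (qnat 1) (qnat 0)))
  all_goals exact mid_zero_low hok ⟨rfl, rfl⟩ hp rfl

lemma still_high {B : ℕ} (hB : 3 ≤ B) {c : Branch} (hc : BrOK B c) {dR dL tR tL : List ℕ}
    (hR : Digs B (dR ++ tR)) (hL : Digs B (dL ++ tL))
    (hsep : Incomp dR c.2.2.1 ∨ Incomp dL c.2.2.2) :
    ∀ m ∈ branchMoves B c, moveField m (stackPt B (dR ++ tR) (dL ++ tL) (3 / 4)) = 0 := by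
  have hp : stackPt B (dR ++ tR) (dL ++ tL) (3 / 4) ∈ cube :=
    pt_mem_cube (W_sub (coord_mem hB hR)) (W_sub (coord_mem hB hL)) ⟨by norm_num, by norm_num⟩
  intro m hm
  have hok := branchMoves_ok hB hc m hm
  simp only [branchMoves, List.mem_cons, List.not_mem_nil, or_false] at hm
  rcases hm with rfl | rfl | rfl | rfl | rfl | rfl | rfl | rfl
  rotate_right
  · refine moveField_outside hok hp ?_
    rcases hsep with h | h
    · exact Or.inl (cyl_outside hB h hR hc.2.2.1 (qnat 1) (qnat 0))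
    · exact Or.inr (Or.inl (cyl_outside hB h hL hc.2.2.2 (qnat 1) (qnat 0)))
  all_goals
    refine moveField_outside hok hp (Or.inr (Or.inr (Or.inr ?_)))
    simp [stackPt, moveZ, moveX, moveY, scaleX, scaleY, mid, rv_qfrac]
    norm_num

lemma stack_affine {B : ℕ} (hB : 3 ≤ B) (s d t : List ℕ) :
    1 / 2 + rv (qfrac (B ^ s.length) (B ^ d.length)) *
        (1 / 4 + xi B (s ++ t) / 2 + rv (qsub (qfrac 1 2) (cenQ B s)) - 1 / 2)
      + rv (qsub (cenQ B d) (qfrac 1 2)) = 1 / 4 + xi B (d ++ t) / 2 := by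
  have hs : (0 : ℝ) < (B : ℝ) ^ s.length := by
    have : (0 : ℝ) < B := by exact_mod_cast (show 0 < B by omega)
    positivity
  have hd : (0 : ℝ) < (B : ℝ) ^ d.length := by
    have : (0 : ℝ) < B := by exact_mod_cast (show 0 < B by omega)
    positivity
  rw [rv_qsub, rv_qsub, cenQ_val hB, cenQ_val hB, rv_qfrac _ (by positivity),
    rv_qfrac 1 (show 2 ≠ 0 by norm_num), xi_append, xi_append]
  push_cast
  field_simp
  ring

lemma stack_mid {B : ℕ} (hB : 3 ≤ B) {s d t : List ℕ} (hs : Digs B (s ++ t))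
    (_hd : Digs B (d ++ t)) :
    1 / 4 + xi B (s ++ t) / 2 + rv (qsub (qfrac 1 2) (cenQ B s)) ∈ W ∧
    1 / 2 + rv (qfrac (B ^ s.length) (B ^ d.length)) *
        (1 / 4 + xi B (s ++ t) / 2 + rv (qsub (qfrac 1 2) (cenQ B s)) - 1 / 2) ∈ W := by
  obtain ⟨x0, x1⟩ := xi_bounds hB fun a ha => hs a (List.mem_append_right s ha)
  have hB' : (3 : ℝ) ≤ B := by exact_mod_cast hB
  have hps : (1 : ℝ) ≤ (B : ℝ) ^ s.length := one_le_pow₀ (by linarith)
  have hpd : (1 : ℝ) ≤ (B : ℝ) ^ d.length := one_le_pow₀ (by linarith)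
  have e1 : 1 / 4 + xi B (s ++ t) / 2 + rv (qsub (qfrac 1 2) (cenQ B s))
      = 1 / 2 + (xi B t - 1 / 2) / 2 / (B : ℝ) ^ s.length := by
    rw [rv_qsub, cenQ_val hB, rv_qfrac 1 (show 2 ≠ 0 by norm_num), xi_append]
    field_simp
    push_cast
    ring
  rw [e1]
  have key : ∀ q : ℝ, 1 ≤ q → 1 / 2 + (xi B t - 1 / 2) / 2 / q ∈ W := by
    intro q hq
    have : |(xi B t - 1 / 2) / 2 / q| ≤ 1 / 4 := by
      rw [abs_div, div_le_iff₀ (by rw [abs_of_pos (by linarith)]; linarith),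
        abs_of_pos (by linarith : (0 : ℝ) < q)]
      have : |(xi B t - 1 / 2) / 2| ≤ 1 / 4 := abs_le.2 ⟨by linarith, by linarith⟩
      nlinarith
    obtain ⟨a, b⟩ := abs_le.1 this
    constructor <;> linarith
  refine ⟨key _ hps, ?_⟩
  have e2 : 1 / 2 + rv (qfrac (B ^ s.length) (B ^ d.length)) *
      (1 / 2 + (xi B t - 1 / 2) / 2 / (B : ℝ) ^ s.length - 1 / 2)
      = 1 / 2 + (xi B t - 1 / 2) / 2 / (B : ℝ) ^ d.length := by
    rw [rv_qfrac _ (by positivity)]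
    push_cast
    field_simp
    ring
  rw [e2]
  exact key _ hpd

/-- The points that may be visited during the period: high ones, and ones over the old and
the new stacks. -/
def Visit (A : Set Pt) (x x' : ℝ) : Prop :=
  ∀ p ∈ cube, (3 / 8 ≤ p 2 ∨ p 0 = x ∨ p 0 = x') → p ∈ A

lemma route_branch {B : ℕ} (hB : 3 ≤ B) {b : Branch} (hb : BrOK B b) {tR tL : List ℕ}
    (hsR : Digs B (b.1 ++ tR)) (hsL : Digs B (b.2.1 ++ tL))
    (hdR : Digs B (b.2.2.1 ++ tR)) (hdL : Digs B (b.2.2.2 ++ tL)) {A : Set Pt}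
    (hA : Visit A (1 / 4 + xi B (b.1 ++ tR) / 2) (1 / 4 + xi B (b.2.2.1 ++ tR) / 2)) :
    Route A (branchMoves B b) (stackPt B (b.1 ++ tR) (b.2.1 ++ tL) (1 / 4))
      (stackPt B (b.2.2.1 ++ tR) (b.2.2.2 ++ tL) (3 / 4)) := by
  have hH : High A := fun p hp hz => hA p hp (Or.inl hz)
  have hx := coord_mem hB hsR
  have hy := coord_mem hB hsL
  have hx' := coord_mem hB hdR
  have hy' := coord_mem hB hdL
  obtain ⟨mx1, mx2⟩ := stack_mid hB hsR hdR
  obtain ⟨my1, my2⟩ := stack_mid hB hsL hdL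
  have hBp : (0 : ℝ) < B := by exact_mod_cast (show 0 < B by omega)
  have hrx : 0 < rv (qfrac (B ^ b.1.length) (B ^ b.2.2.1.length)) := by
    rw [rv_qfrac _ (by positivity)]; push_cast; positivity
  have hry : 0 < rv (qfrac (B ^ b.2.1.length) (B ^ b.2.2.2.length)) := by
    rw [rv_qfrac _ (by positivity)]; push_cast; positivity
  have l1 : Act (moveField (moveZ (qfrac 1 4) (qfrac 1 4) (qfrac 1 2)
        (box (cyl B b.1 (qnat 1) (qnat 0))) (box (cyl B b.2.1 (qnat 1) (qnat 0))))) A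
      (stackPt B (b.1 ++ tR) (b.2.1 ++ tL) (1 / 4))
      (pt (1 / 4 + xi B (b.1 ++ tR) / 2) (1 / 4 + xi B (b.2.1 ++ tL) / 2) (1 / 2)) := by
    have h := act_moveZ (A := A) (qfrac 1 4) (qfrac 1 4) (qfrac 1 2)
      (box (cyl B b.1 (qnat 1) (qnat 0))) (box (cyl B b.2.1 (qnat 1) (qnat 0)))
      (cylSlot hB hb.1 _ _) (cylSlot hB hb.2.1 _ _) zslot_low (z := 1 / 4)
      (cyl_inside hB hsR (qnat 1) (qnat 0)) (cyl_inside hB hsL (qnat 1) (qnat 0))
      (fun s hs => by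
        simp [rv_qfrac]; constructor <;> nlinarith [hs.1, hs.2])
      (fun s hs => hA _ (pt_mem_cube (W_sub hx) (W_sub hy)
        ⟨by simp [rv_qfrac]; nlinarith [hs.1], by simp [rv_qfrac]; nlinarith [hs.2]⟩)
        (Or.inr (Or.inl rfl)))
    simp only [stackPt]
    convert h using 2
    simp [rv_qfrac]; norm_num
  have l8 : Act (moveField (moveZ (qfrac 1 4) (qfrac 1 2) (qfrac 3 4)
        (box (cyl B b.2.2.1 (qnat 1) (qnat 0))) (box (cyl B b.2.2.2 (qnat 1) (qnat 0))))) A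
      (pt (1 / 4 + xi B (b.2.2.1 ++ tR) / 2) (1 / 4 + xi B (b.2.2.2 ++ tL) / 2) (1 / 2))
      (stackPt B (b.2.2.1 ++ tR) (b.2.2.2 ++ tL) (3 / 4)) := by
    have h := act_moveZ (A := A) (qfrac 1 4) (qfrac 1 2) (qfrac 3 4)
      (box (cyl B b.2.2.1 (qnat 1) (qnat 0))) (box (cyl B b.2.2.2 (qnat 1) (qnat 0)))
      (cylSlot hB hb.2.2.1 _ _) (cylSlot hB hb.2.2.2 _ _) zslot_high (z := 1 / 2)
      (cyl_inside hB hdR (qnat 1) (qnat 0)) (cyl_inside hB hdL (qnat 1) (qnat 0))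
      (fun s hs => by
        simp [rv_qfrac]; constructor <;> nlinarith [hs.1, hs.2])
      (fun s hs => hA _ (pt_mem_cube (W_sub hx') (W_sub hy')
        ⟨by simp [rv_qfrac]; nlinarith [hs.1], by simp [rv_qfrac]; nlinarith [hs.2]⟩)
        (Or.inr (Or.inr rfl)))
    simp only [stackPt]
    convert h using 2
    simp [rv_qfrac]; norm_num
  have l6 := act_moveX hH (qsub (cenQ B b.2.2.1) (qfrac 1 2)) mx2 my2
    (by rw [stack_affine hB]; exact hx')
  have l7 := act_moveY hH (qsub (cenQ B b.2.2.2) (qfrac 1 2)) hx' my2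
    (by rw [stack_affine hB]; exact hy')
  rw [stack_affine hB] at l6 l7
  exact ⟨_, l1, _, act_moveX hH _ hx hy mx1, _, act_moveY hH _ mx1 hy my1,
    _, act_scaleX hH _ hrx mx1 my1 mx2, _, act_scaleY hH _ hry mx2 my1 my2, _, l6, _, l7, _, l8,
    rfl⟩

/-- A period of moves carries the point of the old stacks to the point of the new stacks. -/
theorem route_period {B : ℕ} (hB : 3 ≤ B) {bs : List Branch} (hok : ∀ b ∈ bs, BrOK B b)
    (hsep : bs.Pairwise fun b c => Sep b c ∧ Sep c b) {b : Branch} (hb : b ∈ bs) {tR tL : List ℕ}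
    (hsR : Digs B (b.1 ++ tR)) (hsL : Digs B (b.2.1 ++ tL))
    (hdR : Digs B (b.2.2.1 ++ tR)) (hdL : Digs B (b.2.2.2 ++ tL)) {A : Set Pt}
    (hA : Visit A (1 / 4 + xi B (b.1 ++ tR) / 2) (1 / 4 + xi B (b.2.2.1 ++ tR) / 2)) :
    Route A (periodMoves B bs) (stackPt B (b.1 ++ tR) (b.2.1 ++ tL) (1 / 4))
      (stackPt B (b.2.2.1 ++ tR) (b.2.2.2 ++ tL) (1 / 4)) := by
  have hx := coord_mem hB hsR
  have hy := coord_mem hB hsL
  have hx' := coord_mem hB hdR
  have hy' := coord_mem hB hdL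
  obtain ⟨pre, post, rfl⟩ := List.append_of_mem hb
  rw [List.pairwise_append, List.pairwise_cons] at hsep
  obtain ⟨-, ⟨hpost, -⟩, hpre⟩ := hsep
  have mem_lo : stackPt B (b.1 ++ tR) (b.2.1 ++ tL) (1 / 4) ∈ A :=
    hA _ (pt_mem_cube (W_sub hx) (W_sub hy) ⟨by norm_num, by norm_num⟩) (Or.inr (Or.inl rfl))
  have mem_hi : stackPt B (b.2.2.1 ++ tR) (b.2.2.2 ++ tL) (3 / 4) ∈ A :=
    hA _ (pt_mem_cube (W_sub hx') (W_sub hy') ⟨by norm_num, by norm_num⟩)
      (Or.inr (Or.inr rfl))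
  have r1 : Route A (pre.flatMap (branchMoves B)) (stackPt B (b.1 ++ tR) (b.2.1 ++ tL) (1 / 4))
      (stackPt B (b.1 ++ tR) (b.2.1 ++ tL) (1 / 4)) := by
    apply Route.still mem_lo
    intro m hm
    obtain ⟨c, hc, hm⟩ := List.mem_flatMap.1 hm
    exact still_low hB (hok c (by simp [hc])) hsR hsL ((hpre c hc b (by simp)).2.1) m hm
  have r3 : Route A (post.flatMap (branchMoves B))
      (stackPt B (b.2.2.1 ++ tR) (b.2.2.2 ++ tL) (3 / 4))
      (stackPt B (b.2.2.1 ++ tR) (b.2.2.2 ++ tL) (3 / 4)) := by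
    apply Route.still mem_hi
    intro m hm
    obtain ⟨c, hc, hm⟩ := List.mem_flatMap.1 hm
    exact still_high hB (hok c (by simp [hc])) hdR hdL ((hpost c hc).1.2) m hm
  have r2 := route_branch hB (hok b hb) hsR hsL hdR hdL hA
  have r4 : Route A [dropMove] (stackPt B (b.2.2.1 ++ tR) (b.2.2.2 ++ tL) (3 / 4))
      (stackPt B (b.2.2.1 ++ tR) (b.2.2.2 ++ tL) (1 / 4)) := by
    refine ⟨_, ?_, rfl⟩
    have h := act_moveZ (A := A) (qneg (qfrac 1 2)) (qfrac 1 4) (qfrac 3 4)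
      (box (wide (qnat 1) (qnat 0))) (box (wide (qnat 1) (qnat 0)))
      (wide_ok _ _) (wide_ok _ _) zslot_all (z := 3 / 4)
      (x := 1 / 4 + xi B (b.2.2.1 ++ tR) / 2) (y := 1 / 4 + xi B (b.2.2.2 ++ tL) / 2)
      (by simpa [box, wide, rv_qfrac] using hx') (by simpa [box, wide, rv_qfrac] using hy')
      (fun s hs => by
        simp [rv_qfrac]; constructor <;> nlinarith [hs.1, hs.2])
      (fun s hs => hA _ (pt_mem_cube (W_sub hx') (W_sub hy')
        ⟨by simp [rv_qfrac]; nlinarith [hs.2], by simp [rv_qfrac]; nlinarith [hs.1]⟩)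
        (Or.inr (Or.inr rfl)))
    simp only [stackPt, dropMove]
    convert h using 2
    simp [rv_qfrac]; norm_num
  have all := r1.append (r2.append (r3.append r4))
  simpa [periodMoves, List.flatMap_append, List.flatMap_cons, List.append_assoc] using all

end Vale.Agent.P113
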