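import Vale.Agent.P113.Defs

/-! Basic facts about bumps and periodizations. -/

noncomputable section

open MeasureTheory Set
open scoped ContDiff

namespace Vale.Agent.P113

lemma rho_eq_glue (s : ℝ) : rho s = expNegInvGlue (1 - s ^ 2) := by
  unfold rho expNegInvGlue
  by_cases h : |s| < 1
  · have h2 : ¬ (1 - s ^ 2 ≤ 0) := by nlinarith [abs_lt.1 h]
    rw [if_pos h, if_neg h2, neg_div, one_div]
  · have h2 : 1 - s ^ 2 ≤ 0 := by
      have h' := not_lt.1 h
      nlinarith [sq_abs s, abs_nonneg s]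
    rw [if_neg h, if_pos h2]

lemma rho_smooth : ContDiff ℝ ∞ rho := by
  rw [show rho = fun s => expNegInvGlue (1 - s ^ 2) from funext rho_eq_glue]
  exact expNegInvGlue.contDiff.comp (by fun_prop)

lemma rho_zero {s : ℝ} (h : 1 ≤ |s|) : rho s = 0 := by
  unfold rho; rw [if_neg (not_lt.2 h)]

lemma rho_nonneg (s : ℝ) : 0 ≤ rho s := by
  unfold rho; split_ifs <;> positivity

lemma rho_compact : HasCompactSupport rho :=
  HasCompactSupport.intro (isCompact_Icc : IsCompact (Icc (-1 : ℝ) 1)) (fun x hx => by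
    apply rho_zero
    simp only [mem_Icc, not_and_or, not_le] at hx
    rcases hx with h | h
    · rw [abs_of_neg (by linarith)]; linarith
    · rw [abs_of_pos (by linarith)]; linarith)

lemma rho_int : Integrable rho := rho_smooth.continuous.integrable_of_hasCompactSupport rho_compact

lemma kappa_pos : 0 < kappa := by
  unfold kappa
  apply Continuous.integral_pos_of_hasCompactSupport_nonneg_nonzero rho_smooth.continuous
    rho_compact rho_nonneg (x := 0)
  unfold rho; simp [Real.exp_ne_zero]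

lemma kappa_ne : kappa ≠ 0 := kappa_pos.ne'

lemma sigma_low {s : ℝ} (h : s ≤ -1) : sigma s = 0 := by
  unfold sigma
  apply setIntegral_eq_zero_of_forall_eq_zero
  intro x hx
  exact rho_zero (by rw [abs_of_nonpos (by linarith [mem_Iic.1 hx])]; linarith [mem_Iic.1 hx])

lemma sigma_high {s : ℝ} (h : 1 ≤ s) : sigma s = kappa := by
  unfold sigma kappa
  rw [← integral_indicator measurableSet_Iic]
  congr 1
  funext x
  by_cases hx : x ≤ s
  · simp [hx]
  · rw [indicator_of_notMem (by simpa using hx), rho_zero]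
    rw [abs_of_pos (by linarith)]; linarith

lemma sigma_interval (s : ℝ) : sigma s = ∫ t in (-1 : ℝ)..s, rho t := by
  have := intervalIntegral.integral_Iic_sub_Iic (a := (-1 : ℝ)) (b := s)
    rho_int.integrableOn rho_int.integrableOn
  rw [← this]
  have h0 := sigma_low (le_refl (-1 : ℝ))
  unfold sigma at h0 ⊢
  linarith

lemma sigma_deriv (s : ℝ) : HasDerivAt sigma (rho s) s := by
  rw [show sigma = fun u => ∫ t in (-1 : ℝ)..u, rho t from funext sigma_interval]
  exact intervalIntegral.integral_hasDerivAt_right rho_int.intervalIntegrable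
    rho_smooth.continuous.stronglyMeasurable.stronglyMeasurableAtFilter
    rho_smooth.continuous.continuousAt

lemma deriv_sigma : deriv sigma = rho := funext fun s => (sigma_deriv s).deriv

lemma sigma_smooth : ContDiff ℝ ∞ sigma := by
  rw [contDiff_infty_iff_deriv]
  exact ⟨fun s => (sigma_deriv s).differentiableAt, by rw [deriv_sigma]; exact rho_smooth⟩

lemma piFun_smooth (l : ℝ) : ContDiff ℝ ∞ (piFun l) :=
  sigma_smooth.sub (sigma_smooth.comp (contDiff_id.sub contDiff_const))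

lemma piFun_deriv (l s : ℝ) : HasDerivAt (piFun l) (rho s - rho (s - l)) s := by
  have h : HasDerivAt (fun x => sigma (x - l)) (rho (s - l)) s := by
    simpa [Function.comp_def] using
      HasDerivAt.comp s (sigma_deriv (s - l)) ((hasDerivAt_id s).sub_const l)
  exact (sigma_deriv s).sub h

lemma piFun_one {l s : ℝ} (h1 : 1 ≤ s) (h2 : s ≤ l - 1) : piFun l s = kappa := by
  unfold piFun
  rw [sigma_high h1, sigma_low (by linarith), sub_zero]

lemma piFun_low {l s : ℝ} (hl : 0 ≤ l) (h : s ≤ -1) : piFun l s = 0 := by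
  unfold piFun; rw [sigma_low h, sigma_low (by linarith), sub_zero]

lemma piFun_high {l s : ℝ} (hl : 0 ≤ l) (h : l + 1 ≤ s) : piFun l s = 0 := by
  unfold piFun; rw [sigma_high (by linarith), sigma_high (by linarith), sub_self]

lemma iterDeriv_rho_smooth (j : ℕ) : ContDiff ℝ ∞ (iteratedDeriv j rho) :=
  by
    induction j with
    | zero => simpa [iteratedDeriv_zero] using rho_smooth
    | succ n ih => rw [iteratedDeriv_succ]; exact (contDiff_infty_iff_deriv.1 ih).2

lemma iterDeriv_rho_zero (j : ℕ) {s : ℝ} (h : 1 ≤ |s|) : iteratedDeriv j rho s = 0 := by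
  have hopen : ∀ x : ℝ, 1 < |x| → iteratedDeriv j rho x = 0 := by
    intro x hx
    have he : rho =ᶠ[nhds x] fun _ => (0 : ℝ) := by
      filter_upwards [(isOpen_lt continuous_const continuous_abs).mem_nhds hx] with y hy
      exact rho_zero (le_of_lt hy)
    rw [he.iteratedDeriv_eq j]
    simp
  rcases lt_or_eq_of_le h with h | h
  · exact hopen s h
  · have hd : s ∈ closure {x : ℝ | 1 < |x|} := by
      rw [Metric.mem_closure_iff]
      intro ε hε
      rcases le_total 0 s with hs | hs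
      · refine ⟨s + ε / 2, ?_, ?_⟩
        · rw [abs_of_nonneg hs] at h
          simp only [mem_ofPred_eq]; rw [abs_of_pos (by linarith)]; linarith
        · rw [Real.dist_eq, abs_of_nonpos (by linarith)]; linarith
      · refine ⟨s - ε / 2, ?_, ?_⟩
        · rw [abs_of_nonpos hs] at h
          simp only [mem_ofPred_eq]; rw [abs_of_neg (by linarith)]; linarith
        · rw [Real.dist_eq, abs_of_nonneg (by linarith)]; linarith
    have hc : IsClosed {x : ℝ | iteratedDeriv j rho x = 0} :=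
      isClosed_eq (iterDeriv_rho_smooth j).continuous continuous_const
    exact closure_minimal (fun x hx => hopen x hx) hc hd

/-! ### Arithmetic on `QD` -/

/-- A natural number as a rational. -/
def qnat (n : ℕ) : QD := (n, 0, 0)

/-- The quotient `n / d` (for `d ≠ 0`). -/
def qfrac (n d : ℕ) : QD := (n, 0, d - 1)

/-- Sum. -/
def qadd (x y : QD) : QD :=
  (x.1 * (y.2.2 + 1) + y.1 * (x.2.2 + 1), x.2.1 * (y.2.2 + 1) + y.2.1 * (x.2.2 + 1),
    (x.2.2 + 1) * (y.2.2 + 1) - 1)

/-- Negation. -/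
def qneg (x : QD) : QD := (x.2.1, x.1, x.2.2)

/-- Difference. -/
def qsub (x y : QD) : QD := qadd x (qneg y)

/-- Product. -/
def qmul (x y : QD) : QD :=
  (x.1 * y.1 + x.2.1 * y.2.1, x.1 * y.2.1 + x.2.1 * y.1, (x.2.2 + 1) * (y.2.2 + 1) - 1)

/-- The value in the reals. -/
def rv (x : QD) : ℝ := (qval x : ℝ)

lemma rv_def (x : QD) : rv x = ((x.1 : ℝ) - x.2.1) / ((x.2.2 : ℝ) + 1) := by
  simp [rv, qval]

lemma pred_prod (a b : ℕ) :
    (((a + 1) * (b + 1) - 1 : ℕ) : ℝ) + 1 = ((a : ℝ) + 1) * ((b : ℝ) + 1) := by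
  have h : ((a + 1) * (b + 1) - 1) + 1 = (a + 1) * (b + 1) :=
    Nat.sub_add_cancel (Nat.mul_pos (by omega) (by omega))
  calc _ = ((((a + 1) * (b + 1) - 1) + 1 : ℕ) : ℝ) := by push_cast; ring
    _ = _ := by rw [h]; push_cast; ring

@[simp] lemma rv_qnat (n : ℕ) : rv (qnat n) = n := by simp [rv_def, qnat]

lemma rv_qfrac (n : ℕ) {d : ℕ} (hd : d ≠ 0) : rv (qfrac n d) = (n : ℝ) / d := by
  simp only [rv_def, qfrac, Nat.cast_sub (Nat.one_le_iff_ne_zero.2 hd)]
  simp

@[simp] lemma rv_qadd (x y : QD) : rv (qadd x y) = rv x + rv y := by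
  simp only [rv_def, qadd, pred_prod]
  push_cast
  field_simp
  ring

@[simp] lemma rv_qneg (x : QD) : rv (qneg x) = -rv x := by
  simp only [rv_def, qneg]; ring

@[simp] lemma rv_qsub (x y : QD) : rv (qsub x y) = rv x - rv y := by
  simp [qsub, sub_eq_add_neg]

@[simp] lemma rv_qmul (x y : QD) : rv (qmul x y) = rv x * rv y := by
  simp only [rv_def, qmul, pred_prod]
  push_cast
  field_simp
  ring

/-! ### Smooth functions with bounded support -/

/-- Smooth with bounded support. -/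
def Nice (g : ℝ → ℝ) : Prop := ContDiff ℝ ∞ g ∧ ∃ R : ℝ, ∀ s, R < |s| → g s = 0

lemma Nice.deriv {g : ℝ → ℝ} (h : Nice g) : Nice (deriv g) := by
  obtain ⟨hs, R, hR⟩ := h
  refine ⟨(contDiff_infty_iff_deriv.1 hs).2, R, fun s hlt => ?_⟩
  have he : g =ᶠ[nhds s] fun _ => (0 : ℝ) := by
    filter_upwards [(isOpen_lt continuous_const continuous_abs).mem_nhds hlt] with y hy
    exact hR y hy
  rw [he.deriv_eq]; simp

lemma per_eq_sum {g : ℝ → ℝ} {R : ℝ} (hR : ∀ s, R < |s| → g s = 0) {N : ℕ} {y : ℝ}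
    (hy : |y| + R < N) : per g y = ∑ m ∈ Finset.Icc (-(N : ℤ)) N, g (y + m) := by
  unfold per
  apply tsum_eq_sum
  intro m hm
  apply hR
  have hm' : (N : ℤ) < |m| := by
    simp only [Finset.mem_Icc, not_and_or, not_le] at hm
    rcases hm with h | h
    · rw [abs_of_neg (by omega)]; omega
    · rw [abs_of_pos (by omega)]; omega
  have : (N : ℝ) < |(m : ℝ)| := by exact_mod_cast hm'
  have h2 : |(m : ℝ)| ≤ |y + m| + |y| := by
    calc |(m : ℝ)| = |(y + m) - y| := by ring_nf
      _ ≤ _ := abs_sub _ _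
  linarith

lemma per_eventually {g : ℝ → ℝ} {R : ℝ} (hR : ∀ s, R < |s| → g s = 0) (y : ℝ) :
    ∃ N : ℕ, per g =ᶠ[nhds y] fun z => ∑ m ∈ Finset.Icc (-(N : ℤ)) N, g (z + m) := by
  obtain ⟨N, hN⟩ := exists_nat_gt (|y| + 1 + R)
  refine ⟨N, ?_⟩
  filter_upwards [(isOpen_lt continuous_abs continuous_const).mem_nhds
    (show |y| < |y| + 1 by linarith)] with z hz
  apply per_eq_sum hR
  linarith

lemma Nice.per_smooth {g : ℝ → ℝ} (h : Nice g) : ContDiff ℝ ∞ (per g) := by
  obtain ⟨hs, R, hR⟩ := h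
  rw [contDiff_iff_contDiffAt]
  intro y
  obtain ⟨N, hN⟩ := per_eventually hR y
  refine ContDiffAt.congr_of_eventuallyEq ?_ hN
  apply ContDiffAt.sum
  intro m _
  exact (hs.comp (contDiff_id.add contDiff_const)).contDiffAt

lemma Nice.per_deriv {g : ℝ → ℝ} (h : Nice g) (y : ℝ) :
    HasDerivAt (per g) (per (_root_.deriv g) y) y := by
  obtain ⟨hs, R, hR⟩ := h
  obtain ⟨R', hR'⟩ := (Nice.deriv ⟨hs, R, hR⟩).2
  obtain ⟨N, hN⟩ := exists_nat_gt (|y| + 1 + max R R')
  have e1 : per g =ᶠ[nhds y] fun z => ∑ m ∈ Finset.Icc (-(N : ℤ)) N, g (z + m) := by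
    filter_upwards [(isOpen_lt continuous_abs continuous_const).mem_nhds
      (show |y| < |y| + 1 by linarith)] with z hz
    exact per_eq_sum hR (by linarith [le_max_left R R'])
  refine HasDerivAt.congr_of_eventuallyEq ?_ e1
  rw [per_eq_sum hR' (N := N) (by linarith [le_max_right R R'])]
  apply HasDerivAt.fun_sum
  intro m _
  exact HasDerivAt.comp_add_const y (m : ℝ)
    ((hs.differentiable (by simp)).differentiableAt.hasDerivAt)

lemma per_shift (g : ℝ → ℝ) (y : ℝ) (n : ℤ) : per g (y + n) = per g y := by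
  unfold per
  rw [← (Equiv.addLeft n).tsum_eq (fun m : ℤ => g (y + m))]
  apply tsum_congr
  intro m
  simp [Equiv.coe_addLeft, add_assoc]

lemma per_eq_self {g : ℝ → ℝ} (h0 : ∀ s, s ≤ 0 → g s = 0) (h1 : ∀ s, 1 ≤ s → g s = 0)
    {y : ℝ} (hy : y ∈ Icc (0 : ℝ) 1) : per g y = g y := by
  unfold per
  rw [tsum_eq_single 0]
  · simp
  · intro m hm
    rcases lt_or_gt_of_ne hm with h | h
    · apply h0
      have : (m : ℝ) ≤ -1 := by exact_mod_cast Int.le_sub_one_of_lt h
      linarith [hy.2]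
    · apply h1
      have : (1 : ℝ) ≤ m := by exact_mod_cast h
      linarith [hy.1]

/-! ### The derivative of a bump -/

/-- The derivative of a bump, as a weighted list of bumps. -/
def dBump : Bump → List (QD × Bump)
  | Sum.inl (k, j, a, b) =>
      [(qnat k, Sum.inl (k - 1, j, a, b)), (a, Sum.inl (k, j + 1, a, b))]
  | Sum.inr (k, l, a, b) =>
      [(qnat k, Sum.inr (k - 1, l, a, b)), (a, Sum.inl (k, 0, a, b)),
        (qneg a, Sum.inl (k, 0, a, qadd b l))]

lemma bumpFun_smooth (B : Bump) : ContDiff ℝ ∞ (bumpFun B) := by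
  rcases B with ⟨k, j, a, b⟩ | ⟨k, l, a, b⟩
  · exact (contDiff_id.pow k).mul
      ((iterDeriv_rho_smooth j).comp ((contDiff_const.mul contDiff_id).sub contDiff_const))
  · exact (contDiff_id.pow k).mul
      ((piFun_smooth _).comp ((contDiff_const.mul contDiff_id).sub contDiff_const))

lemma linear_big {a b R : ℝ} (ha : a ≠ 0) :
    ∃ S : ℝ, ∀ s : ℝ, S < |s| → R < |a * s - b| := by
  refine ⟨(R + |b|) / |a|, fun s hs => ?_⟩
  rw [div_lt_iff₀ (abs_pos.2 ha)] at hs
  have h2 : |a * s| ≤ |a * s - b| + |b| := by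
    calc |a * s| = |(a * s - b) + b| := by ring_nf
      _ ≤ _ := abs_add_le _ _
  rw [abs_mul] at h2
  linarith [mul_comm |s| |a|]

lemma bumpFun_nice {B : Bump} (h : bumpOK B) : Nice (bumpFun B) := by
  refine ⟨bumpFun_smooth B, ?_⟩
  rcases B with ⟨k, j, a, b⟩ | ⟨k, l, a, b⟩
  · have h' : (qval a : ℝ) ≠ 0 := by exact_mod_cast (h : qval a ≠ 0)
    obtain ⟨S, hS⟩ := linear_big (b := (qval b : ℝ)) (R := 1) h'
    exact ⟨S, fun s hs => by simp [bumpFun, iterDeriv_rho_zero j (hS s hs).le]⟩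
  · have h' : (qval a : ℝ) ≠ 0 := by exact_mod_cast (h.1 : qval a ≠ 0)
    have hl : (0 : ℝ) ≤ (qval l : ℝ) := le_of_lt (by exact_mod_cast (h.2 : 0 < qval l))
    obtain ⟨S, hS⟩ := linear_big (b := (qval b : ℝ)) (R := (qval l : ℝ) + 1) h'
    refine ⟨S, fun s hs => ?_⟩
    have := hS s hs
    simp only [bumpFun]
    rcases lt_abs.1 this with h2 | h2
    · rw [piFun_high hl h2.le, mul_zero]
    · rw [piFun_low hl (by linarith), mul_zero]

lemma dBump_ok {B : Bump} (h : bumpOK B) : ∀ p ∈ dBump B, bumpOK p.2 := by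
  rcases B with ⟨k, j, a, b⟩ | ⟨k, l, a, b⟩ <;>
    simp_all [dBump, bumpOK]

lemma bumpFun_deriv (B : Bump) (s : ℝ) :
    HasDerivAt (bumpFun B) (((dBump B).map fun p => rv p.1 * bumpFun p.2 s).sum) s := by
  rcases B with ⟨k, j, a, b⟩ | ⟨k, l, a, b⟩
  · have hg : HasDerivAt (fun x : ℝ => (qval a : ℝ) * x - (qval b : ℝ)) (qval a : ℝ) s := by
      simpa using ((hasDerivAt_id s).const_mul (qval a : ℝ)).sub_const (qval b : ℝ)
    have hf : HasDerivAt (iteratedDeriv j rho)
        (iteratedDeriv (j + 1) rho ((qval a : ℝ) * s - (qval b : ℝ)))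
        ((qval a : ℝ) * s - (qval b : ℝ)) := by
      rw [iteratedDeriv_succ]
      exact ((iterDeriv_rho_smooth j).differentiable (by simp)).differentiableAt.hasDerivAt
    refine ((hasDerivAt_pow k s).fun_mul (hf.comp s hg)).congr_deriv ?_
    have e3 : rv (qnat k) = (k : ℝ) := rv_qnat k
    simp only [rv] at e3
    simp [dBump, bumpFun, rv, e3]
    ring
  · have hg : HasDerivAt (fun x : ℝ => (qval a : ℝ) * x - (qval b : ℝ)) (qval a : ℝ) s := by
      simpa using ((hasDerivAt_id s).const_mul (qval a : ℝ)).sub_const (qval b : ℝ)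
    have hf := piFun_deriv (qval l : ℝ) ((qval a : ℝ) * s - (qval b : ℝ))
    refine ((hasDerivAt_pow k s).fun_mul (hf.comp s hg)).congr_deriv ?_
    have e : (qval (qadd b l) : ℝ) = (qval b : ℝ) + (qval l : ℝ) := rv_qadd b l
    have e2 : (qval (qneg a) : ℝ) = -(qval a : ℝ) := rv_qneg a
    have e3 : rv (qnat k) = (k : ℝ) := rv_qnat k
    simp only [rv] at e3
    simp [dBump, bumpFun, rv, e, e2, e3, sub_sub]
    ring

end Vale.Agent.P113
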