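import Vale.Agent.P113.Rules

/-! The compiler, and the proof that it is computable. -/

noncomputable section

namespace Vale.Agent.P113

/-- The coordinate of a stack. -/
def coordQ (B : ℕ) (l : List ℕ) : QD := qadd (qfrac 1 4) (qmul (xiQ B l) (qfrac 1 2))

/-- The loading moves for an input. -/
def startMoves (i : MCode × List ℕ) : List Move :=
  loadMoves (coordQ (cBase i.1) (stM i.1 0 :: (i.2 ++ [sp' i.1]))) (coordQ (cBase i.1) [])

/-- The periodic moves of a machine. -/
def machineMoves (c : MCode) : List Move := periodMoves (cBase c) (rules c)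

/-- The compiler. -/
def compile (i : MCode × List ℕ) : ForceData := forceOf (velSys (startMoves i) (machineMoves i.1))

section Prim

open Primrec

set_option synthInstance.maxSize 1000
set_option synthInstance.maxHeartbeats 400000

variable {α : Type} [Primcodable α]

lemma pr_pow {f g : α → ℕ} (hf : Primrec f) (hg : Primrec g) : Primrec fun a => f a ^ g a :=
  (Primrec₂.unpaired'.1 Nat.Primrec.pow : Primrec₂ ((· ^ ·) : ℕ → ℕ → ℕ)).comp hf hg

lemma pr_add {f g : α → ℕ} (hf : Primrec f) (hg : Primrec g) : Primrec fun a => f a + g a :=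
  nat_add.comp hf hg

lemma pr_mul {f g : α → ℕ} (hf : Primrec f) (hg : Primrec g) : Primrec fun a => f a * g a :=
  nat_mul.comp hf hg

lemma pr_sub {f g : α → ℕ} (hf : Primrec f) (hg : Primrec g) : Primrec fun a => f a - g a :=
  nat_sub.comp hf hg

lemma pr_beq {f g : α → ℕ} (hf : Primrec f) (hg : Primrec g) : Primrec fun a => f a == g a :=
  Primrec.beq.comp hf hg

lemma pr_qnat {f : α → ℕ} (hf : Primrec f) : Primrec fun a => qnat (f a) :=
  (Primrec.pair hf (Primrec.pair (const 0) (const 0))).of_eq fun _ => rfl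

lemma pr_qfrac {f g : α → ℕ} (hf : Primrec f) (hg : Primrec g) :
    Primrec fun a => qfrac (f a) (g a) :=
  (Primrec.pair hf (Primrec.pair (const 0) (pr_sub hg (const 1)))).of_eq fun _ => rfl

lemma pr_qneg {f : α → QD} (hf : Primrec f) : Primrec fun a => qneg (f a) :=
  (Primrec.pair (fst.comp (snd.comp hf))
    (Primrec.pair (fst.comp hf) (snd.comp (snd.comp hf)))).of_eq fun _ => rfl

lemma pr_qadd {f g : α → QD} (hf : Primrec f) (hg : Primrec g) :
    Primrec fun a => qadd (f a) (g a) := by
  have df := pr_add (snd.comp (snd.comp hf)) (const 1)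
  have dg := pr_add (snd.comp (snd.comp hg)) (const 1)
  exact (Primrec.pair (pr_add (pr_mul (fst.comp hf) dg) (pr_mul (fst.comp hg) df))
    (Primrec.pair (pr_add (pr_mul (fst.comp (snd.comp hf)) dg)
      (pr_mul (fst.comp (snd.comp hg)) df)) (pr_sub (pr_mul df dg) (const 1)))).of_eq fun _ => rfl

lemma pr_qsub {f g : α → QD} (hf : Primrec f) (hg : Primrec g) :
    Primrec fun a => qsub (f a) (g a) := pr_qadd hf (pr_qneg hg)

lemma pr_qmul {f g : α → QD} (hf : Primrec f) (hg : Primrec g) :
    Primrec fun a => qmul (f a) (g a) := by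
  have df := pr_add (snd.comp (snd.comp hf)) (const 1)
  have dg := pr_add (snd.comp (snd.comp hg)) (const 1)
  exact (Primrec.pair
    (pr_add (pr_mul (fst.comp hf) (fst.comp hg))
      (pr_mul (fst.comp (snd.comp hf)) (fst.comp (snd.comp hg))))
    (Primrec.pair (pr_add (pr_mul (fst.comp hf) (fst.comp (snd.comp hg)))
      (pr_mul (fst.comp (snd.comp hf)) (fst.comp hg)))
      (pr_sub (pr_mul df dg) (const 1)))).of_eq fun _ => rfl

lemma pr_single {β : Type} [Primcodable β] {f : α → β} (hf : Primrec f) :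
    Primrec fun a => [f a] :=
  list_cons.comp hf (const [])

lemma pr_append {β : Type} [Primcodable β] {f g : α → List β} (hf : Primrec f) (hg : Primrec g) :
    Primrec fun a => f a ++ g a :=
  list_append.comp hf hg

lemma pr_pvalQ {f : α → ℕ} {g : α → List ℕ} (hf : Primrec f) (hg : Primrec g) :
    Primrec fun a => pvalQ (f a) (g a) := by
  refine (list_foldr (h := fun a (p : ℕ × QD) =>
      qmul (qadd (qnat (2 * p.1 + 1)) p.2) (qfrac 1 (f a))) hg (const (qnat 0)) ?_).of_eq fun a => ?_
  · exact (pr_qmul (pr_qadd (pr_qnat (pr_add (pr_mul (const 2) (fst.comp snd)) (const 1)))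
      (snd.comp snd)) (pr_qfrac (const 1) (hf.comp fst))).to₂
  · induction g a <;> simp [pvalQ, *]

lemma pr_xiQ {f : α → ℕ} {g : α → List ℕ} (hf : Primrec f) (hg : Primrec g) :
    Primrec fun a => xiQ (f a) (g a) := by
  refine (list_foldr (h := fun a (p : ℕ × QD) =>
      qmul (qadd (qnat (2 * p.1 + 1)) p.2) (qfrac 1 (f a))) hg
      (pr_qfrac (const 1) (pr_sub hf (const 1))) ?_).of_eq fun a => ?_
  · exact (pr_qmul (pr_qadd (pr_qnat (pr_add (pr_mul (const 2) (fst.comp snd)) (const 1)))
      (snd.comp snd)) (pr_qfrac (const 1) (hf.comp fst))).to₂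
  · induction g a <;> simp [xiQ, *]

/-! #### the machine -/

lemma pr_cK {f : α → MCode} (hf : Primrec f) : Primrec fun a => cK (f a) := fst.comp hf

lemma pr_cQ {f : α → MCode} (hf : Primrec f) : Primrec fun a => cQ (f a) := fst.comp (snd.comp hf)

lemma pr_cHalt {f : α → MCode} {g : α → ℕ} (hf : Primrec f) (hg : Primrec g) :
    Primrec fun a => cHalt (f a) (g a) :=
  (list_getD false).comp (fst.comp (snd.comp (snd.comp (snd.comp hf)))) hg

lemma pr_cEntry {f : α → MCode} {g h : α → ℕ} (hf : Primrec f) (hg : Primrec g)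
    (hh : Primrec h) : Primrec fun a => cEntry (f a) (g a) (h a) :=
  (list_getD none).comp
    ((list_getD []).comp (snd.comp (snd.comp (snd.comp (snd.comp hf)))) hg) hh

lemma pr_cTr {f : α → MCode} {g h : α → ℕ} (hf : Primrec f) (hg : Primrec g)
    (hh : Primrec h) : Primrec fun a => cTr (f a) (g a) (h a) := by
  have d : Primrec fun a => (h a, (1 : ℕ), g a) := Primrec.pair hh (Primrec.pair (const 1) hg)
  have r := cond (pr_cHalt hf hg) d (option_getD.comp (pr_cEntry hf hg hh) d)
  exact (Primrec.pair (nat_min.comp (fst.comp r) (pr_cK hf))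
    (Primrec.pair (fst.comp (snd.comp r))
      (nat_min.comp (snd.comp (snd.comp r)) (pr_cQ hf)))).of_eq fun _ => rfl

lemma pr_cJ {f : α → MCode} (hf : Primrec f) : Primrec fun a => cJ (f a) :=
  pr_mul (pr_mul (pr_add (pr_cQ hf) (const 1)) (pr_add (pr_cK hf) (const 2)))
    (pr_add (pr_cK hf) (const 1))

lemma pr_cLabel {f : α → MCode} {g h k : α → ℕ} (hf : Primrec f) (hg : Primrec g)
    (hh : Primrec h) (hk : Primrec k) : Primrec fun a => cLabel (f a) (g a) (h a) (k a) :=
  pr_add (pr_mul (pr_add (pr_mul hg (pr_add (pr_cK hf) (const 2))) hh)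
    (pr_add (pr_cK hf) (const 1))) hk

lemma pr_cRead {f : α → MCode} {g : α → ℕ} (hf : Primrec f) (hg : Primrec g) :
    Primrec fun a => cRead (f a) (g a) :=
  cond (pr_beq hg (pr_add (pr_cK hf) (const 1))) (const 0) hg

lemma pr_cState {f : α → MCode} {g : α → ℕ} (hf : Primrec f) (hg : Primrec g) :
    Primrec fun a => cState (f a) (g a) := by
  have j := nat_div.comp (pr_sub hg (const 1)) (pr_add (pr_cK hf) (const 1))
  have aft := snd.comp (snd.comp (pr_cTr hf (nat_div.comp j (pr_add (pr_cK hf) (const 2)))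
    (pr_cRead hf (nat_mod.comp j (pr_add (pr_cK hf) (const 2))))))
  exact (cond (pr_beq hg (const 0))
    (nat_min.comp (fst.comp (snd.comp (snd.comp hf))) (pr_cQ hf)) aft).of_eq fun _ => rfl

lemma pr_sp {f : α → MCode} (hf : Primrec f) : Primrec fun a => sp' (f a) :=
  pr_add (pr_cK hf) (const 2)

lemma pr_mk {f : α → MCode} (hf : Primrec f) : Primrec fun a => mk' (f a) :=
  pr_add (pr_cK hf) (const 1)

lemma pr_cS {f : α → MCode} (hf : Primrec f) : Primrec fun a => cS (f a) := by
  have J := pr_cJ hf
  have J1 := pr_add J (const 1)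
  exact pr_add (pr_add (pr_add J1 (pr_mul J1 J)) J) (pr_add (pr_add (pr_cK hf) (const 3)) J1)

lemma pr_cBase {f : α → MCode} (hf : Primrec f) : Primrec fun a => cBase (f a) :=
  pr_add (pr_mul (const 4) (pr_cS hf)) (const 2)

lemma pr_stM {f : α → MCode} {g : α → ℕ} (hf : Primrec f) (hg : Primrec g) :
    Primrec fun a => stM (f a) (g a) :=
  cond (pr_cHalt hf (pr_cState hf hg)) (pr_add (pr_cS hf) hg) hg

lemma pr_stA {f : α → MCode} {g h : α → ℕ} (hf : Primrec f) (hg : Primrec g) (hh : Primrec h) :
    Primrec fun a => stA (f a) (g a) (h a) :=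
  pr_add (pr_add (pr_cJ hf) (const 1)) (pr_add (pr_mul hg (pr_cJ hf)) hh)

lemma pr_stB {f : α → MCode} {g : α → ℕ} (hf : Primrec f) (hg : Primrec g) :
    Primrec fun a => stB (f a) (g a) :=
  pr_add (pr_add (pr_add (pr_cJ hf) (const 1))
    (pr_mul (pr_add (pr_cJ hf) (const 1)) (pr_cJ hf))) hg

lemma pr_rule1 {f : α → MCode} {g : α → ℕ × ℕ × ℕ} (hf : Primrec f) (hg : Primrec g) :
    Primrec fun a => rule1 (f a) (g a) := by
  have p := fst.comp hg
  have r := fst.comp (snd.comp hg)
  have l := snd.comp (snd.comp hg)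
  have q := pr_cState hf p
  have o := pr_cTr hf q (pr_cRead hf r)
  have isE := pr_beq r (pr_add (pr_cK hf) (const 1))
  have d0 := pr_beq (fst.comp (snd.comp o)) (const 0)
  have d1 := pr_beq (fst.comp (snd.comp o)) (const 1)
  have e := cond isE (pr_single (pr_sp hf)) (const [])
  exact (Primrec.pair
    (list_cons.comp (pr_stM hf p) (pr_single (cond isE (pr_sp hf) r)))
    (Primrec.pair (pr_single l)
      (Primrec.pair
        (list_cons.comp (pr_stA hf p (pr_cLabel hf q r l))
          (pr_append (cond d0 (list_cons.comp l (pr_single (fst.comp o)))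
            (cond d1 (pr_single (fst.comp o)) (const []))) e))
        (list_cons.comp (pr_mk hf) (cond d0 (const [])
          (cond d1 (pr_single l) (list_cons.comp (fst.comp o) (pr_single l)))))))).of_eq
    fun _ => rfl

lemma pr_rule2 {f : α → MCode} {g : α → ℕ × ℕ × ℕ} (hf : Primrec f) (hg : Primrec g) :
    Primrec fun a => rule2 (f a) (g a) := by
  have s := pr_stA hf (fst.comp hg) (fst.comp (snd.comp hg))
  have c := snd.comp (snd.comp hg)
  exact (Primrec.pair (list_cons.comp s (pr_single c)) (Primrec.pair (const [])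
    (Primrec.pair (pr_single s) (pr_single c)))).of_eq fun _ => rfl

lemma pr_rule3 {f : α → MCode} {g : α → ℕ × ℕ} (hf : Primrec f) (hg : Primrec g) :
    Primrec fun a => rule3 (f a) (g a) := by
  have p := fst.comp hg
  have j := snd.comp hg
  exact (Primrec.pair (list_cons.comp (pr_stA hf p j) (pr_single (pr_sp hf)))
    (Primrec.pair (const []) (Primrec.pair (list_cons.comp (pr_stB hf j) (list_cons.comp (pr_sp hf)
      (pr_single (pr_add (pr_add (pr_cK hf) (const 3)) p)))) (const [])))).of_eq fun _ => rfl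

lemma pr_rule4 {f : α → MCode} {g : α → ℕ × ℕ} (hf : Primrec f) (hg : Primrec g) :
    Primrec fun a => rule4 (f a) (g a) := by
  have s := pr_stB hf (fst.comp hg)
  exact (Primrec.pair (pr_single s) (Primrec.pair (pr_single (snd.comp hg))
    (Primrec.pair (list_cons.comp s (pr_single (snd.comp hg))) (const [])))).of_eq fun _ => rfl

lemma pr_rule5 {f : α → MCode} {g : α → ℕ} (hf : Primrec f) (hg : Primrec g) :
    Primrec fun a => rule5 (f a) (g a) :=
  (Primrec.pair (pr_single (pr_stB hf hg)) (Primrec.pair (pr_single (pr_mk hf))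
    (Primrec.pair (pr_single (pr_stM hf (pr_add hg (const 1)))) (const [])))).of_eq fun _ => rfl

lemma pr_pairs {f g : α → ℕ} (hf : Primrec f) (hg : Primrec g) :
    Primrec fun a => pairs (f a) (g a) :=
  list_flatMap (list_range.comp hf) (list_map (list_range.comp (hg.comp fst))
    (Primrec.pair (snd.comp fst) snd).to₂).to₂

lemma pr_triples {f g h : α → ℕ} (hf : Primrec f) (hg : Primrec g) (hh : Primrec h) :
    Primrec fun a => triples (f a) (g a) (h a) :=
  list_flatMap (list_range.comp hf) (list_map (pr_pairs (hg.comp fst) (hh.comp fst))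
    (Primrec.pair (snd.comp fst) snd).to₂).to₂

lemma pr_rules {f : α → MCode} (hf : Primrec f) : Primrec fun a => rules (f a) := by
  have J := pr_cJ hf
  have J1 := pr_add J (const 1)
  have K1 := pr_add (pr_cK hf) (const 1)
  exact pr_append (list_map (pr_triples J1 (pr_add (pr_cK hf) (const 2)) K1)
      (pr_rule1 (hf.comp fst) snd).to₂)
    (pr_append (list_map (pr_triples J1 J K1) (pr_rule2 (hf.comp fst) snd).to₂)
      (pr_append (list_map (pr_pairs J1 J) (pr_rule3 (hf.comp fst) snd).to₂)
        (pr_append (list_map (pr_pairs J K1) (pr_rule4 (hf.comp fst) snd).to₂)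
          (list_map (list_range.comp J) (pr_rule5 (hf.comp fst) snd).to₂))))

/-! #### moves and velocities -/

lemma pr_box {f : α → Slot} (hf : Primrec f) : Primrec fun a => box (f a) :=
  (Primrec.pair (fst.comp hf) (Primrec.pair (fst.comp (snd.comp hf))
    (fst.comp (snd.comp (snd.comp hf))))).of_eq fun _ => rfl

lemma pr_cyl {f : α → ℕ} {g : α → List ℕ} (hf : Primrec f) (hg : Primrec g) :
    Primrec fun a => cyl (f a) (g a) (qnat 1) (qnat 0) := by
  have n := pr_pow hf (list_length.comp hg)
  have lo := pr_qadd (const (qfrac 1 4)) (pr_qmul (pr_pvalQ hf hg) (const (qfrac 1 2)))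
  exact (Primrec.pair lo (Primrec.pair (pr_qadd lo (pr_qfrac (const 1) (pr_mul (const 2) n)))
    (Primrec.pair (pr_qnat (pr_mul (const 16) n))
      (Primrec.pair (const (qnat 1)) (const (qnat 0)))))).of_eq fun _ => rfl

lemma pr_cenQ {f : α → ℕ} {g : α → List ℕ} (hf : Primrec f) (hg : Primrec g) :
    Primrec fun a => cenQ (f a) (g a) :=
  pr_qadd (pr_qadd (const (qfrac 1 4)) (pr_qmul (pr_pvalQ hf hg) (const (qfrac 1 2))))
    (pr_qfrac (const 1) (pr_mul (const 4) (pr_pow hf (list_length.comp hg))))

lemma pr_moveX {f : α → QD} (hf : Primrec f) : Primrec fun a => moveX (f a) :=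
  (Primrec.pair (Primrec.pair (const false) (Primrec.pair hf (const ([] : List QD))))
    (const ((moveX (qnat 0)).2))).of_eq fun _ => rfl

lemma pr_moveY {f : α → QD} (hf : Primrec f) : Primrec fun a => moveY (f a) :=
  (Primrec.pair (Primrec.pair (const true) (Primrec.pair hf (const ([] : List QD))))
    (const ((moveY (qnat 0)).2))).of_eq fun _ => rfl

lemma pr_scaleX {f : α → QD} (hf : Primrec f) : Primrec fun a => scaleX (f a) :=
  (Primrec.pair (Primrec.pair (const false) (Primrec.pair (const (qnat 1)) (pr_single hf)))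
    (const ((scaleX (qnat 0)).2))).of_eq fun _ => rfl

lemma pr_scaleY {f : α → QD} (hf : Primrec f) : Primrec fun a => scaleY (f a) :=
  (Primrec.pair (Primrec.pair (const true) (Primrec.pair (const (qnat 1)) (pr_single hf)))
    (const ((scaleY (qnat 0)).2))).of_eq fun _ => rfl

lemma pr_moveZ {f g h : α → QD} {k l : α → QD × QD × QD} (hf : Primrec f) (hg : Primrec g)
    (hh : Primrec h) (hk : Primrec k) (hl : Primrec l) :
    Primrec fun a => moveZ (f a) (g a) (h a) (k a) (l a) := by
  have sx := Primrec.pair (fst.comp hk) (Primrec.pair (fst.comp (snd.comp hk))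
    (Primrec.pair (snd.comp (snd.comp hk)) (const ((qnat 0, qnat 1) : QD × QD))))
  have sy := Primrec.pair (fst.comp hl) (Primrec.pair (fst.comp (snd.comp hl))
    (Primrec.pair (snd.comp (snd.comp hl)) (const ((qnat 1, qnat 0) : QD × QD))))
  exact (Primrec.pair (Primrec.pair (const false) (Primrec.pair hf (const ([] : List QD))))
    (Primrec.pair sx (Primrec.pair sy (Primrec.pair hg (Primrec.pair hh
      (const ((qnat 16, qnat 1, qnat 0) : QD × QD × QD))))))).of_eq fun _ => rfl

lemma pr_branchMoves {f : α → ℕ} {g : α → Branch} (hf : Primrec f) (hg : Primrec g) :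
    Primrec fun a => branchMoves (f a) (g a) := by
  have sR := fst.comp hg
  have sL := fst.comp (snd.comp hg)
  have dR := fst.comp (snd.comp (snd.comp hg))
  have dL := snd.comp (snd.comp (snd.comp hg))
  have h := const (qfrac 1 2) (α := α)
  have pw : ∀ {l : α → List ℕ}, Primrec l → Primrec fun a => f a ^ (l a).length :=
    fun hl => pr_pow hf (list_length.comp hl)
  exact list_cons.comp
    (pr_moveZ (const (qfrac 1 4)) (const (qfrac 1 4)) h (pr_box (pr_cyl hf sR))
      (pr_box (pr_cyl hf sL)))
    (list_cons.comp (pr_moveX (pr_qsub h (pr_cenQ hf sR)))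
    (list_cons.comp (pr_moveY (pr_qsub h (pr_cenQ hf sL)))
    (list_cons.comp (pr_scaleX (pr_qfrac (pw sR) (pw dR)))
    (list_cons.comp (pr_scaleY (pr_qfrac (pw sL) (pw dL)))
    (list_cons.comp (pr_moveX (pr_qsub (pr_cenQ hf dR) h))
    (list_cons.comp (pr_moveY (pr_qsub (pr_cenQ hf dL) h))
    (pr_single (pr_moveZ (const (qfrac 1 4)) h (const (qfrac 3 4)) (pr_box (pr_cyl hf dR))
      (pr_box (pr_cyl hf dL))))))))))

lemma pr_machineMoves {f : α → MCode} (hf : Primrec f) :
    Primrec fun a => machineMoves (f a) :=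
  pr_append (list_flatMap (pr_rules hf) (pr_branchMoves (pr_cBase (hf.comp fst)) snd).to₂)
    (const [dropMove])

lemma pr_startMoves {f : α → MCode × List ℕ} (hf : Primrec f) :
    Primrec fun a => startMoves (f a) := by
  have c := fst.comp hf
  have B := pr_cBase c
  have co : ∀ {l : α → List ℕ}, Primrec l → Primrec fun a => coordQ (cBase (f a).1) (l a) :=
    fun hl => pr_qadd (const (qfrac 1 4)) (pr_qmul (pr_xiQ B hl) (const (qfrac 1 2)))
  have x := co (list_cons.comp (pr_stM c (const 0)) (pr_append (snd.comp hf) (pr_single (pr_sp c))))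
  have y := co (const ([] : List ℕ))
  have w := const (box (wide (qnat 1) (qnat 0))) (α := α)
  exact list_cons.comp (pr_moveX (pr_qsub x (const (qfrac 1 2))))
    (list_cons.comp (pr_moveY (pr_qsub y (const (qfrac 1 2))))
    (pr_single (pr_moveZ (const (qneg (qfrac 1 4))) (const (qfrac 1 4)) (const (qfrac 1 2)) w w)))

lemma pr_slotBump {f : α → ℕ} {g : α → Slot} (hf : Primrec f) (hg : Primrec g) :
    Primrec fun a => slotBump (f a) (g a) := by
  have a' := fst.comp (snd.comp (snd.comp hg))
  exact (sumInr.comp (Primrec.pair hf (Primrec.pair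
    (pr_qadd (pr_qmul a' (pr_qsub (fst.comp (snd.comp hg)) (fst.comp hg))) (const (qnat 2)))
    (Primrec.pair a' (pr_qsub (pr_qmul a' (fst.comp hg)) (const (qnat 1))))))).of_eq fun _ => rfl

lemma pr_slotTerms {g : α → Slot} (hg : Primrec g) : Primrec fun a => slotTerms (g a) := by
  have ab := snd.comp (snd.comp (snd.comp hg))
  exact list_cons.comp (Primrec.pair (fst.comp ab) (pr_slotBump (const 0) hg))
    (pr_single (Primrec.pair (snd.comp ab) (pr_slotBump (const 1) hg)))

/-- One term of a potential. -/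
def potTerm (m : TMove) (a b c : QD × Bump) : Term :=
  ((qmul (qmul m.2.1.2.1 m.1.2.1) (qmul a.1 (qmul b.1 c.1)), 0, (0, 4), m.2.1.2.2),
    [(m.1.1, Sum.inl (0, 0, m.1.2.1, m.1.2.2))], ([a.2], [b.2], [c.2]))

lemma pr_potTerm {f : α → TMove} {g h k : α → QD × Bump} (hf : Primrec f) (hg : Primrec g)
    (hh : Primrec h) (hk : Primrec k) : Primrec fun a => potTerm (f a) (g a) (h a) (k a) := by
  have sw := fst.comp hf
  have par := fst.comp (snd.comp hf)
  have coef := Primrec.pair
    (pr_qmul (pr_qmul (fst.comp (snd.comp par)) (fst.comp (snd.comp sw)))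
      (pr_qmul (fst.comp hg) (pr_qmul (fst.comp hh) (fst.comp hk))))
    (Primrec.pair (const 0) (Primrec.pair (const ((0, 4) : ℕ × ℕ)) (snd.comp (snd.comp par))))
  have bump : Primrec fun a =>
      (Sum.inl (0, 0, (f a).1.2.1, (f a).1.2.2) : Bump) :=
    sumInl.comp (Primrec.pair (const 0) (Primrec.pair (const 0) (snd.comp sw)))
  exact (Primrec.pair coef (Primrec.pair (pr_single (Primrec.pair (fst.comp sw) bump))
    (Primrec.pair (pr_single (snd.comp hg))
      (Primrec.pair (pr_single (snd.comp hh)) (pr_single (snd.comp hk)))))).of_eq fun _ => rfl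

lemma potTerms_eq (m : TMove) : potTerms m = (slotTerms m.2.2.1).flatMap fun a =>
    (slotTerms m.2.2.2.1).flatMap fun b => (slotTerms m.2.2.2.2).map fun c => potTerm m a b c := rfl

lemma pr_potTerms : Primrec potTerms := by
  have t1 : Primrec fun m : TMove => slotTerms m.2.2.1 :=
    pr_slotTerms (fst.comp (snd.comp snd))
  have t2 : Primrec fun m : TMove => slotTerms m.2.2.2.1 :=
    pr_slotTerms (fst.comp (snd.comp (snd.comp snd)))
  have t3 : Primrec fun m : TMove => slotTerms m.2.2.2.2 :=
    pr_slotTerms (snd.comp (snd.comp (snd.comp snd)))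
  have body : Primrec₂ fun (p : (TMove × (QD × Bump)) × (QD × Bump)) (c : QD × Bump) =>
      potTerm p.1.1 p.1.2 p.2 c :=
    (pr_potTerm (fst.comp (fst.comp fst)) (snd.comp (fst.comp fst)) (snd.comp fst) snd).to₂
  have inner : Primrec fun p : (TMove × (QD × Bump)) × (QD × Bump) =>
      (slotTerms p.1.1.2.2.2.2).map fun c => potTerm p.1.1 p.1.2 p.2 c :=
    list_map (t3.comp (fst.comp fst)) body
  have middle : Primrec fun p : TMove × (QD × Bump) =>
      (slotTerms p.1.2.2.2.1).flatMap fun b =>
        (slotTerms p.1.2.2.2.2).map fun c => potTerm p.1 p.2 b c :=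
    list_flatMap (t2.comp fst) inner.to₂
  exact (list_flatMap t1 middle.to₂).of_eq fun m => (potTerms_eq m).symm

lemma pr_dBump : Primrec dBump := by
  have l1 : Primrec₂ fun (_ : Bump) (p : ℕ × ℕ × QD × QD) =>
      [(qnat p.1, (Sum.inl (p.1 - 1, p.2.1, p.2.2.1, p.2.2.2) : Bump)),
        (p.2.2.1, Sum.inl (p.1, p.2.1 + 1, p.2.2.1, p.2.2.2))] :=
    (list_cons.comp
      (Primrec.pair (pr_qnat (fst.comp snd))
        (sumInl.comp (Primrec.pair (pr_sub (fst.comp snd) (const 1)) (snd.comp snd))))
      (pr_single (Primrec.pair (fst.comp (snd.comp (snd.comp snd)))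
        (sumInl.comp (Primrec.pair (fst.comp snd)
          (Primrec.pair (pr_add (fst.comp (snd.comp snd)) (const 1))
            (snd.comp (snd.comp snd)))))))).to₂
  have l2 : Primrec₂ fun (_ : Bump) (p : ℕ × QD × QD × QD) =>
      [(qnat p.1, (Sum.inr (p.1 - 1, p.2.1, p.2.2.1, p.2.2.2) : Bump)),
        (p.2.2.1, Sum.inl (p.1, 0, p.2.2.1, p.2.2.2)),
        (qneg p.2.2.1, Sum.inl (p.1, 0, p.2.2.1, qadd p.2.2.2 p.2.1))] := by
    have k := fst.comp (snd (α := Bump) (β := ℕ × QD × QD × QD))
    have a := fst.comp (snd.comp (snd.comp (snd (α := Bump) (β := ℕ × QD × QD × QD))))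
    have b := snd.comp (snd.comp (snd.comp (snd (α := Bump) (β := ℕ × QD × QD × QD))))
    have l := fst.comp (snd.comp (snd (α := Bump) (β := ℕ × QD × QD × QD)))
    exact (list_cons.comp
      (Primrec.pair (pr_qnat k) (sumInr.comp (Primrec.pair (pr_sub k (const 1)) (snd.comp snd))))
      (list_cons.comp (Primrec.pair a (sumInl.comp (Primrec.pair k (Primrec.pair (const 0)
        (Primrec.pair a b)))))
        (pr_single (Primrec.pair (pr_qneg a) (sumInl.comp (Primrec.pair k (Primrec.pair (const 0)
          (Primrec.pair a (pr_qadd b l))))))))).to₂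
  exact (sumCasesOn .id l1 l2).of_eq fun B => by rcases B with _ | _ <;> rfl

lemma pr_dFlag : Primrec dFlag :=
  (list_map (pr_dBump.comp snd)
    (Primrec.pair (fst.comp snd) (Primrec.pair (fst.comp fst) (snd.comp snd))).to₂).of_eq
    fun _ => rfl

lemma pr_dProd {β : Type} [Primcodable β] {d : β → List (QD × β)} (hd : Primrec d) :
    Primrec (dProd d) := by
  refine (list_rec (h := fun (_ : List β) (p : β × List β × List (QD × List β)) =>
      (d p.1).map (fun q => (q.1, q.2 :: p.2.1)) ++ p.2.2.map (fun q => (q.1, p.1 :: q.2)))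
    Primrec.id (const []) ?_).of_eq fun l => ?_
  · exact (pr_append
      (list_map (hd.comp (fst.comp snd)) (Primrec.pair (fst.comp snd)
        (list_cons.comp (snd.comp snd) (fst.comp (snd.comp (snd.comp fst))))).to₂)
      (list_map (snd.comp (snd.comp snd)) (Primrec.pair (fst.comp snd)
        (list_cons.comp (fst.comp (snd.comp fst)) (snd.comp snd))).to₂)).to₂
  · induction l <;> simp_all [dProd]

lemma pr_cScale {f : α → QD} {g : α → Coef} (hf : Primrec f) (hg : Primrec g) :
    Primrec fun a => cScale (f a) (g a) :=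
  (Primrec.pair (pr_qmul hf (fst.comp hg)) (snd.comp hg)).of_eq fun _ => rfl

lemma pr_dT : Primrec dT := by
  have hh : Primrec₂ fun (p : List Term × Term) (q : QD × List (Bool × Bump)) =>
      ((cScale q.1 p.2.1, q.2, p.2.2.2) : Term) :=
    (Primrec.pair (pr_cScale (fst.comp snd) (fst.comp (snd.comp fst)))
    (Primrec.pair (snd.comp snd) (snd.comp (snd.comp (snd.comp fst))))).to₂
  exact (list_flatMap Primrec.id (list_map
    ((pr_dProd pr_dFlag).comp (fst.comp (snd.comp snd))) hh).to₂).of_eq fun _ => rfl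

lemma pr_d0 : Primrec d0 := by
  have hh : Primrec₂ fun (p : List Term × Term) (q : QD × List Bump) =>
      ((cScale q.1 p.2.1, p.2.2.1, (q.2, p.2.2.2.2)) : Term) :=
    (Primrec.pair (pr_cScale (fst.comp snd) (fst.comp (snd.comp fst)))
    (Primrec.pair (fst.comp (snd.comp (snd.comp fst)))
      (Primrec.pair (snd.comp snd)
        (snd.comp (snd.comp (snd.comp (snd.comp fst))))))).to₂
  exact (list_flatMap Primrec.id (list_map
    ((pr_dProd pr_dBump).comp (fst.comp (snd.comp (snd.comp snd)))) hh).to₂).of_eq fun _ => rfl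

lemma pr_d1 : Primrec d1 := by
  have hh : Primrec₂ fun (p : List Term × Term) (q : QD × List Bump) =>
      ((cScale q.1 p.2.1, p.2.2.1, (p.2.2.2.1, q.2, p.2.2.2.2.2)) : Term) :=
    (Primrec.pair (pr_cScale (fst.comp snd) (fst.comp (snd.comp fst)))
    (Primrec.pair (fst.comp (snd.comp (snd.comp fst)))
      (Primrec.pair (fst.comp (snd.comp (snd.comp (snd.comp fst))))
        (Primrec.pair (snd.comp snd)
          (snd.comp (snd.comp (snd.comp (snd.comp (snd.comp fst))))))))).to₂
  exact (list_flatMap Primrec.id (list_map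
    ((pr_dProd pr_dBump).comp (fst.comp (snd.comp (snd.comp (snd.comp snd))))) hh).to₂).of_eq fun _ => rfl

lemma pr_d2 : Primrec d2 := by
  have hh : Primrec₂ fun (p : List Term × Term) (q : QD × List Bump) =>
      ((cScale q.1 p.2.1, p.2.2.1, (p.2.2.2.1, p.2.2.2.2.1, q.2)) : Term) :=
    (Primrec.pair (pr_cScale (fst.comp snd) (fst.comp (snd.comp fst)))
    (Primrec.pair (fst.comp (snd.comp (snd.comp fst)))
      (Primrec.pair (fst.comp (snd.comp (snd.comp (snd.comp fst))))
        (Primrec.pair (fst.comp (snd.comp (snd.comp (snd.comp (snd.comp fst)))))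
          (snd.comp snd))))).to₂
  exact (list_flatMap Primrec.id (list_map
    ((pr_dProd pr_dBump).comp (snd.comp (snd.comp (snd.comp (snd.comp snd))))) hh).to₂).of_eq fun _ => rfl

lemma pr_lNeg : Primrec lNeg :=
  (list_map Primrec.id (Primrec.pair (Primrec.pair (pr_qneg (fst.comp (fst.comp snd)))
    (snd.comp (fst.comp snd))) (snd.comp snd)).to₂).of_eq fun _ => rfl

lemma pr_negNu : Primrec negNu :=
  (list_map Primrec.id (Primrec.pair (Primrec.pair (pr_qneg (fst.comp (fst.comp snd)))
    (Primrec.pair (pr_add (fst.comp (snd.comp (fst.comp snd))) (const 1))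
      (snd.comp (snd.comp (fst.comp snd))))) (snd.comp snd)).to₂).of_eq fun _ => rfl

lemma pr_tMul {f g : α → Term} (hf : Primrec f) (hg : Primrec g) :
    Primrec fun a => tMul (f a) (g a) := by
  have cf := fst.comp hf
  have cg := fst.comp hg
  have sf := snd.comp (snd.comp hf)
  have sg := snd.comp (snd.comp hg)
  have nf := fst.comp (snd.comp (snd.comp cf))
  have ng := fst.comp (snd.comp (snd.comp cg))
  have coef := Primrec.pair (pr_qmul (fst.comp cf) (fst.comp cg))
    (Primrec.pair (pr_add (fst.comp (snd.comp cf)) (fst.comp (snd.comp cg)))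
      (Primrec.pair (Primrec.pair (pr_add (fst.comp nf) (fst.comp ng))
          (pr_add (snd.comp nf) (snd.comp ng)))
        (pr_append (snd.comp (snd.comp (snd.comp cf))) (snd.comp (snd.comp (snd.comp cg))))))
  exact (Primrec.pair coef (Primrec.pair (pr_append (fst.comp (snd.comp hf)) (fst.comp (snd.comp hg)))
    (Primrec.pair (pr_append (fst.comp sf) (fst.comp sg))
      (Primrec.pair (pr_append (fst.comp (snd.comp sf)) (fst.comp (snd.comp sg)))
        (pr_append (snd.comp (snd.comp sf)) (snd.comp (snd.comp sg))))))).of_eq fun _ => rfl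

lemma pr_lMul {f g : α → List Term} (hf : Primrec f) (hg : Primrec g) :
    Primrec fun a => lMul (f a) (g a) :=
  list_flatMap hf (list_map (hg.comp fst) (pr_tMul (snd.comp fst) snd).to₂).to₂

lemma pr_forceOf : Primrec forceOf := by
  have x0 : Primrec fun U : ForceData => U.1 := fst
  have x1 : Primrec fun U : ForceData => U.2.1 := fst.comp snd
  have x2 : Primrec fun U : ForceData => U.2.2 := snd.comp snd
  have comp' : ∀ {L : ForceData → List Term}, Primrec L → Primrec fun U => forceComp U (L U) :=
    fun hL => pr_append (pr_dT.comp hL) (pr_append (pr_lMul x0 (pr_d0.comp hL))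
      (pr_append (pr_lMul x1 (pr_d1.comp hL)) (pr_append (pr_lMul x2 (pr_d2.comp hL))
        (pr_negNu.comp (pr_append (pr_d0.comp (pr_d0.comp hL))
          (pr_append (pr_d1.comp (pr_d1.comp hL)) (pr_d2.comp (pr_d2.comp hL))))))))
  exact (Primrec.pair (comp' x0) (Primrec.pair (comp' x1) (comp' x2))).of_eq fun _ => rfl

lemma pr_moveVel : Primrec moveVel := by
  have T := pr_potTerms
  have nil := const ([] : List Term) (α := TMove)
  exact (cond (fst.comp (fst.comp snd))
    (Primrec.pair nil (Primrec.pair (pr_d2.comp T) (pr_lNeg.comp (pr_d1.comp T))))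
    (Primrec.pair (pr_lNeg.comp (pr_d2.comp T)) (Primrec.pair nil (pr_d0.comp T)))).of_eq
    fun m => by rcases hb : m.2.1.1 with _ | _ <;> simp [moveVel, hb]

lemma pr_velOf : Primrec velOf :=
  (Primrec.pair (list_flatMap Primrec.id ((fst.comp pr_moveVel).comp snd).to₂)
    (Primrec.pair (list_flatMap Primrec.id ((fst.comp (snd.comp pr_moveVel)).comp snd).to₂)
      (list_flatMap Primrec.id ((snd.comp (snd.comp pr_moveVel)).comp snd).to₂))).of_eq
    fun _ => rfl

lemma pr_velSys {f g : α → List Move} (hf : Primrec f) (hg : Primrec g) :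
    Primrec fun a => velSys (f a) (g a) := by
  have i : Primrec fun p : α × ℕ => p.2 := snd
  have L := list_map (list_range.comp (list_length.comp hf))
    (Primrec.pair (Primrec.pair (const false) (Primrec.pair (const (qnat 60))
      (pr_qnat (pr_add (pr_mul (const 2) i) (const 1)))))
      ((list_getD noMove).comp (hf.comp fst) i)).to₂
  have n := list_length.comp (hg.comp (fst (α := α) (β := ℕ)))
  have P := list_map (list_range.comp (list_length.comp hg))
    (Primrec.pair (Primrec.pair (const true) (Primrec.pair (pr_qfrac (pr_mul (const 5) n) (const 2))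
      (pr_qfrac (pr_add (pr_add n (pr_mul (const 8) i)) (const 4)) (const 4))))
      ((list_getD noMove).comp (hg.comp fst) i)).to₂
  exact (pr_velOf.comp (pr_append L P)).of_eq fun _ => rfl

/-- The compiler is computable. -/
theorem compile_computable : Computable compile :=
  (pr_forceOf.comp (pr_velSys (pr_startMoves Primrec.id) (pr_machineMoves fst))).to_comp.of_eq
    fun _ => rfl

end Prim

end Vale.Agent.P113
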