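import Vale.Agent.P113.Schedule

/-! Stacks as coordinates, and the moves that replace prefixes. -/

noncomputable section

open Set

namespace Vale.Agent.P113

/-- The point with the given coordinates. -/
def pt (x y z : ℝ) : Pt := ![x, y, z]

@[simp] lemma pt_zero (x y z : ℝ) : pt x y z 0 = x := rfl
@[simp] lemma pt_one (x y z : ℝ) : pt x y z 1 = y := rfl
@[simp] lemma pt_two (x y z : ℝ) : pt x y z 2 = z := rfl

lemma pt_mem_cube {x y z : ℝ} (hx : x ∈ Icc (0 : ℝ) 1) (hy : y ∈ Icc (0 : ℝ) 1)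
    (hz : z ∈ Icc (0 : ℝ) 1) : pt x y z ∈ cube := by
  constructor <;> intro i <;> fin_cases i <;>
    simp [hx.1, hx.2, hy.1, hy.2, hz.1, hz.2]

/-- All symbols fit in the base. -/
def Digs (B : ℕ) (l : List ℕ) : Prop := ∀ a ∈ l, 2 * a + 3 ≤ B

/-- The number read from a stack over an infinite blank continuation. -/
def xi (B : ℕ) : List ℕ → ℝ
  | [] => 1 / ((B : ℝ) - 1)
  | a :: l => (2 * (a : ℝ) + 1 + xi B l) / B

/-- The left end of the interval of a prefix. -/
def pval (B : ℕ) : List ℕ → ℝ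
  | [] => 0
  | a :: l => (2 * (a : ℝ) + 1 + pval B l) / B

/-- `xi` as a rational. -/
def xiQ (B : ℕ) : List ℕ → QD
  | [] => qfrac 1 (B - 1)
  | a :: l => qmul (qadd (qnat (2 * a + 1)) (xiQ B l)) (qfrac 1 B)

/-- `pval` as a rational. -/
def pvalQ (B : ℕ) : List ℕ → QD
  | [] => qnat 0
  | a :: l => qmul (qadd (qnat (2 * a + 1)) (pvalQ B l)) (qfrac 1 B)

lemma rv_xiQ {B : ℕ} (hB : 3 ≤ B) : ∀ l, rv (xiQ B l) = xi B l
  | [] => by
      rw [xiQ, rv_qfrac 1 (by omega), xi, Nat.cast_sub (by omega)]; simp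
  | a :: l => by
      simp only [xiQ, xi, rv_qmul, rv_qadd, rv_qnat, rv_xiQ hB l, rv_qfrac 1 (show B ≠ 0 by omega)]
      push_cast; ring

lemma rv_pvalQ {B : ℕ} (hB : 3 ≤ B) : ∀ l, rv (pvalQ B l) = pval B l
  | [] => by simp [pvalQ, pval]
  | a :: l => by
      simp only [pvalQ, pval, rv_qmul, rv_qadd, rv_qnat, rv_pvalQ hB l,
        rv_qfrac 1 (show B ≠ 0 by omega)]
      push_cast; ring

lemma xi_nil {B : ℕ} (hB : 3 ≤ B) : xi B [] = xi B [0] := by
  have h : (3 : ℝ) ≤ B := by exact_mod_cast hB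
  have h1 : (B : ℝ) - 1 ≠ 0 := by linarith
  simp only [xi, Nat.cast_zero, mul_zero, zero_add]
  field_simp
  ring

lemma xi_append (B : ℕ) (p t : List ℕ) :
    xi B (p ++ t) = pval B p + xi B t / (B : ℝ) ^ p.length := by
  induction p with
  | nil => simp [pval]
  | cons a p ih => simp only [List.cons_append, xi, pval, ih, List.length_cons, pow_succ]; ring

lemma xi_bounds {B : ℕ} (hB : 3 ≤ B) : ∀ {l}, Digs B l → 0 < xi B l ∧ xi B l < 1 := by
  have h : (3 : ℝ) ≤ B := by exact_mod_cast hB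
  intro l
  induction l with
  | nil =>
      intro _
      simp only [xi]
      exact ⟨by apply div_pos one_pos; linarith, by rw [div_lt_one (by linarith)]; linarith⟩
  | cons a l ih =>
      intro hl
      obtain ⟨h1, h2⟩ := ih fun b hb => hl b (by simp [hb])
      have ha : 2 * (a : ℝ) + 3 ≤ B := by exact_mod_cast hl a (by simp)
      simp only [xi]
      exact ⟨by apply div_pos _ (by linarith); positivity,
        by rw [div_lt_one (by linarith)]; linarith⟩

lemma pval_bounds {B : ℕ} (hB : 3 ≤ B) : ∀ {l}, Digs B l →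
    0 ≤ pval B l ∧ pval B l + 1 / (B : ℝ) ^ l.length ≤ 1 := by
  have h : (3 : ℝ) ≤ B := by exact_mod_cast hB
  intro l
  induction l with
  | nil => intro _; simp [pval]
  | cons a l ih =>
      intro hl
      obtain ⟨h1, h2⟩ := ih fun b hb => hl b (by simp [hb])
      have ha : 2 * (a : ℝ) + 3 ≤ B := by exact_mod_cast hl a (by simp)
      simp only [pval, List.length_cons, pow_succ]
      refine ⟨by positivity, ?_⟩
      rw [show (2 * (a : ℝ) + 1 + pval B l) / B + 1 / ((B : ℝ) ^ l.length * B)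
        = (2 * (a : ℝ) + 1 + (pval B l + 1 / (B : ℝ) ^ l.length)) / B by ring,
        div_le_one (by linarith)]
      linarith

/-- Two prefixes that differ at some position. -/
def Incomp : List ℕ → List ℕ → Prop
  | a :: p, b :: q => a ≠ b ∨ Incomp p q
  | _, _ => False

lemma xi_sep {B : ℕ} (hB : 3 ≤ B) : ∀ {q p t : List ℕ}, Incomp p q → Digs B (p ++ t) → Digs B q →
    xi B (p ++ t) ≤ pval B q - 1 / (4 * (B : ℝ) ^ q.length) ∨
      pval B q + 5 / (4 * (B : ℝ) ^ q.length) ≤ xi B (p ++ t) := by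
  have h : (3 : ℝ) ≤ B := by exact_mod_cast hB
  intro q
  induction q with
  | nil => intro p t hi; cases p <;> simp [Incomp] at hi
  | cons b q ih =>
      intro p t hi hp hq
      cases p with
      | nil => simp [Incomp] at hi
      | cons a p =>
          have hp' : Digs B (p ++ t) := fun c hc => hp c (by simp only [List.cons_append, List.mem_cons]; exact Or.inr hc)
          have hq' : Digs B q := fun c hc => hq c (by simp [hc])
          simp only [List.cons_append, xi, pval, List.length_cons, pow_succ]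
          by_cases hab : a = b
          · subst hab
            rcases ih (by simpa [Incomp] using hi) hp' hq' with h1 | h1
            · left
              rw [show (2 * (a : ℝ) + 1 + pval B q) / B - 1 / (4 * ((B : ℝ) ^ q.length * B))
                = (2 * (a : ℝ) + 1 + (pval B q - 1 / (4 * (B : ℝ) ^ q.length))) / B by ring]
              gcongr
            · right
              rw [show (2 * (a : ℝ) + 1 + pval B q) / B + 5 / (4 * ((B : ℝ) ^ q.length * B))
                = (2 * (a : ℝ) + 1 + (pval B q + 5 / (4 * (B : ℝ) ^ q.length))) / B by ring]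
              gcongr
          · obtain ⟨x0, x1⟩ := xi_bounds hB hp'
            obtain ⟨q0, q1⟩ := pval_bounds hB hq'
            have hpow : (0 : ℝ) < (B : ℝ) ^ q.length := by positivity
            have hsmall : 1 / (4 * (B : ℝ) ^ q.length) ≤ 1 / 4 := by
              apply div_le_div_of_nonneg_left zero_le_one (by norm_num)
              linarith [one_le_pow₀ (a := (B : ℝ)) (n := q.length) (by linarith)]
            have e5 : 5 / (4 * (B : ℝ) ^ q.length) = 1 / (B : ℝ) ^ q.length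
                + 1 / (4 * (B : ℝ) ^ q.length) := by field_simp; norm_num
            rcases lt_or_gt_of_ne hab with hlt | hlt
            · left
              have : (a : ℝ) + 1 ≤ b := by exact_mod_cast hlt
              rw [show (2 * (b : ℝ) + 1 + pval B q) / B - 1 / (4 * ((B : ℝ) ^ q.length * B))
                = (2 * (b : ℝ) + 1 + (pval B q - 1 / (4 * (B : ℝ) ^ q.length))) / B by ring]
              gcongr ?_ / _
              linarith
            · right
              have : (b : ℝ) + 1 ≤ a := by exact_mod_cast hlt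
              rw [show (2 * (b : ℝ) + 1 + pval B q) / B + 5 / (4 * ((B : ℝ) ^ q.length * B))
                = (2 * (b : ℝ) + 1 + (pval B q + 5 / (4 * (B : ℝ) ^ q.length))) / B by ring]
              gcongr ?_ / _
              linarith

/-! ### Moves -/

/-- The slot `[1/4, 3/4]` with factor `α + β s`. -/
def wide (α β : QD) : Slot := (qfrac 1 4, qfrac 3 4, qnat 16, α, β)

/-- The slot around `1/2` with factor `α + β s`. -/
def mid (α β : QD) : Slot := (qfrac 1 2, qfrac 1 2, qnat 16, α, β)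

/-- The slot of the cylinder of a prefix, with factor `α + β s`. -/
def cyl (B : ℕ) (p : List ℕ) (α β : QD) : Slot :=
  (qadd (qfrac 1 4) (qmul (pvalQ B p) (qfrac 1 2)),
    qadd (qadd (qfrac 1 4) (qmul (pvalQ B p) (qfrac 1 2))) (qfrac 1 (2 * B ^ p.length)),
    qnat (16 * B ^ p.length), α, β)

/-- Shift `x` by `c` at height `1/2`. -/
def moveX (c : QD) : Move :=
  ((false, c, []), (wide (qnat 1) (qnat 0), wide (qnat 1) (qnat 0),
    mid (qfrac 1 2) (qneg (qnat 1))))

/-- Shift `y` by `c` at height `1/2`. -/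
def moveY (c : QD) : Move :=
  ((true, c, []), (wide (qnat 1) (qnat 0), wide (qnat 1) (qnat 0),
    mid (qneg (qfrac 1 2)) (qnat 1)))

/-- Scale `x - 1/2` by `r` at height `1/2`. -/
def scaleX (r : QD) : Move :=
  ((false, qnat 1, [r]), (wide (qneg (qfrac 1 2)) (qnat 1), wide (qnat 1) (qnat 0),
    mid (qfrac 1 2) (qneg (qnat 1))))

/-- Scale `y - 1/2` by `r` at height `1/2`. -/
def scaleY (r : QD) : Move :=
  ((true, qnat 1, [r]), (wide (qnat 1) (qnat 0), wide (qneg (qfrac 1 2)) (qnat 1),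
    mid (qneg (qfrac 1 2)) (qnat 1)))

/-- Shift `z` by `c` inside the column `sx × sy × [zlo, zhi]`. -/
def moveZ (c zlo zhi : QD) (sx sy : QD × QD × QD) : Move :=
  ((false, c, []), ((sx.1, sx.2.1, sx.2.2, qnat 0, qnat 1),
    (sy.1, sy.2.1, sy.2.2, qnat 1, qnat 0), (zlo, zhi, qnat 16, qnat 1, qnat 0)))

/-- The box part of a slot. -/
def box (s : Slot) : QD × QD × QD := (s.1, s.2.1, s.2.2.1)

/-- The centre of the cylinder of a prefix. -/
def cenQ (B : ℕ) (p : List ℕ) : QD :=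
  qadd (qadd (qfrac 1 4) (qmul (pvalQ B p) (qfrac 1 2))) (qfrac 1 (4 * B ^ p.length))

/-- A rewriting rule of the two stacks: old prefixes and new prefixes. -/
abbrev Branch : Type := List ℕ × List ℕ × List ℕ × List ℕ

/-- The moves of one rule. -/
def branchMoves (B : ℕ) (b : Branch) : List Move :=
  [moveZ (qfrac 1 4) (qfrac 1 4) (qfrac 1 2) (box (cyl B b.1 (qnat 1) (qnat 0)))
      (box (cyl B b.2.1 (qnat 1) (qnat 0))),
    moveX (qsub (qfrac 1 2) (cenQ B b.1)), moveY (qsub (qfrac 1 2) (cenQ B b.2.1)),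
    scaleX (qfrac (B ^ b.1.length) (B ^ b.2.2.1.length)),
    scaleY (qfrac (B ^ b.2.1.length) (B ^ b.2.2.2.length)),
    moveX (qsub (cenQ B b.2.2.1) (qfrac 1 2)), moveY (qsub (cenQ B b.2.2.2) (qfrac 1 2)),
    moveZ (qfrac 1 4) (qfrac 1 2) (qfrac 3 4) (box (cyl B b.2.2.1 (qnat 1) (qnat 0)))
      (box (cyl B b.2.2.2 (qnat 1) (qnat 0)))]

/-- The final move of a period. -/
def dropMove : Move :=
  moveZ (qneg (qfrac 1 2)) (qfrac 1 4) (qfrac 3 4) (box (wide (qnat 1) (qnat 0)))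
    (box (wide (qnat 1) (qnat 0)))

/-- The moves of a period. -/
def periodMoves (B : ℕ) (bs : List Branch) : List Move :=
  bs.flatMap (branchMoves B) ++ [dropMove]

/-- The loading moves. -/
def loadMoves (x y : QD) : List Move :=
  [moveX (qsub x (qfrac 1 2)), moveY (qsub y (qfrac 1 2)),
    moveZ (qneg (qfrac 1 4)) (qfrac 1 4) (qfrac 1 2) (box (wide (qnat 1) (qnat 0)))
      (box (wide (qnat 1) (qnat 0)))]

lemma wide_ok (α β : QD) : SlotOK (wide α β) := by
  refine ⟨?_, ?_, ?_, ?_⟩ <;> simp [wide, rv_qfrac] <;> norm_num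

lemma mid_ok (α β : QD) : SlotOK (mid α β) := by
  refine ⟨?_, ?_, ?_, ?_⟩ <;> simp [mid, rv_qfrac] <;> norm_num

lemma cyl_rv {B : ℕ} (hB : 3 ≤ B) (p : List ℕ) (α β : QD) :
    rv (cyl B p α β).1 = 1 / 4 + pval B p / 2 ∧
    rv (cyl B p α β).2.1 = 1 / 4 + pval B p / 2 + 1 / (2 * (B : ℝ) ^ p.length) ∧
    rv (cyl B p α β).2.2.1 = 16 * (B : ℝ) ^ p.length := by
  have h : 2 * B ^ p.length ≠ 0 := by positivity
  refine ⟨?_, ?_, ?_⟩ <;> simp [cyl, rv_qfrac, rv_pvalQ hB, h] <;> ring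

lemma cyl_ok {B : ℕ} (hB : 3 ≤ B) {p : List ℕ} (hp : Digs B p) (α β : QD) :
    SlotOK (cyl B p α β) := by
  obtain ⟨e1, e2, e3⟩ := cyl_rv hB p α β
  obtain ⟨q0, q1⟩ := pval_bounds hB hp
  have h : (3 : ℝ) ≤ B := by exact_mod_cast hB
  have hpow : (1 : ℝ) ≤ (B : ℝ) ^ p.length := one_le_pow₀ (by linarith)
  have e : 2 / (16 * (B : ℝ) ^ p.length) = (1 / (B : ℝ) ^ p.length) / 8 := by field_simp; norm_num
  have e' : 1 / (2 * (B : ℝ) ^ p.length) = (1 / (B : ℝ) ^ p.length) / 2 := by field_simp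
  have hu : 1 / (B : ℝ) ^ p.length ≤ 1 := by rw [div_le_one (by linarith)]; exact hpow
  have hu0 : 0 ≤ 1 / (B : ℝ) ^ p.length := by positivity
  refine ⟨by rw [e3]; linarith, ?_, ?_, ?_⟩ <;> simp only [e1, e2, e3, e, e'] <;> linarith

lemma cyl_outside {B : ℕ} (hB : 3 ≤ B) {p t q : List ℕ} (hi : Incomp p q)
    (hp : Digs B (p ++ t)) (hq : Digs B q) (α β : QD) :
    1 / 4 + xi B (p ++ t) / 2 ≤ rv (cyl B q α β).1 - 2 / rv (cyl B q α β).2.2.1 ∨
      rv (cyl B q α β).2.1 + 2 / rv (cyl B q α β).2.2.1 ≤ 1 / 4 + xi B (p ++ t) / 2 := by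
  obtain ⟨e1, e2, e3⟩ := cyl_rv hB q α β
  rw [e1, e2, e3]
  have hpow : (0 : ℝ) < (B : ℝ) ^ q.length := by positivity
  have e : 2 / (16 * (B : ℝ) ^ q.length) = 1 / (4 * (B : ℝ) ^ q.length) / 2 := by
    field_simp; norm_num
  have e5 : 5 / (4 * (B : ℝ) ^ q.length) = 2 * (1 / (2 * (B : ℝ) ^ q.length))
      + 1 / (4 * (B : ℝ) ^ q.length) := by field_simp; norm_num
  rw [e]
  rcases xi_sep hB hi hp hq with h | h
  · left; linarith
  · right; linarith

lemma cyl_inside {B : ℕ} (hB : 3 ≤ B) {p t : List ℕ} (hp : Digs B (p ++ t)) (α β : QD) :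
    rv (cyl B p α β).1 ≤ 1 / 4 + xi B (p ++ t) / 2 ∧
      1 / 4 + xi B (p ++ t) / 2 ≤ rv (cyl B p α β).2.1 := by
  obtain ⟨e1, e2, e3⟩ := cyl_rv hB p α β
  obtain ⟨x0, x1⟩ := xi_bounds hB fun a ha => hp a (List.mem_append_right p ha)
  rw [e1, e2, xi_append]
  have hpow : (0 : ℝ) < (B : ℝ) ^ p.length := by positivity
  have h0 : 0 ≤ xi B t / (B : ℝ) ^ p.length := by positivity
  have h1 : xi B t / (B : ℝ) ^ p.length ≤ 1 / (B : ℝ) ^ p.length := by gcongr
  have e : 1 / (2 * (B : ℝ) ^ p.length) = 1 / (B : ℝ) ^ p.length / 2 := by ring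
  rw [e]
  constructor <;> linarith

/-- The range of the coordinates used. -/
abbrev W : Set ℝ := Icc (1 / 4 : ℝ) (3 / 4)

lemma coord_mem {B : ℕ} (hB : 3 ≤ B) {l : List ℕ} (hl : Digs B l) :
    1 / 4 + xi B l / 2 ∈ W := by
  obtain ⟨a, b⟩ := xi_bounds hB hl
  constructor <;> linarith

lemma W_sub {x : ℝ} (h : x ∈ W) : x ∈ Icc (0 : ℝ) 1 := ⟨by linarith [h.1], by linarith [h.2]⟩

lemma wide_val {α β : QD} {x : ℝ} (h : x ∈ W) :
    slotF (wide α β) x = rv α + rv β * x ∧ slotG (wide α β) x = rv β :=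
  slot_inside (wide_ok α β) (by simpa [wide, rv_qfrac] using h.1)
    (by simpa [wide, rv_qfrac] using h.2)

lemma mid_val {α β : QD} :
    slotF (mid α β) (2⁻¹ : ℝ) = rv α + rv β * (2⁻¹ : ℝ) ∧ slotG (mid α β) (2⁻¹ : ℝ) = rv β :=
  slot_inside (mid_ok α β) (by simp [mid, rv_qfrac]) (by simp [mid, rv_qfrac])

/-- The set contains all points of the cell at height at least `3/8`. -/
def High (A : Set Pt) : Prop := ∀ p ∈ cube, 3 / 8 ≤ p 2 → p ∈ A

lemma high_pt {A : Set Pt} (hA : High A) {x y : ℝ} (hx : x ∈ W) (hy : y ∈ W) :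
    pt x y (1 / 2) ∈ A :=
  hA _ (pt_mem_cube (W_sub hx) (W_sub hy) ⟨by norm_num, by norm_num⟩) (by simp; norm_num)

lemma W_between {x c : ℝ} (hx : x ∈ W) (hc : x + c ∈ W) {s : ℝ} (hs : s ∈ Icc (0 : ℝ) 1) :
    x + s * c ∈ W := by
  rcases le_total 0 c with h | h
  · constructor <;> nlinarith [hs.1, hs.2, hx.1, hc.2]
  · constructor <;> nlinarith [hs.1, hs.2, hx.2, hc.1]

lemma hasDerivAt_pt {f g h : ℝ → ℝ} {f' g' h' s : ℝ} (hf : HasDerivAt f f' s)
    (hg : HasDerivAt g g' s) (hh : HasDerivAt h h' s) :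
    HasDerivAt (fun r => pt (f r) (g r) (h r)) ![f', g', h'] s := by
  rw [hasDerivAt_pi]
  intro i
  fin_cases i
  · simpa using hf
  · simpa using hg
  · simpa using hh

lemma act_moveX {A : Set Pt} (hA : High A) (c : QD) {x y : ℝ} (hx : x ∈ W) (hy : y ∈ W)
    (hc : x + rv c ∈ W) :
    Act (moveField (moveX c)) A (pt x y (1 / 2)) (pt (x + rv c) y (1 / 2)) := by
  refine ⟨fun s => pt (x + s * rv c) y (1 / 2), by simp, by simp, fun s hs => ⟨?_, ?_⟩⟩
  · have h := W_between hx hc hs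
    refine (hasDerivAt_pt (((hasDerivAt_id s).mul_const (rv c)).const_add x)
      (hasDerivAt_const s y) (hasDerivAt_const s (1 / 2))).congr_deriv ?_
    funext i
    fin_cases i <;>
      simp [moveX, moveField, (wide_val h).1, (wide_val h).2, (wide_val hy).1,
        (mid_val).1, (mid_val).2]
  · exact high_pt hA (W_between hx hc hs) hy

lemma act_moveY {A : Set Pt} (hA : High A) (c : QD) {x y : ℝ} (hx : x ∈ W) (hy : y ∈ W)
    (hc : y + rv c ∈ W) :
    Act (moveField (moveY c)) A (pt x y (1 / 2)) (pt x (y + rv c) (1 / 2)) := by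
  refine ⟨fun s => pt x (y + s * rv c) (1 / 2), by simp, by simp, fun s hs => ⟨?_, ?_⟩⟩
  · have h := W_between hy hc hs
    refine (hasDerivAt_pt (hasDerivAt_const s x)
      (((hasDerivAt_id s).mul_const (rv c)).const_add y) (hasDerivAt_const s (1 / 2))).congr_deriv ?_
    funext i
    fin_cases i <;>
      simp [moveY, moveField, (wide_val h).1, (wide_val h).2, (wide_val hx).1,
        (mid_val).1, (mid_val).2]
  · exact high_pt hA hx (W_between hy hc hs)

lemma scale_mem {x r : ℝ} (hr : 0 < r) (hx : x ∈ W) (he : 1 / 2 + r * (x - 1 / 2) ∈ W) {s : ℝ}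
    (hs : s ∈ Icc (0 : ℝ) 1) : 1 / 2 + Real.exp (s * Real.log r) * (x - 1 / 2) ∈ W := by
  have hb : Real.exp (s * Real.log r) ≤ max 1 r ∧ min 1 r ≤ Real.exp (s * Real.log r) := by
    rcases le_total 0 (Real.log r) with h | h
    · constructor
      · refine le_max_of_le_right ?_
        calc Real.exp (s * Real.log r) ≤ Real.exp (Real.log r) :=
              Real.exp_le_exp.2 (by nlinarith [hs.2])
          _ = r := Real.exp_log hr
      · exact min_le_of_left_le (Real.one_le_exp (mul_nonneg hs.1 h))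
    · constructor
      · exact le_max_of_le_left (Real.exp_le_one_iff.2 (mul_nonpos_of_nonneg_of_nonpos hs.1 h))
      · refine min_le_of_right_le ?_
        calc r = Real.exp (Real.log r) := (Real.exp_log hr).symm
          _ ≤ _ := Real.exp_le_exp.2 (by nlinarith [hs.2])
  obtain ⟨b1, b2⟩ := hb
  rcases le_total 1 r with h | h
  · rw [max_eq_right h] at b1; rw [min_eq_left h] at b2
    constructor <;> nlinarith [hx.1, hx.2, he.1, he.2]
  · rw [max_eq_left h] at b1; rw [min_eq_right h] at b2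
    constructor <;> nlinarith [hx.1, hx.2, he.1, he.2]

lemma act_scaleX {A : Set Pt} (hA : High A) (r : QD) (hr : 0 < rv r) {x y : ℝ} (hx : x ∈ W)
    (hy : y ∈ W) (he : 1 / 2 + rv r * (x - 1 / 2) ∈ W) :
    Act (moveField (scaleX r)) A (pt x y (1 / 2)) (pt (1 / 2 + rv r * (x - 1 / 2)) y (1 / 2)) := by
  refine ⟨fun s => pt (1 / 2 + Real.exp (s * Real.log (rv r)) * (x - 1 / 2)) y (1 / 2), by simp,
    by simp [Real.exp_log hr], fun s hs => ⟨?_, ?_⟩⟩
  · have h := scale_mem hr hx he hs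
    simp only [one_div] at h
    refine (hasDerivAt_pt (((((hasDerivAt_id s).mul_const (Real.log (rv r))).exp).mul_const
      (x - 1 / 2)).const_add (1 / 2))
      (hasDerivAt_const s y) (hasDerivAt_const s (1 / 2))).congr_deriv ?_
    funext i
    fin_cases i <;>
      simp [scaleX, moveField, (wide_val h).1, (wide_val h).2, (wide_val hy).1,
        (mid_val).1, (mid_val).2, rv_qfrac] <;> ring
  · exact high_pt hA (scale_mem hr hx he hs) hy

lemma act_scaleY {A : Set Pt} (hA : High A) (r : QD) (hr : 0 < rv r) {x y : ℝ} (hx : x ∈ W)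
    (hy : y ∈ W) (he : 1 / 2 + rv r * (y - 1 / 2) ∈ W) :
    Act (moveField (scaleY r)) A (pt x y (1 / 2)) (pt x (1 / 2 + rv r * (y - 1 / 2)) (1 / 2)) := by
  refine ⟨fun s => pt x (1 / 2 + Real.exp (s * Real.log (rv r)) * (y - 1 / 2)) (1 / 2), by simp,
    by simp [Real.exp_log hr], fun s hs => ⟨?_, ?_⟩⟩
  · have h := scale_mem hr hy he hs
    simp only [one_div] at h
    refine (hasDerivAt_pt (hasDerivAt_const s x)
      (((((hasDerivAt_id s).mul_const (Real.log (rv r))).exp).mul_const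
      (y - 1 / 2)).const_add (1 / 2)) (hasDerivAt_const s (1 / 2))).congr_deriv ?_
    funext i
    fin_cases i <;>
      simp [scaleY, moveField, (wide_val h).1, (wide_val h).2, (wide_val hx).1,
        (mid_val).1, (mid_val).2, rv_qfrac] <;> ring
  · exact high_pt hA hx (scale_mem hr hy he hs)

lemma act_moveZ {A : Set Pt} (c zlo zhi : QD) (sx sy : QD × QD × QD)
    (hx' : SlotOK (sx.1, sx.2.1, sx.2.2, qnat 0, qnat 1))
    (hy' : SlotOK (sy.1, sy.2.1, sy.2.2, qnat 1, qnat 0))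
    (hz' : SlotOK (zlo, zhi, qnat 16, qnat 1, qnat 0)) {x y z : ℝ}
    (hxi : rv sx.1 ≤ x ∧ x ≤ rv sx.2.1) (hyi : rv sy.1 ≤ y ∧ y ≤ rv sy.2.1)
    (hzi : ∀ s ∈ Icc (0 : ℝ) 1, rv zlo ≤ z + s * rv c ∧ z + s * rv c ≤ rv zhi)
    (hA : ∀ s ∈ Icc (0 : ℝ) 1, pt x y (z + s * rv c) ∈ A) :
    Act (moveField (moveZ c zlo zhi sx sy)) A (pt x y z) (pt x y (z + rv c)) := by
  refine ⟨fun s => pt x y (z + s * rv c), by simp, by simp, fun s hs => ⟨?_, hA s hs⟩⟩
  obtain ⟨a1, a2⟩ := slot_inside hx' hxi.1 hxi.2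
  obtain ⟨b1, b2⟩ := slot_inside hy' hyi.1 hyi.2
  obtain ⟨c1, c2⟩ := slot_inside hz' (hzi s hs).1 (hzi s hs).2
  refine (hasDerivAt_pt (hasDerivAt_const s x) (hasDerivAt_const s y)
    (((hasDerivAt_id s).mul_const (rv c)).const_add z)).congr_deriv ?_
  funext i
  fin_cases i <;> simp [moveZ, moveField, a1, a2, b1, b2, c1, c2]

end Vale.Agent.P113
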