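import Mathlib

/-!
Definitions for the halting-detection question about forced Navier-Stokes flows on the flat torus.

The torus is handled through functions on `Fin 3 → ℝ` that are periodic under integer shifts.
-/

noncomputable section

namespace Vale.Agent.P113

/-- Points of the covering space of the torus. -/
abbrev Pt : Type := Fin 3 → ℝ

/-! ### The admissible functions -/

/-- The profile `exp (-1/(1-s^2))` on `|s| < 1`, extended by zero. -/
def rho (s : ℝ) : ℝ := if |s| < 1 then Real.exp (-1 / (1 - s ^ 2)) else 0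

/-- The integral of `rho` over the real line. -/
def kappa : ℝ := ∫ s, rho s

/-- The integral of `rho` over `(-∞, s]`. -/
def sigma (s : ℝ) : ℝ := ∫ t in Set.Iic s, rho t

/-- The function `sigma s - sigma (s - l)`. -/
def piFun (l s : ℝ) : ℝ := sigma s - sigma (s - l)

/-- The periodization with period one. -/
def per (g : ℝ → ℝ) (y : ℝ) : ℝ := ∑' m : ℤ, g (y + m)

/-- A rational number given by three naturals: `(p, m, d)` stands for `(p - m)/(d + 1)`. -/
abbrev QD : Type := ℕ × ℕ × ℕ

/-- The rational number given by a triple. -/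
def qval (x : QD) : ℚ := ((x.1 : ℚ) - x.2.1) / ((x.2.2 : ℚ) + 1)

/-- An integer given as a difference of two naturals. -/
def zval (x : ℕ × ℕ) : ℤ := (x.1 : ℤ) - x.2

/-- The data of a bump: `inl (k, j, a, b)` stands for `s ↦ s^k * rho^(j) (a*s - b)` and
`inr (k, l, a, b)` stands for `s ↦ s^k * pi_l (a*s - b)`. -/
abbrev Bump : Type := (ℕ × ℕ × QD × QD) ⊕ (ℕ × QD × QD × QD)

/-- The function given by the data of a bump. -/
def bumpFun : Bump → ℝ → ℝ
  | Sum.inl (k, j, a, b) => fun s =>
      s ^ k * iteratedDeriv j rho ((qval a : ℝ) * s - (qval b : ℝ))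
  | Sum.inr (k, l, a, b) => fun s =>
      s ^ k * piFun (qval l : ℝ) ((qval a : ℝ) * s - (qval b : ℝ))

/-- The conditions on the parameters of a bump: `a ≠ 0`, and `l > 0`. -/
def bumpOK : Bump → Prop
  | Sum.inl (_, _, a, _) => qval a ≠ 0
  | Sum.inr (_, l, a, _) => qval a ≠ 0 ∧ 0 < qval l

/-- The data of a term `c * θ(t) * h₁(x₁) * h₂(x₂) * h₃(x₃)`:
* the coefficient is `(q, m, n, r)`, standing for `q * ν^m * κ^n * ∏ ln rᵢ`;
* `θ` is a list of factors `(flag, g)`, standing for `P[g](t)` if the flag is true and for `g(t)`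
  otherwise (the empty list is the constant one);
* each `hᵢ` is a list of bumps, standing for the product of their periodizations. -/
abbrev Term : Type :=
  (QD × ℕ × (ℕ × ℕ) × List QD) × List (Bool × Bump) × (List Bump × List Bump × List Bump)

/-- The value of a coefficient. -/
def coefVal (ν : ℝ) : QD × ℕ × (ℕ × ℕ) × List QD → ℝ
  | (q, m, n, r) =>
      (qval q : ℝ) * ν ^ m * kappa ^ zval n * (r.map fun x => Real.log (qval x : ℝ)).prod

/-- The value of a factor of the time part. -/
def timeFactor (p : Bool × Bump) (t : ℝ) : ℝ :=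
  if p.1 then per (bumpFun p.2) t else bumpFun p.2 t

/-- The value of the time part. -/
def timeVal (θ : List (Bool × Bump)) (t : ℝ) : ℝ := (θ.map fun p => timeFactor p t).prod

/-- The value of one of the space parts. -/
def spaceVal (h : List Bump) (y : ℝ) : ℝ := (h.map fun g => per (bumpFun g) y).prod

/-- The value of a term. -/
def termVal (ν : ℝ) (T : Term) (t : ℝ) (x : Pt) : ℝ :=
  coefVal ν T.1 * timeVal T.2.1 t *
    (spaceVal T.2.2.1 (x 0) * spaceVal T.2.2.2.1 (x 1) * spaceVal T.2.2.2.2 (x 2))

/-- The parameters of a term are allowed. -/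
def termOK (T : Term) : Prop :=
  (∀ r ∈ T.1.2.2.2, 0 < qval r) ∧ (∀ p ∈ T.2.1, bumpOK p.2) ∧
    (∀ g ∈ T.2.2.1, bumpOK g) ∧ (∀ g ∈ T.2.2.2.1, bumpOK g) ∧ (∀ g ∈ T.2.2.2.2, bumpOK g)

/-- A term is periodic if its time part is one or a product of periodizations only. -/
def isPer (T : Term) : Bool := T.2.1.all fun p => p.1

/-- The data of a force: one list of terms for each component. -/
abbrev ForceData : Type := List Term × List Term × List Term

/-- The component lists. -/
def component (F : ForceData) : Fin 3 → List Term := ![F.1, F.2.1, F.2.2]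

/-- The force given by its data: the sum of the listed terms. -/
def forceVal (ν : ℝ) (F : ForceData) (t : ℝ) (x : Pt) (i : Fin 3) : ℝ :=
  ((component F i).map fun T => termVal ν T t x).sum

/-! ### Turing machines -/

/-- A move of the head. -/
inductive Dir : Type
  | left
  | stay
  | right

/-- The displacement of a move. -/
def Dir.shift : Dir → ℤ
  | Dir.left => -1
  | Dir.stay => 0
  | Dir.right => 1

/-- A number for each move. -/
def Dir.num : Dir → ℕ
  | Dir.left => 0
  | Dir.stay => 1
  | Dir.right => 2

/-- A deterministic one-tape machine. The symbols are `Fin (nsym + 1)` with blank `0`, the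
states are `Fin (nst + 1)`. If the transition is undefined, the machine is stuck. -/
structure Machine : Type where
  nsym : ℕ
  nst : ℕ
  start : Fin (nst + 1)
  halting : Fin (nst + 1) → Bool
  tr : Fin (nst + 1) → Fin (nsym + 1) → Option (Fin (nsym + 1) × Dir × Fin (nst + 1))

/-- A configuration: state, tape and position of the head. -/
structure Cfg (M : Machine) : Type where
  state : Fin (M.nst + 1)
  tape : ℤ → Fin (M.nsym + 1)
  head : ℤ

/-- One step; halting and stuck configurations stay as they are. -/
def next (M : Machine) (c : Cfg M) : Cfg M :=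
  if M.halting c.state then c
  else
    match M.tr c.state (c.tape c.head) with
    | none => c
    | some (a, d, q) => ⟨q, Function.update c.tape c.head a, c.head + d.shift⟩

/-- The word `w` written at positions `0, 1, ...` of a blank tape, with the head at `0`. -/
def initCfg (M : Machine) (w : List (Fin (M.nsym + 1))) : Cfg M :=
  ⟨M.start, fun i => if 0 ≤ i then w.getD i.toNat 0 else 0, 0⟩

/-- The machine reaches a halting state after finitely many steps, possibly none. -/
def Halts (M : Machine) (w : List (Fin (M.nsym + 1))) : Prop :=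
  ∃ n : ℕ, M.halting ((next M)^[n] (initCfg M w)).state = true

/-- The plain data of a machine: number of nonblank symbols, number of states less one, start
state, halting flags and transition table. -/
abbrev MCode : Type := ℕ × ℕ × ℕ × List Bool × List (List (Option (ℕ × ℕ × ℕ)))

/-- The data of a machine, as a finite object. -/
def Machine.code (M : Machine) : MCode :=
  (M.nsym, M.nst, M.start.val, List.ofFn M.halting,
    List.ofFn fun q => List.ofFn fun s =>
      (M.tr q s).map fun r => (r.1.val, r.2.1.num, r.2.2.val))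

/-- The data of an input word. -/
def wordCode {n : ℕ} (w : List (Fin n)) : List ℕ := w.map Fin.val

set_option synthInstance.maxSize 1000 in
set_option synthInstance.maxHeartbeats 200000 in
/-- What a force compiler is: an algorithm (a computable function on the data of machine and
input) giving admissible term lists, with a common time after which every term that is not
periodic vanishes, and periodic terms depending on the machine only. -/
structure IsForceCompiler (F : MCode × List ℕ → ForceData) : Prop where
  computable : Computable F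
  valid : ∀ (M : Machine) (w : List (Fin (M.nsym + 1))) (i : Fin 3),
    ∀ T ∈ component (F (M.code, wordCode w)) i, termOK T
  transient : ∃ T₀ : ℝ, ∀ (ν : ℝ) (M : Machine) (w : List (Fin (M.nsym + 1))) (i : Fin 3),
    ∀ T ∈ component (F (M.code, wordCode w)) i, isPer T = false →
      ∀ (t : ℝ) (x : Pt), T₀ ≤ t → termVal ν T t x = 0
  periodic : ∀ (M : Machine) (w w' : List (Fin (M.nsym + 1))) (i : Fin 3),
    (component (F (M.code, wordCode w)) i).filter isPer =
      (component (F (M.code, wordCode w')) i).filter isPer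

/-! ### The equations -/

/-- The partial derivative in direction `i`. -/
def pd (i : Fin 3) (g : Pt → ℝ) (x : Pt) : ℝ := deriv (fun s => g (Function.update x i s)) (x i)

/-- The unit cell. -/
def cube : Set Pt := Set.Icc 0 1

/-- A classical solution on `[0,T]` of the Navier-Stokes equations on the torus with viscosity
`ν` and force `f`, starting from rest. -/
structure IsClassical (ν T : ℝ) (f : ℝ → Pt → Fin 3 → ℝ) (u : ℝ → Pt → Fin 3 → ℝ)
    (p : ℝ → Pt → ℝ) : Prop where
  periodic : ∀ t ∈ Set.Icc 0 T, ∀ (x : Pt) (n : Fin 3 → ℤ),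
    u t (fun i => x i + n i) = u t x ∧ p t (fun i => x i + n i) = p t x
  smooth_u : ∀ t ∈ Set.Icc 0 T, ∀ i, ContDiff ℝ 2 (fun x => u t x i)
  smooth_p : ∀ t ∈ Set.Icc 0 T, ContDiff ℝ 1 (p t)
  cont_u : ∀ i, ContinuousOn (fun z : ℝ × Pt => u z.1 z.2 i) (Set.Icc 0 T ×ˢ Set.univ)
  cont_du : ∀ i j, ContinuousOn (fun z : ℝ × Pt => pd j (fun x => u z.1 x i) z.2)
    (Set.Icc 0 T ×ˢ Set.univ)
  cont_ddu : ∀ i j k, ContinuousOn
    (fun z : ℝ × Pt => pd k (pd j (fun x => u z.1 x i)) z.2) (Set.Icc 0 T ×ˢ Set.univ)
  cont_p : ContinuousOn (fun z : ℝ × Pt => p z.1 z.2) (Set.Icc 0 T ×ˢ Set.univ)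
  cont_dp : ∀ i, ContinuousOn (fun z : ℝ × Pt => pd i (p z.1) z.2) (Set.Icc 0 T ×ˢ Set.univ)
  equation : ∃ ut : ℝ → Pt → Fin 3 → ℝ, ∀ i,
    ContinuousOn (fun z : ℝ × Pt => ut z.1 z.2 i) (Set.Icc 0 T ×ˢ Set.univ) ∧
    ∀ t ∈ Set.Icc 0 T, ∀ x : Pt,
      HasDerivWithinAt (fun s => u s x i) (ut t x i) (Set.Icc 0 T) t ∧
      ut t x i + ∑ j, u t x j * pd j (fun y => u t y i) x =
        -pd i (p t) x + ν * ∑ j, pd j (pd j (fun y => u t y i)) x + f t x i
  div_free : ∀ t ∈ Set.Icc 0 T, ∀ x : Pt, ∑ j, pd j (fun y => u t y j) x = 0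
  initial : ∀ x : Pt, u 0 x = 0
  mean_zero : ∀ t ∈ Set.Icc 0 T, ∫ x in cube, p t x = 0

/-- A trajectory, lifted to the covering space. -/
def IsTrajectory (u : ℝ → Pt → Fin 3 → ℝ) (a : Pt) (X : ℝ → Pt) : Prop :=
  X 0 = a ∧ ∀ t : ℝ, 0 ≤ t → HasDerivWithinAt X (u t (X t)) (Set.Ici 0) t

/-- The subset of the torus that is the image of an open box, as a periodic set. -/
def boxImage (lo hi : Fin 3 → ℚ) : Set Pt :=
  {x | ∃ n : Fin 3 → ℤ, ∀ i, (lo i : ℝ) < x i + n i ∧ x i + n i < (hi i : ℝ)}

end Vale.Agent.P113
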