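import Vale.Agent.P113.Defs

/-! Uniqueness of classical solutions by the energy method. -/

noncomputable section

open Set MeasureTheory

namespace Vale.Agent.P113

lemma pd_eq_fderiv {g : Pt → ℝ} {x : Pt} (h : DifferentiableAt ℝ g x) (i : Fin 3) :
    pd i g x = fderiv ℝ g x (Pi.single i 1) := by
  have h1 : HasFDerivAt g (fderiv ℝ g x) (Function.update x i (x i)) := by
    rw [Function.update_eq_self]; exact h.hasFDerivAt
  exact (h1.comp_hasDerivAt (x i) (hasDerivAt_update x i (x i))).deriv

lemma pd_contDiff {g : Pt → ℝ} (h : ContDiff ℝ 2 g) (i : Fin 3) :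
    ContDiff ℝ 1 (fun x => pd i g x) := by
  rw [show (fun x => pd i g x) = fun x => fderiv ℝ g x (Pi.single i 1) from
    funext fun x => pd_eq_fderiv (h.differentiable (by simp) x) i]
  exact (h.fderiv_right (by norm_num)).clm_apply contDiff_const

lemma pd_mul {g k : Pt → ℝ} {x : Pt} (hg : DifferentiableAt ℝ g x) (hk : DifferentiableAt ℝ k x)
    (i : Fin 3) : pd i (fun y => g y * k y) x = pd i g x * k x + g x * pd i k x := by
  rw [pd_eq_fderiv (hg.fun_mul hk), pd_eq_fderiv hg, pd_eq_fderiv hk,
    fderiv_fun_mul hg hk]
  simp
  ring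

lemma pd_sub {g k : Pt → ℝ} {x : Pt} (hg : DifferentiableAt ℝ g x) (hk : DifferentiableAt ℝ k x)
    (i : Fin 3) : pd i (fun y => g y - k y) x = pd i g x - pd i k x := by
  rw [pd_eq_fderiv (hg.fun_sub hk), pd_eq_fderiv hg, pd_eq_fderiv hk,
    fderiv_fun_sub hg hk]
  simp

lemma cube_compact : IsCompact cube := isCompact_Icc

/-- The integral over the cell of a partial derivative of a periodic function vanishes. -/
lemma integral_pd_zero {g : Pt → ℝ} (hg : ContDiff ℝ 1 g)
    (hper : ∀ (x : Pt) (n : Fin 3 → ℤ), g (fun i => x i + n i) = g x) (i : Fin 3) :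
    ∫ x in cube, pd i g x = 0 := by
  have hd : Differentiable ℝ g := hg.differentiable (by simp)
  have hpd : ∀ x, pd i g x = fderiv ℝ g x (Pi.single i 1) := fun x => pd_eq_fderiv (hd x) i
  have hcont : Continuous (fun x => fderiv ℝ g x (Pi.single i 1)) :=
    (hg.continuous_fderiv (by simp)).clm_apply continuous_const
  have h := integral_divergence_of_hasFDerivAt_off_countable' (0 : Fin (2 + 1) → ℝ) 1
    (fun _ => zero_le_one) (fun j => if j = i then g else fun _ => 0)
    (fun j x => if j = i then fderiv ℝ g x else 0) ∅ countable_empty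
    (fun j => by split_ifs <;> first | exact hg.continuous.continuousOn | exact continuousOn_const)
    (fun x _ j => by
      split_ifs
      · exact (hd x).hasFDerivAt
      · exact hasFDerivAt_const _ _)
    (by
      apply ContinuousOn.integrableOn_compact isCompact_Icc
      apply Continuous.continuousOn
      refine hcont.congr fun x => ?_
      rw [Finset.sum_eq_single i] <;> simp +contextual)
  have e : ∀ x, pd i g x =
      ∑ j, (if j = i then fderiv ℝ g x else 0) (Pi.single j (1 : ℝ)) := by
    intro x; rw [hpd, Finset.sum_eq_single i] <;> simp +contextual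
  simp only [cube, e]
  rw [h]
  apply Finset.sum_eq_zero
  intro j _
  split_ifs with hj
  · rw [sub_eq_zero]
    congr 1
    funext y
    rw [← hper (j.insertNth ((0 : Fin (2 + 1) → ℝ) j) y) (Pi.single j 1)]
    congr 1
    funext k
    rcases eq_or_ne k j with rfl | hk
    · simp
    · obtain ⟨k', rfl⟩ := Fin.exists_succAbove_eq hk
      simp
  · simp

/-- Continuity on the time interval times the cell gives a bound there. -/
lemma exists_bound {T : ℝ} {G : ℝ × Pt → ℝ} (h : ContinuousOn G (Icc 0 T ×ˢ univ)) :
    ∃ C : ℝ, 0 ≤ C ∧ ∀ t ∈ Icc 0 T, ∀ x ∈ cube, |G (t, x)| ≤ C := by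
  obtain ⟨C, hC⟩ := (isCompact_Icc.prod cube_compact).exists_bound_of_continuousOn
    (h.mono (prod_mono subset_rfl (subset_univ _)))
  exact ⟨max C 0, le_max_right _ _, fun t ht x hx => (hC (t, x) ⟨ht, hx⟩).trans (le_max_left _ _)⟩

lemma eq_zero_on_cube {g : Pt → ℝ} (hg : Continuous g) (h0 : ∀ x, 0 ≤ g x)
    (hi : ∫ x in cube, g x ≤ 0) : ∀ x ∈ cube, g x = 0 := by
  have hint : IntegrableOn g cube := hg.continuousOn.integrableOn_compact cube_compact
  have he : ∫ x in cube, g x = 0 :=
    le_antisymm hi (setIntegral_nonneg measurableSet_Icc fun x _ => h0 x)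
  have hae : g =ᵐ[volume.restrict cube] 0 :=
    (integral_eq_zero_iff_of_nonneg (μ := volume.restrict cube) h0 hint).1 he
  have hopen : EqOn g 0 (interior cube) :=
    Measure.eqOn_open_of_ae_eq (ae_restrict_of_ae_restrict_of_subset interior_subset hae)
      isOpen_interior hg.continuousOn continuousOn_const
  intro x hx
  have hcl : cube ⊆ closure (interior cube) := by
    have hc : Convex ℝ cube := convex_Icc _ _
    have hne : (interior cube).Nonempty := by
      refine ⟨fun _ => 1 / 2, ?_⟩
      rw [mem_interior_iff_mem_nhds]
      exact pi_Icc_mem_nhds (fun _ => by norm_num) (fun _ => by norm_num)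
    rw [hc.closure_interior_eq_closure_of_nonempty_interior hne]
    exact subset_closure
  exact closure_minimal (fun y hy => hopen hy) (isClosed_eq hg continuous_const) (hcl hx)

lemma wrap (x : Pt) : ∃ n : Fin 3 → ℤ, (fun i => x i + n i) ∈ cube := by
  refine ⟨fun i => -⌊x i⌋, ⟨fun i => ?_, fun i => ?_⟩⟩
  · have := Int.floor_le (x i)
    simp only [Pi.zero_apply]; push_cast; linarith
  · have := Int.lt_floor_add_one (x i)
    simp only [Pi.one_apply]; push_cast; linarith

/-- The algebra behind the energy estimate, at one point. -/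
lemma energy_alg (w v dv dπ : Fin 3 → ℝ) (dw du lap : Fin 3 → Fin 3 → ℝ) (π : ℝ) {K ν : ℝ}
    (hK : 0 ≤ K) (hν : 0 ≤ ν)
    (bd : ∀ i j, -(w i * (w j * du i j)) ≤ K * ((w i ^ 2 + w j ^ 2) / 2))
    (divv : ∑ j, dv j = 0) (divw : ∑ i, dw i i = 0) :
    ∑ i, w i * (-(∑ j, v j * dw i j) - (∑ j, w j * du i j) - dπ i + ν * ∑ j, lap i j) ≤
      -(1 / 2) * (∑ j, (dv j * (∑ i, w i * w i) + v j * (2 * ∑ i, w i * dw i j)))
        - (∑ i, (dw i i * π + w i * dπ i))
        + ν * (∑ i, ∑ j, (dw i j * dw i j + w i * lap i j))
        + 9 * K * ∑ i, w i ^ 2 := by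
  have S : 0 ≤ ν * ∑ i, ∑ j, dw i j * dw i j :=
    mul_nonneg hν (Finset.sum_nonneg fun i _ => Finset.sum_nonneg fun j _ => mul_self_nonneg _)
  have q0 := mul_nonneg hK (sq_nonneg (w 0))
  have q1 := mul_nonneg hK (sq_nonneg (w 1))
  have q2 := mul_nonneg hK (sq_nonneg (w 2))
  simp only [Fin.sum_univ_three] at divv divw S ⊢
  linear_combination (exp := 1) bd 0 0 + bd 0 1 + bd 0 2 + bd 1 0 + bd 1 1 + bd 1 2
    + bd 2 0 + bd 2 1 + bd 2 2 + S + 6 * q0 + 6 * q1 + 6 * q2
    + (1 / 2) * (w 0 * w 0 + w 1 * w 1 + w 2 * w 2) * divv + π * divw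

/-- Classical solutions from rest are unique. -/
theorem classical_unique {ν T : ℝ} (hν : 0 ≤ ν) (hT : 0 < T) {f u v : ℝ → Pt → Fin 3 → ℝ}
    {p q : ℝ → Pt → ℝ} (hu : IsClassical ν T f u p) (hv : IsClassical ν T f v q) :
    ∀ t ∈ Icc 0 T, ∀ x, v t x = u t x ∧ q t x = p t x := by
  obtain ⟨ut, hut⟩ := hu.equation
  obtain ⟨vt, hvt⟩ := hv.equation
  -- bound on the gradient of u
  choose B hB0 hB using fun i j => exists_bound (hu.cont_du i j)
  let K : ℝ := ∑ i, ∑ j, B i j
  have hK : ∀ i j, B i j ≤ K := fun i j =>
    (Finset.single_le_sum (fun j _ => hB0 i j) (Finset.mem_univ j)).trans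
      (Finset.single_le_sum (f := fun i => ∑ j, B i j)
        (fun i _ => Finset.sum_nonneg fun j _ => hB0 i j) (Finset.mem_univ i))
  have hK0 : 0 ≤ K := Finset.sum_nonneg fun i _ => Finset.sum_nonneg fun j _ => hB0 i j
  let w : ℝ → Pt → Fin 3 → ℝ := fun t x i => v t x i - u t x i
  let wt : ℝ → Pt → Fin 3 → ℝ := fun t x i => vt t x i - ut t x i
  let π : ℝ → Pt → ℝ := fun t x => q t x - p t x
  have hwc : ∀ i, ContinuousOn (fun z : ℝ × Pt => w z.1 z.2 i) (Icc 0 T ×ˢ univ) := fun i =>
    (hv.cont_u i).sub (hu.cont_u i)
  have hwtc : ∀ i, ContinuousOn (fun z : ℝ × Pt => wt z.1 z.2 i) (Icc 0 T ×ˢ univ) := fun i =>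
    (hvt i).1.sub (hut i).1
  -- pointwise facts at a fixed time
  have hslice : ∀ t ∈ Icc 0 T, ∫ x in cube, (∑ i, w t x i * wt t x i)
      ≤ 9 * K * ∫ x in cube, (∑ i, w t x i ^ 2) := by
    intro t ht
    have du : ∀ i, Differentiable ℝ fun x => u t x i := fun i =>
      (hu.smooth_u t ht i).differentiable (by simp)
    have dv : ∀ i, Differentiable ℝ fun x => v t x i := fun i =>
      (hv.smooth_u t ht i).differentiable (by simp)
    have hw2 : ∀ i, ContDiff ℝ 2 fun x => w t x i := fun i =>
      (hv.smooth_u t ht i).sub (hu.smooth_u t ht i)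
    have hw1 : ∀ i, ContDiff ℝ 1 fun x => w t x i := fun i => (hw2 i).of_le (by norm_num)
    have hv1 : ∀ i, ContDiff ℝ 1 fun x => v t x i := fun i =>
      (hv.smooth_u t ht i).of_le (by norm_num)
    have hπ : ContDiff ℝ 1 (π t) := (hv.smooth_p t ht).sub (hu.smooth_p t ht)
    have dw : ∀ i, Differentiable ℝ fun x => w t x i := fun i => (hw1 i).differentiable (by simp)
    let E : Pt → ℝ := fun x => ∑ i, w t x i * w t x i
    have hE : ContDiff ℝ 1 E := ContDiff.sum fun i _ => (hw1 i).mul (hw1 i)
    have hcwi : ∀ i, Continuous fun x => w t x i := fun i => (hw1 i).continuous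
    have hper : ∀ (x : Pt) (n : Fin 3 → ℤ) (i : Fin 3),
        w t (fun k => x k + n k) i = w t x i := fun x n i => by
      simp only [w, (hv.periodic t ht x n).1, (hu.periodic t ht x n).1]
    have hperd : ∀ (i j : Fin 3) (x : Pt) (n : Fin 3 → ℤ),
        pd j (fun y => w t y i) (fun k => x k + n k) = pd j (fun y => w t y i) x := by
      intro i j x n
      unfold pd
      have e : (fun s => w t (Function.update (fun k => x k + n k) j s) i)
          = fun s => w t (Function.update x j (s - n j)) i := by
        funext s
        rw [← hper (Function.update x j (s - n j)) n i]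
        congr 1
        funext k
        rcases eq_or_ne k j with rfl | hk
        · simp
        · simp [hk]
      rw [e, deriv_comp_sub_const (f := fun s => w t (Function.update x j s) i)]
      simp
    -- the three integrals that vanish
    have A1 : ∀ j, ∫ x in cube, pd j (fun y => v t y j * E y) x = 0 := fun j =>
      integral_pd_zero ((hv1 j).mul hE) (fun x n => by
        simp only [E, hper, (hv.periodic t ht x n).1]) j
    have A2 : ∀ i, ∫ x in cube, pd i (fun y => w t y i * π t y) x = 0 := fun i =>
      integral_pd_zero ((hw1 i).mul hπ) (fun x n => by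
        simp only [π, hper, (hv.periodic t ht x n).2, (hu.periodic t ht x n).2]) i
    have A3 : ∀ i j, ∫ x in cube, pd j (fun y => w t y i * pd j (fun z => w t z i) y) x = 0 :=
      fun i j => integral_pd_zero ((hw1 i).mul (pd_contDiff (hw2 i) j)) (fun x n => by
        simp only [hper, hperd]) j
    have hint : ∀ {g : Pt → ℝ}, Continuous g → IntegrableOn g cube := fun {g} hg =>
      hg.continuousOn.integrableOn_compact cube_compact
    have hcpd : ∀ {g : Pt → ℝ}, ContDiff ℝ 1 g → ∀ j, Continuous fun x => pd j g x := by
      intro g hg j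
      rw [show (fun x => pd j g x) = fun x => fderiv ℝ g x (Pi.single j 1) from
        funext fun x => pd_eq_fderiv (hg.differentiable (by simp) x) j]
      exact (hg.continuous_fderiv (by simp)).clm_apply continuous_const
    let Z : Pt → ℝ := fun x => -(1 / 2) * (∑ j, pd j (fun y => v t y j * E y) x)
      - (∑ i, pd i (fun y => w t y i * π t y) x)
      + ν * (∑ i, ∑ j, pd j (fun y => w t y i * pd j (fun z => w t z i) y) x)
    have hZc : Continuous Z :=
      ((continuous_const.mul (continuous_finsetSum _ fun j _ => hcpd ((hv1 j).mul hE) j)).sub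
        (continuous_finsetSum _ fun i _ => hcpd ((hw1 i).mul hπ) i)).add
      (continuous_const.mul (continuous_finsetSum _ fun i _ => continuous_finsetSum _ fun j _ =>
        hcpd ((hw1 i).mul (pd_contDiff (hw2 i) j)) j))
    have hZ0 : ∫ x in cube, Z x = 0 := by
      simp only [Z]
      rw [integral_add, integral_sub, integral_const_mul, integral_const_mul, integral_finsetSum,
        integral_finsetSum, integral_finsetSum]
      · simp only [A1, A2, Finset.sum_const_zero, mul_zero, sub_zero, zero_add]
        rw [Finset.sum_eq_zero, mul_zero]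
        intro i _
        rw [integral_finsetSum]
        · simp only [A3, Finset.sum_const_zero]
        · exact fun j _ => hint (hcpd ((hw1 i).mul (pd_contDiff (hw2 i) j)) j)
      · exact fun i _ => hint (continuous_finsetSum _ fun j _ =>
          hcpd ((hw1 i).mul (pd_contDiff (hw2 i) j)) j)
      · exact fun i _ => hint (hcpd ((hw1 i).mul hπ) i)
      · exact fun j _ => hint (hcpd ((hv1 j).mul hE) j)
      · exact hint (continuous_const.mul
          (continuous_finsetSum _ fun j _ => hcpd ((hv1 j).mul hE) j))
      · exact hint (continuous_finsetSum _ fun i _ => hcpd ((hw1 i).mul hπ) i)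
      · exact hint ((continuous_const.mul
          (continuous_finsetSum _ fun j _ => hcpd ((hv1 j).mul hE) j)).sub
          (continuous_finsetSum _ fun i _ => hcpd ((hw1 i).mul hπ) i))
      · exact hint (continuous_const.mul (continuous_finsetSum _ fun i _ =>
          continuous_finsetSum _ fun j _ => hcpd ((hw1 i).mul (pd_contDiff (hw2 i) j)) j))
    have hwtct : ∀ i, Continuous fun x => wt t x i := fun i =>
      (hwtc i).comp_continuous (continuous_const.prodMk continuous_id) fun x => ⟨ht, trivial⟩
    have hEc : Continuous fun x => ∑ i, w t x i ^ 2 :=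
      continuous_finsetSum _ fun i _ => (hcwi i).pow 2
    calc ∫ x in cube, (∑ i, w t x i * wt t x i)
        ≤ ∫ x in cube, (Z x + 9 * K * ∑ i, w t x i ^ 2) := by
          apply setIntegral_mono_on
            (hint (continuous_finsetSum _ fun i _ => (hcwi i).mul (hwtct i)))
            (hint (hZc.add (continuous_const.mul hEc))) measurableSet_Icc
          intro x hx
          have eqn : ∀ i, wt t x i = -(∑ j, v t x j * pd j (fun y => w t y i) x)
              - (∑ j, w t x j * pd j (fun y => u t y i) x) - pd i (π t) x
              + ν * ∑ j, pd j (fun y => pd j (fun z => w t z i) y) x := by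
            intro i
            have a := ((hut i).2 t ht x).2
            have b := ((hvt i).2 t ht x).2
            have e1 : ∀ j, pd j (fun y => w t y i) x
                = pd j (fun y => v t y i) x - pd j (fun y => u t y i) x :=
              fun j => pd_sub (dv i x) (du i x) j
            have e2 : ∀ j, pd j (fun y => pd j (fun z => w t z i) y) x
                = pd j (pd j fun z => v t z i) x - pd j (pd j fun z => u t z i) x := by
              intro j
              have e : (fun y => pd j (fun z => w t z i) y)
                  = fun y => pd j (fun z => v t z i) y - pd j (fun z => u t z i) y :=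
                funext fun y => pd_sub (dv i y) (du i y) j
              rw [e]
              exact pd_sub ((pd_contDiff (hv.smooth_u t ht i) j).differentiable (by simp) x)
                ((pd_contDiff (hu.smooth_u t ht i) j).differentiable (by simp) x) j
            have e3 : pd i (π t) x = pd i (q t) x - pd i (p t) x :=
              pd_sub ((hv.smooth_p t ht).differentiable (by simp) x)
                ((hu.smooth_p t ht).differentiable (by simp) x) i
            simp only [wt, e1, e2, e3, w, mul_sub, sub_mul, Finset.sum_sub_distrib] at *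
            linarith
          have p1 : ∀ j, pd j (fun y => v t y j * E y) x = pd j (fun y => v t y j) x * E x
              + v t x j * (2 * ∑ i, w t x i * pd j (fun y => w t y i) x) := by
            intro j
            rw [pd_mul (dv j x) (hE.differentiable (by simp) x)]
            congr 2
            rw [pd_eq_fderiv (hE.differentiable (by simp) x)]
            simp only [E]
            rw [fderiv_fun_sum fun i _ => ((dw i x).fun_mul (dw i x)), Finset.mul_sum,
              sum_apply]
            apply Finset.sum_congr rfl
            intro i _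
            rw [← pd_eq_fderiv ((dw i).fun_mul (dw i) x), pd_mul (dw i x) (dw i x)]
            ring
          have p2 : ∀ i, pd i (fun y => w t y i * π t y) x
              = pd i (fun y => w t y i) x * π t x + w t x i * pd i (π t) x :=
            fun i => pd_mul (dw i x) (hπ.differentiable (by simp) x) i
          have p3 : ∀ i j, pd j (fun y => w t y i * pd j (fun z => w t z i) y) x
              = pd j (fun y => w t y i) x * pd j (fun y => w t y i) x
                + w t x i * pd j (fun y => pd j (fun z => w t z i) y) x :=
            fun i j => pd_mul (dw i x) ((pd_contDiff (hw2 i) j).differentiable (by simp) x) j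
          have divv := hv.div_free t ht x
          have divw : ∑ i, pd i (fun y => w t y i) x = 0 := by
            simp only [w]
            rw [Finset.sum_congr rfl fun i _ => pd_sub (dv i x) (du i x) i,
              Finset.sum_sub_distrib, hv.div_free t ht x, hu.div_free t ht x, sub_zero]
          have bd : ∀ i j, -(w t x i * (w t x j * pd j (fun y => u t y i) x))
              ≤ K * ((w t x i ^ 2 + w t x j ^ 2) / 2) := by
            intro i j
            have h1 := abs_le.1 ((hB i j t ht x hx).trans (hK i j))
            nlinarith [sq_nonneg (w t x i + w t x j), sq_nonneg (w t x i - w t x j)]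
          simp only [Z, Pi.mul_apply, Pi.add_apply]
          simp only [p1, p2, p3, eqn, E]
          exact energy_alg (fun i => w t x i) (fun i => v t x i)
            (fun i => pd i (fun y => v t y i) x) (fun i => pd i (π t) x)
            (fun i j => pd j (fun y => w t y i) x) (fun i j => pd j (fun y => u t y i) x)
            (fun i j => pd j (fun y => pd j (fun z => w t z i) y) x)
            (π t x) hK0 hν bd divv divw
      _ = 9 * K * ∫ x in cube, (∑ i, w t x i ^ 2) := by
          rw [integral_add (hint hZc) (hint (g := fun x => 9 * K * ∑ i, w t x i ^ 2)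
            (continuous_const.mul hEc)), hZ0, zero_add, integral_const_mul]
  -- integrate in time
  have hall : ∀ t ∈ Icc 0 T, ∀ x i, v t x i - u t x i = 0 := by
    intro t ht
    let Φ : ℝ → Pt → ℝ := fun s x => Real.exp (-18 * K * s) * ∑ i, w s x i ^ 2
    let Φ' : ℝ → Pt → ℝ := fun s x => Real.exp (-18 * K * s) *
      (2 * ∑ i, w s x i * wt s x i - 18 * K * ∑ i, w s x i ^ 2)
    have hΦ'c : ContinuousOn (fun z : ℝ × Pt => Φ' z.1 z.2) (Icc 0 T ×ˢ univ) :=
      (Continuous.continuousOn (by fun_prop)).mul
        ((continuousOn_const.mul (continuousOn_finsetSum _ fun i _ => (hwc i).mul (hwtc i))).sub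
          (continuousOn_const.mul (continuousOn_finsetSum _ fun i _ => (hwc i).pow 2)))
    have hftc : ∀ x, ∫ s in (0 : ℝ)..t, Φ' s x = Φ t x := by
      intro x
      have hsub : Icc 0 t ⊆ Icc 0 T := Icc_subset_Icc_right ht.2
      rw [intervalIntegral.integral_eq_sub_of_hasDerivAt_of_le ht.1 (f := fun s => Φ s x)]
      · have : ∀ i, w 0 x i = 0 := fun i => by simp [w, hu.initial x, hv.initial x]
        simp [Φ, this]
      · apply ContinuousOn.mul (Continuous.continuousOn (by fun_prop))
        exact continuousOn_finsetSum _ fun i _ => ((hwc i).comp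
          (continuous_id.prodMk continuous_const).continuousOn fun s hs => ⟨hsub hs, trivial⟩).pow 2
      · intro s hs
        have hs' : Icc 0 T ∈ nhds s := Icc_mem_nhds hs.1 (lt_of_lt_of_le hs.2 ht.2)
        have hd : ∀ i, HasDerivAt (fun r => w r x i) (wt s x i) s := fun i =>
          ((((hvt i).2 s (hsub (Ioo_subset_Icc_self hs)) x).1.hasDerivAt hs').fun_sub
            (((hut i).2 s (hsub (Ioo_subset_Icc_self hs)) x).1.hasDerivAt hs'))
        have he : HasDerivAt (fun r => Real.exp (-18 * K * r))
            (Real.exp (-18 * K * s) * (-18 * K)) s := by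
          simpa using ((hasDerivAt_id s).const_mul (-18 * K)).exp
        refine (he.fun_mul (HasDerivAt.fun_sum fun i _ => (hd i).fun_pow 2)).congr_deriv ?_
        simp only [Φ', Fin.sum_univ_three]
        push_cast
        ring
      · apply ContinuousOn.intervalIntegrable
        rw [uIcc_of_le ht.1]
        exact hΦ'c.comp (continuous_id.prodMk continuous_const).continuousOn
          fun s hs => ⟨hsub hs, trivial⟩
    have hswap : ∫ x in cube, Φ t x = ∫ s in Ioc 0 t, ∫ x in cube, Φ' s x := by
      rw [integral_integral_swap]
      · exact integral_congr_ae (Filter.Eventually.of_forall fun x => by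
          show Φ t x = ∫ s in Ioc 0 t, Φ' s x
          rw [← hftc x, intervalIntegral.integral_of_le ht.1])
      · rw [Measure.prod_restrict]
        exact ((hΦ'c.mono (prod_mono (Icc_subset_Icc_right ht.2)
          (subset_univ _))).integrableOn_compact
            (isCompact_Icc.prod cube_compact)).mono_set (prod_mono Ioc_subset_Icc_self subset_rfl)
    have hle : ∫ x in cube, Φ t x ≤ 0 := by
      rw [hswap]
      apply setIntegral_nonpos measurableSet_Ioc
      intro s hs
      have hsT : s ∈ Icc 0 T := ⟨hs.1.le, hs.2.trans ht.2⟩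
      have hA : Continuous fun x => ∑ i, w s x i * wt s x i :=
        continuous_finsetSum _ fun i _ =>
          ((hwc i).comp_continuous (continuous_const.prodMk continuous_id) fun x => ⟨hsT, trivial⟩).mul
          ((hwtc i).comp_continuous (continuous_const.prodMk continuous_id) fun x => ⟨hsT, trivial⟩)
      have hB' : Continuous fun x => ∑ i, w s x i ^ 2 :=
        continuous_finsetSum _ fun i _ =>
          ((hwc i).comp_continuous (continuous_const.prodMk continuous_id) fun x => ⟨hsT, trivial⟩).pow 2
      simp only [Φ']
      have iA : IntegrableOn (fun x => 2 * ∑ i, w s x i * wt s x i) cube :=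
        (continuous_const.mul hA).continuousOn.integrableOn_compact cube_compact
      have iB : IntegrableOn (fun x => 18 * K * ∑ i, w s x i ^ 2) cube :=
        (continuous_const.mul hB').continuousOn.integrableOn_compact cube_compact
      rw [integral_const_mul, integral_sub iA iB, integral_const_mul, integral_const_mul]
      have := hslice s hsT
      exact mul_nonpos_of_nonneg_of_nonpos (Real.exp_pos _).le (by linarith)
    have hcont : Continuous fun x => Φ t x :=
      continuous_const.mul (continuous_finsetSum _ fun i _ =>
        ((hwc i).comp_continuous (continuous_const.prodMk continuous_id) fun x => ⟨ht, trivial⟩).pow 2)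
    have hzero := eq_zero_on_cube hcont
      (fun x => mul_nonneg (Real.exp_pos _).le (Finset.sum_nonneg fun i _ => sq_nonneg _)) hle
    intro x i
    obtain ⟨n, hn⟩ := wrap x
    have h1 := hzero _ hn
    simp only [Φ, mul_eq_zero, Real.exp_ne_zero, false_or] at h1
    have h2 := (Finset.sum_eq_zero_iff_of_nonneg (fun i _ => sq_nonneg _)).1 h1 i (Finset.mem_univ i)
    simp only [w, (hv.periodic t ht x n).1, (hu.periodic t ht x n).1] at h2 ⊢
    exact pow_eq_zero_iff (n := 2) (by norm_num) |>.1 h2
  intro t ht x
  have hwz := hall t ht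
  have huv : v t = u t := funext fun y => funext fun i => by
    have hh : ∀ y i, w t y i = 0 := hwz
    exact sub_eq_zero.1 (hh y i)
  refine ⟨congrFun huv x, ?_⟩
  have hgrad : ∀ i y, pd i (π t) y = 0 := by
    intro i y
    have hd : HasDerivWithinAt (fun s => v s y i - u s y i) (vt t y i - ut t y i) (Icc 0 T) t :=
      (((hvt i).2 t ht y).1).fun_sub (((hut i).2 t ht y).1)
    have h0 : HasDerivWithinAt (fun s => v s y i - u s y i) 0 (Icc 0 T) t :=
      (hasDerivWithinAt_const t (Icc 0 T) (0 : ℝ)).congr (fun s hs => hall s hs y i) (hall t ht y i)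
    have e := (uniqueDiffOn_Icc hT t ht).eq_deriv _ hd h0
    have a := ((hut i).2 t ht y).2
    have b := ((hvt i).2 t ht y).2
    rw [huv] at b
    have e3 : pd i (π t) y = pd i (q t) y - pd i (p t) y :=
      pd_sub ((hv.smooth_p t ht).differentiable (by simp) y)
        ((hu.smooth_p t ht).differentiable (by simp) y) i
    linarith
  have hπd : Differentiable ℝ (π t) :=
    ((hv.smooth_p t ht).sub (hu.smooth_p t ht)).differentiable (by simp)
  have hf0 : ∀ y, fderiv ℝ (π t) y = 0 := fun y => by
    apply ContinuousLinearMap.ext
    intro z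
    have : z = ∑ i, z i • (Pi.single i 1 : Pt) := by
      funext k; simp [Finset.sum_apply, Pi.single_apply]
    rw [this, map_sum]
    simp [← pd_eq_fderiv (hπd y), hgrad]
  have hconst : ∀ y, π t y = π t x := fun y => is_const_of_fderiv_eq_zero hπd hf0 y x
  have hmean : ∫ y in cube, π t y = 0 := by
    simp only [π]
    rw [integral_sub
      ((hv.smooth_p t ht).continuous.continuousOn.integrableOn_compact cube_compact)
      ((hu.smooth_p t ht).continuous.continuousOn.integrableOn_compact cube_compact),
      hv.mean_zero t ht, hu.mean_zero t ht, sub_zero]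
  have hvol : volume.real cube = 1 := by
    simp [cube, measureReal_def, Real.volume_Icc_pi]
  simp only [hconst, setIntegral_const, hvol, one_smul] at hmean
  exact sub_eq_zero.1 hmean

end Vale.Agent.P113
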