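import Vale.Agent.P113.Terms
import Vale.Agent.P113.Energy

/-! The solution belonging to a velocity, and pieces of trajectories. -/

noncomputable section

open Set MeasureTheory
open scoped ContDiff

namespace Vale.Agent.P113

/-- Requirements on the data of a velocity. -/
structure VelOK (ν : ℝ) (U : ForceData) : Prop where
  good : ∀ i, LGood (component U i)
  div : ∀ t x, lval ν (d0 U.1) t x + (lval ν (d1 U.2.1) t x + lval ν (d2 U.2.2) t x) = 0
  zero : ∀ i x, lval ν (component U i) 0 x = 0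

lemma component_forceOf (U : ForceData) (i : Fin 3) :
    component (forceOf U) i = forceComp U (component U i) := by
  fin_cases i <;> rfl

lemma VelOK.good_force {ν : ℝ} {U : ForceData} (h : VelOK ν U) (i : Fin 3) :
    LGood (component (forceOf U) i) := by
  rw [component_forceOf]
  exact LGood.forceComp (h.good 0) (h.good 1) (h.good 2) (h.good i)

lemma LGood.dX {L : List Term} (h : LGood L) (i : Fin 3) : LGood (dX i L) := by
  fin_cases i
  exacts [h.d0, h.d1, h.d2]

lemma dX_lval (ν : ℝ) (U : ForceData) (i : Fin 3) {t : ℝ} {x : Pt} :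
    lval ν (forceComp U (component U i)) t x = lval ν (dT (component U i)) t x
      + (∑ j, lval ν (component U j) t x * lval ν (dX j (component U i)) t x)
      - ν * ∑ j, lval ν (dX j (dX j (component U i))) t x := by
  simp only [forceComp, lval_append, lval_mul, lval_negNu, Fin.sum_univ_three, component, dX,
    Matrix.cons_val_zero, Matrix.cons_val_one, Matrix.cons_val]
  ring

theorem classical_of_velocity {ν : ℝ} {U : ForceData} (h : VelOK ν U) (T : ℝ) :
    IsClassical ν T (forceVal ν (forceOf U)) (forceVal ν U) (fun _ _ => 0) := by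
  have hu : ∀ i t, (fun x => forceVal ν U t x i) = fun x => lval ν (component U i) t x :=
    fun i t => rfl
  have hs : ∀ {L : List Term}, LGood L → ContinuousOn (fun z : ℝ × Pt => lval ν L z.1 z.2)
      (Icc 0 T ×ˢ univ) := fun {L} hL => (lval_smooth ν hL.lok).continuous.continuousOn
  have hp : ∀ i, pd i (fun _ : Pt => (0 : ℝ)) = fun _ => 0 := fun i => by
    funext x; simp [pd]
  refine
    { periodic := fun t _ x n => ⟨funext fun i => ?_, rfl⟩
      smooth_u := fun t _ i => ?_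
      smooth_p := fun t _ => contDiff_const
      cont_u := fun i => hs (h.good i)
      cont_du := fun i j => ?_
      cont_ddu := fun i j k => ?_
      cont_p := continuousOn_const
      cont_dp := fun i => ?_
      equation := ⟨fun t x i => lval ν (dT (component U i)) t x, fun i => ⟨hs (h.good i).dT, ?_⟩⟩
      div_free := fun t _ x => ?_
      initial := fun x => funext fun i => h.zero i x
      mean_zero := fun t _ => by simp }
  · exact lval_periodic ν (component U i) t x n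
  · exact ((lval_smooth ν (h.good i).lok).of_le (WithTop.coe_le_coe.2 le_top)).comp
      (contDiff_const.prodMk contDiff_id)
  · simp only [hu, pd_lval ν (h.good i).lok]
    exact hs ((h.good i).dX j)
  · simp only [hu, pd_lval ν (h.good i).lok]
    simp only [pd_lval ν ((h.good i).dX j).lok]
    exact hs (((h.good i).dX j).dX k)
  · simp only [pd, deriv_const]
    exact continuousOn_const
  · intro t _ x
    refine ⟨(lval_dT ν (h.good i).lok t x).hasDerivWithinAt, ?_⟩
    simp only [hu, pd_lval ν (h.good i).lok, fun j => pd_lval ν ((h.good i).dX j).lok]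
    rw [hp i, forceVal_eq ν (forceOf U), component_forceOf, dX_lval]
    simp only [forceVal_eq]
    ring
  · simp only [hu, pd_lval ν (h.good _).lok, Fin.sum_univ_three]
    have := h.div t x
    simp only [dX, component, Matrix.cons_val_zero, Matrix.cons_val_one, Matrix.cons_val]
    linarith

/-! ### Pieces of trajectories -/

/-- A piece of trajectory from `P` at time `a` to `Q` at time `b` that stays in `A`. -/
def Seg (u : ℝ → Pt → Fin 3 → ℝ) (A : Set Pt) (a b : ℝ) (P Q : Pt) : Prop :=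
  a ≤ b ∧ ∃ X : ℝ → Pt, X a = P ∧ X b = Q ∧
    (∀ t ∈ Icc a b, HasDerivWithinAt X (u t (X t)) (Icc a b) t) ∧ ∀ t ∈ Icc a b, X t ∈ A

lemma Seg.mono {u : ℝ → Pt → Fin 3 → ℝ} {A B : Set Pt} {a b : ℝ} {P Q : Pt}
    (h : Seg u A a b P Q) (hAB : A ⊆ B) : Seg u B a b P Q := by
  obtain ⟨hab, X, h1, h2, h3, h4⟩ := h
  exact ⟨hab, X, h1, h2, h3, fun t ht => hAB (h4 t ht)⟩

lemma Seg.trans {u : ℝ → Pt → Fin 3 → ℝ} {A : Set Pt} {a b c : ℝ} {P Q R : Pt}
    (h : Seg u A a b P Q) (k : Seg u A b c Q R) : Seg u A a c P R := by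
  obtain ⟨hab, X, h1, h2, h3, h4⟩ := h
  obtain ⟨hbc, Y, k1, k2, k3, k4⟩ := k
  classical
  let Z : ℝ → Pt := fun t => if t ≤ b then X t else Y t
  have eX : EqOn Z X (Icc a b) := fun t ht => if_pos ht.2
  have eY : EqOn Z Y (Icc b c) := fun t ht => by
    by_cases htb : t ≤ b
    · have : t = b := le_antisymm htb ht.1
      subst this; simp [Z, h2, k1]
    · exact if_neg htb
  refine ⟨hab.trans hbc, Z, ?_, ?_, ?_, ?_⟩
  · rw [eX ⟨le_rfl, hab⟩, h1]
  · rw [eY ⟨hbc, le_rfl⟩, k2]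
  · intro t ht
    rw [← Icc_union_Icc_eq_Icc hab hbc]
    apply HasDerivWithinAt.union
    · by_cases htb : t ≤ b
      · rw [eX ⟨ht.1, htb⟩]
        exact (h3 t ⟨ht.1, htb⟩).congr eX (eX ⟨ht.1, htb⟩)
      · apply HasFDerivWithinAt.of_notMem_closure
        rw [closure_Icc]
        exact fun hm => htb hm.2
    · by_cases htb : b ≤ t
      · rw [eY ⟨htb, ht.2⟩]
        exact (k3 t ⟨htb, ht.2⟩).congr eY (eY ⟨htb, ht.2⟩)
      · apply HasFDerivWithinAt.of_notMem_closure
        rw [closure_Icc]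
        exact fun hm => htb hm.1
  · intro t ht
    by_cases htb : t ≤ b
    · rw [eX ⟨ht.1, htb⟩]; exact h4 t ⟨ht.1, htb⟩
    · rw [eY ⟨(not_le.1 htb).le, ht.2⟩]; exact k4 t ⟨(not_le.1 htb).le, ht.2⟩

/-- Standing still where the velocity vanishes. -/
lemma Seg.still {u : ℝ → Pt → Fin 3 → ℝ} {A : Set Pt} {a b : ℝ} {P : Pt} (hab : a ≤ b)
    (hP : P ∈ A) (hu : ∀ t ∈ Icc a b, u t P = 0) : Seg u A a b P P :=
  ⟨hab, fun _ => P, rfl, rfl, fun t ht => by
    simpa [hu t ht] using hasDerivWithinAt_const t (Icc a b) P, fun _ _ => hP⟩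

lemma lipschitz_on_bounded {u : ℝ → Pt → Fin 3 → ℝ}
    (hu : ContDiff ℝ 1 fun z : ℝ × Pt => u z.1 z.2) (b R : ℝ) :
    ∃ K : NNReal, ∀ t ∈ Icc 0 b, LipschitzOnWith K (u t) (Metric.closedBall 0 R) := by
  let S : Set (ℝ × Pt) := Icc 0 b ×ˢ Metric.closedBall 0 R
  have hS : IsCompact S := isCompact_Icc.prod (isCompact_closedBall _ _)
  obtain ⟨C, hC⟩ := hS.exists_bound_of_continuousOn
    ((hu.continuous_fderiv (by simp)).continuousOn)
  have hconv : Convex ℝ S := (convex_Icc _ _).prod (convex_closedBall _ _)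
  refine ⟨C.toNNReal, fun t ht => ?_⟩
  apply LipschitzOnWith.of_dist_le_mul
  intro x hx y hy
  have := hconv.norm_image_sub_le_of_norm_fderiv_le
    (fun z _ => (hu.differentiable (by simp)) z) hC (show (t, y) ∈ S from ⟨ht, hy⟩)
    (show (t, x) ∈ S from ⟨ht, hx⟩)
  simp only [Prod.mk_sub_mk, sub_self, Prod.norm_mk, norm_zero] at this
  rw [max_eq_right (norm_nonneg _)] at this
  rw [dist_eq_norm, dist_eq_norm]
  exact this.trans (mul_le_mul_of_nonneg_right (Real.le_coe_toNNReal C) (norm_nonneg _))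

lemma traj_unique {u : ℝ → Pt → Fin 3 → ℝ} (hu : ContDiff ℝ 1 fun z : ℝ × Pt => u z.1 z.2)
    {b : ℝ} (_hb : 0 ≤ b) {X Y : ℝ → Pt} (h0 : X 0 = Y 0)
    (hX : ∀ t ∈ Icc 0 b, HasDerivWithinAt X (u t (X t)) (Icc 0 b) t)
    (hY : ∀ t ∈ Icc 0 b, HasDerivWithinAt Y (u t (Y t)) (Icc 0 b) t) :
    EqOn X Y (Icc 0 b) := by
  have cX : ContinuousOn X (Icc 0 b) := fun t ht => (hX t ht).continuousWithinAt
  have cY : ContinuousOn Y (Icc 0 b) := fun t ht => (hY t ht).continuousWithinAt
  obtain ⟨R1, hR1⟩ := isCompact_Icc.exists_bound_of_continuousOn cX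
  obtain ⟨R2, hR2⟩ := isCompact_Icc.exists_bound_of_continuousOn cY
  obtain ⟨K, hK⟩ := lipschitz_on_bounded hu b (max R1 R2)
  apply ODE_solution_unique_of_mem_Icc_right (v := u)
    (s := fun _ => Metric.closedBall 0 (max R1 R2)) (K := K)
    (fun t ht => hK t (Ico_subset_Icc_self ht)) cX ?_ ?_ cY ?_ ?_ h0
  · intro t ht
    exact (hX t (Ico_subset_Icc_self ht)).mono_of_mem_nhdsWithin
      (Icc_mem_nhdsGE_of_mem ht)
  · intro t ht
    simpa using Or.inl (hR1 t (Ico_subset_Icc_self ht))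
  · intro t ht
    exact (hY t (Ico_subset_Icc_self ht)).mono_of_mem_nhdsWithin
      (Icc_mem_nhdsGE_of_mem ht)
  · intro t ht
    simpa using Or.inr (hR2 t (Ico_subset_Icc_self ht))

/-- Pieces over all periods give a global trajectory, unique, with the property `A n` in the
`n`-th piece. -/
theorem glue_forever {u : ℝ → Pt → Fin 3 → ℝ} (hu : ContDiff ℝ 1 fun z : ℝ × Pt => u z.1 z.2)
    {a : Pt} (P : ℕ → Pt) (hP : P 0 = a) (A : ℕ → Set Pt)
    (h : ∀ n : ℕ, Seg u (A n) n (n + 1) (P n) (P (n + 1))) :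
    (∃ X, IsTrajectory u a X) ∧ ∀ X, IsTrajectory u a X →
      (∀ n : ℕ, X n = P n) ∧ ∀ (n : ℕ), ∀ t ∈ Icc (n : ℝ) (n + 1), X t ∈ A n := by
  have hN : ∀ N : ℕ, Seg u univ 0 (N : ℝ) a (P N) := by
    intro N
    induction N with
    | zero =>
        refine ⟨by simp, fun _ => a, rfl, by simp [hP], fun t ht => ?_, fun _ _ => trivial⟩
        rw [Nat.cast_zero, Icc_self]
        exact HasFDerivWithinAt.of_subsingleton subsingleton_singleton
    | succ N ih =>
        push_cast
        exact ih.trans ((h N).mono (subset_univ _))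
  choose hle Y hY0 hYN hYd _hYA using hN
  let X : ℝ → Pt := fun t => Y (⌈t⌉₊ + 1) t
  have agree : ∀ (N : ℕ), ∀ t ∈ Icc (0 : ℝ) N, X t = Y N t := by
    intro N t ht
    have hM : t ≤ ((⌈t⌉₊ + 1 : ℕ) : ℝ) := by
      push_cast; linarith [Nat.le_ceil t]
    rcases le_total N (⌈t⌉₊ + 1) with hle' | hle'
    · have hs : Icc (0 : ℝ) N ⊆ Icc (0 : ℝ) ((⌈t⌉₊ + 1 : ℕ) : ℝ) :=
        Icc_subset_Icc_right (by exact_mod_cast hle')
      exact traj_unique hu (Nat.cast_nonneg N) (by rw [hY0, hY0])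
        (fun s hs' => (hYd _ s (hs hs')).mono hs) (hYd N) ht
    · have hs : Icc (0 : ℝ) ((⌈t⌉₊ + 1 : ℕ) : ℝ) ⊆ Icc (0 : ℝ) N :=
        Icc_subset_Icc_right (by exact_mod_cast hle')
      exact traj_unique hu (Nat.cast_nonneg _) (by rw [hY0, hY0]) (hYd _)
        (fun s hs' => (hYd N s (hs hs')).mono hs) ⟨ht.1, hM⟩
  have hXtraj : IsTrajectory u a X := by
    refine ⟨by rw [agree 0 0 (by simp), hY0], fun t ht => ?_⟩
    let N := ⌈t⌉₊ + 1
    have ht' : t < (N : ℝ) := by
      simp only [N]; push_cast; linarith [Nat.le_ceil t]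
    have hd : HasDerivWithinAt X (u t (X t)) (Icc 0 (N : ℝ)) t := by
      rw [agree N t ⟨ht, ht'.le⟩]
      exact (hYd N t ⟨ht, ht'.le⟩).congr (fun s hs => agree N s hs) (agree N t ⟨ht, ht'.le⟩)
    apply hd.mono_of_mem_nhdsWithin
    exact mem_nhdsWithin.2 ⟨Iio (N : ℝ), isOpen_Iio, ht', fun s hs => ⟨hs.2, hs.1.le⟩⟩
  refine ⟨⟨X, hXtraj⟩, fun X' hX' => ?_⟩
  have heq : ∀ N : ℕ, EqOn X' (Y N) (Icc 0 (N : ℝ)) := fun N =>
    traj_unique hu (Nat.cast_nonneg N) (by rw [hX'.1, hY0])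
      (fun s hs => (hX'.2 s hs.1).mono Icc_subset_Ici_self) (hYd N)
  have hpt : ∀ n : ℕ, X' n = P n := fun n => by
    rw [heq n ⟨Nat.cast_nonneg n, le_rfl⟩, hYN]
  refine ⟨hpt, fun n t ht => ?_⟩
  obtain ⟨_, Z, hZ0, _, hZd, hZA⟩ := h n
  have hmove : ∀ s ∈ Icc (n : ℝ) (n + 1),
      HasDerivWithinAt X' (u s (X' s)) (Icc (n : ℝ) (n + 1)) s := fun s hs =>
    (hX'.2 s ((Nat.cast_nonneg n).trans hs.1)).mono
      (fun r hr => (Nat.cast_nonneg n).trans hr.1)
  -- shift the time so that the uniqueness lemma applies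
  let u' : ℝ → Pt → Fin 3 → ℝ := fun s x => u (n + s) x
  have hu' : ContDiff ℝ 1 fun z : ℝ × Pt => u' z.1 z.2 :=
    hu.comp ((contDiff_const.add contDiff_fst).prodMk contDiff_snd)
  have shift : ∀ W : ℝ → Pt, (∀ s ∈ Icc (n : ℝ) (n + 1),
      HasDerivWithinAt W (u s (W s)) (Icc (n : ℝ) (n + 1)) s) →
      ∀ s ∈ Icc (0 : ℝ) 1, HasDerivWithinAt (fun r => W (n + r)) (u' s (W (n + s))) (Icc 0 1) s := by
    intro W hW s hs
    have h1 : HasDerivWithinAt (fun r : ℝ => (n : ℝ) + r) 1 (Icc 0 1) s :=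
      ((hasDerivAt_id s).const_add (n : ℝ)).hasDerivWithinAt
    have h2 := hW (n + s) ⟨by linarith [hs.1], by linarith [hs.2]⟩
    have h3 := h2.scomp s h1 (fun r hr => ⟨by linarith [hr.1], by linarith [hr.2]⟩)
    simpa [u', Function.comp_def] using h3
  have := traj_unique hu' zero_le_one (X := fun r => X' (n + r)) (Y := fun r => Z (n + r))
    (by simp [hpt n, hZ0]) (shift X' hmove) (shift Z hZd)
    (x := t - n) ⟨by linarith [ht.1], by linarith [ht.2]⟩
  simp only [add_sub_cancel] at this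
  rw [this]
  exact hZA t ht

end Vale.Agent.P113
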