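import Vale.Agent.P113.Flow

/-! Velocities made of cut-off potentials switched on one after another. -/

noncomputable section

open Set
open scoped ContDiff

namespace Vale.Agent.P113

/-- A factor `cut(s) * (α + β s)`: `(lo, hi, a, α, β)`, the cut being one on `[lo,hi]` and zero
outside `(lo - 2/a, hi + 2/a)`. -/
abbrev Slot : Type := QD × QD × QD × QD × QD

/-- A potential `q * ∏ ln r * S₀ S₁ S₂` in the second (`false`) or first (`true`) component. -/
abbrev Move : Type := (Bool × QD × List QD) × (Slot × Slot × Slot)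

/-- A move with a time switch: `(periodic?, a, b)` for the profile `rho (a t - b)`. -/
abbrev TMove : Type := (Bool × QD × QD) × Move

/-- The bump of degree `k` of a slot. -/
def slotBump (k : ℕ) (s : Slot) : Bump :=
  Sum.inr (k, qadd (qmul s.2.2.1 (qsub s.2.1 s.1)) (qnat 2), s.2.2.1,
    qsub (qmul s.2.2.1 s.1) (qnat 1))

/-- The two pieces of a slot. -/
def slotTerms (s : Slot) : List (QD × Bump) :=
  [(s.2.2.2.1, slotBump 0 s), (s.2.2.2.2, slotBump 1 s)]

/-- The potential of a timed move as terms. -/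
def potTerms (m : TMove) : List Term :=
  (slotTerms m.2.2.1).flatMap fun a => (slotTerms m.2.2.2.1).flatMap fun b =>
    (slotTerms m.2.2.2.2).map fun c =>
      ((qmul (qmul m.2.1.2.1 m.1.2.1) (qmul a.1 (qmul b.1 c.1)), 0, (0, 4), m.2.1.2.2),
        [(m.1.1, Sum.inl (0, 0, m.1.2.1, m.1.2.2))], ([a.2], [b.2], [c.2]))

/-- The curl of the potential. -/
def moveVel (m : TMove) : ForceData :=
  if m.2.1.1 then (([] : List Term), d2 (potTerms m), lNeg (d1 (potTerms m)))
  else (lNeg (d2 (potTerms m)), ([] : List Term), d0 (potTerms m))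

/-- The velocity of several timed moves. -/
def velOf (ms : List TMove) : ForceData :=
  (ms.flatMap fun m => (moveVel m).1, ms.flatMap fun m => (moveVel m).2.1,
    ms.flatMap fun m => (moveVel m).2.2)

/-- The derivative of a space part. -/
def spaceD (l : List Bump) (y : ℝ) : ℝ :=
  ((dProd dBump l).map fun q => rv q.1 * spaceVal q.2 y).sum

lemma lval_flatMap (ν : ℝ) {α : Type} (f : α → List Term) (l : List α) (t : ℝ) (x : Pt) :
    lval ν (l.flatMap f) t x = (l.map fun a => lval ν (f a) t x).sum := by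
  induction l with
  | nil => simp
  | cons a l ih => simp [List.flatMap_cons, ih]

lemma d0_val (ν : ℝ) (L : List Term) (t : ℝ) (x : Pt) :
    lval ν (d0 L) t x = (L.map fun T => coefVal ν T.1 * timeVal T.2.1 t *
      (spaceD T.2.2.1 (x 0) * spaceVal T.2.2.2.1 (x 1) * spaceVal T.2.2.2.2 (x 2))).sum := by
  rw [d0, lval_flatMap]
  congr 1
  apply List.map_congr_left
  intro T _
  rw [lval_map_sum, spaceD, ← List.sum_map_mul_right, ← List.sum_map_mul_right,
    ← List.sum_map_mul_left]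
  congr 1
  apply List.map_congr_left
  intro q _
  simp only [termVal, coefVal_scale]; ring

lemma d1_val (ν : ℝ) (L : List Term) (t : ℝ) (x : Pt) :
    lval ν (d1 L) t x = (L.map fun T => coefVal ν T.1 * timeVal T.2.1 t *
      (spaceVal T.2.2.1 (x 0) * spaceD T.2.2.2.1 (x 1) * spaceVal T.2.2.2.2 (x 2))).sum := by
  rw [d1, lval_flatMap]
  congr 1
  apply List.map_congr_left
  intro T _
  rw [lval_map_sum, spaceD, ← List.sum_map_mul_left, ← List.sum_map_mul_right,
    ← List.sum_map_mul_left]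
  congr 1
  apply List.map_congr_left
  intro q _
  simp only [termVal, coefVal_scale]; ring

lemma d2_val (ν : ℝ) (L : List Term) (t : ℝ) (x : Pt) :
    lval ν (d2 L) t x = (L.map fun T => coefVal ν T.1 * timeVal T.2.1 t *
      (spaceVal T.2.2.1 (x 0) * spaceVal T.2.2.2.1 (x 1) * spaceD T.2.2.2.2 (x 2))).sum := by
  rw [d2, lval_flatMap]
  congr 1
  apply List.map_congr_left
  intro T _
  rw [lval_map_sum, spaceD, ← List.sum_map_mul_left, ← List.sum_map_mul_left]
  congr 1
  apply List.map_congr_left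
  intro q _
  simp only [termVal, coefVal_scale]; ring

lemma sum_map_flatMap {α β : Type} (f : α → List β) (g : β → ℝ) (l : List α) :
    ((l.flatMap f).map g).sum = (l.map fun a => ((f a).map g).sum).sum := by
  induction l with
  | nil => simp
  | cons a l ih => simp [List.flatMap_cons, ih]

lemma d02_comm (ν : ℝ) (L : List Term) (t : ℝ) (x : Pt) :
    lval ν (d0 (d2 L)) t x = lval ν (d2 (d0 L)) t x := by
  rw [d0_val, d2_val, d0, d2, sum_map_flatMap, sum_map_flatMap]
  congr 1
  apply List.map_congr_left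
  intro T _
  simp only [List.map_map, Function.comp_def, coefVal_scale]
  rw [show spaceD T.2.2.1 (x 0) = ((dProd dBump T.2.2.1).map fun q =>
      rv q.1 * spaceVal q.2 (x 0)).sum from rfl] at *
  rw [show spaceD T.2.2.2.2 (x 2) = ((dProd dBump T.2.2.2.2).map fun q =>
      rv q.1 * spaceVal q.2 (x 2)).sum from rfl]
  simp only [← List.sum_map_mul_left, ← List.sum_map_mul_right]
  induction dProd dBump T.2.2.1 with
  | nil => simp
  | cons p l ih =>
      simp only [List.map_cons, List.sum_cons, List.sum_map_add, ih]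
      congr 2
      apply List.map_congr_left
      intro q _
      ring

lemma d12_comm (ν : ℝ) (L : List Term) (t : ℝ) (x : Pt) :
    lval ν (d1 (d2 L)) t x = lval ν (d2 (d1 L)) t x := by
  rw [d1_val, d2_val, d1, d2, sum_map_flatMap, sum_map_flatMap]
  congr 1
  apply List.map_congr_left
  intro T _
  simp only [List.map_map, Function.comp_def, coefVal_scale]
  rw [show spaceD T.2.2.2.1 (x 1) = ((dProd dBump T.2.2.2.1).map fun q =>
      rv q.1 * spaceVal q.2 (x 1)).sum from rfl] at *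
  rw [show spaceD T.2.2.2.2 (x 2) = ((dProd dBump T.2.2.2.2).map fun q =>
      rv q.1 * spaceVal q.2 (x 2)).sum from rfl]
  simp only [← List.sum_map_mul_left, ← List.sum_map_mul_right]
  induction dProd dBump T.2.2.2.1 with
  | nil => simp
  | cons p l ih =>
      simp only [List.map_cons, List.sum_cons, List.sum_map_add, ih]
      congr 2
      apply List.map_congr_left
      intro q _
      ring

/-! ### Values -/

/-- The value of a slot, normalised by `kappa`. -/
def slotF (s : Slot) (y : ℝ) : ℝ :=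
  (rv s.2.2.2.1 * per (bumpFun (slotBump 0 s)) y + rv s.2.2.2.2 * per (bumpFun (slotBump 1 s)) y)
    / kappa

/-- The derivative of `slotF`. -/
def slotG (s : Slot) (y : ℝ) : ℝ :=
  (rv s.2.2.2.1 * spaceD [slotBump 0 s] y + rv s.2.2.2.2 * spaceD [slotBump 1 s] y) / kappa

/-- The velocity field of a move. -/
def moveField (m : Move) (x : Pt) : Fin 3 → ℝ :=
  if m.1.1 then
    (rv m.1.2.1 * (m.1.2.2.map fun r => Real.log (rv r)).prod) •
      ![0, slotF m.2.1 (x 0) * slotF m.2.2.1 (x 1) * slotG m.2.2.2 (x 2),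
        -(slotF m.2.1 (x 0) * slotG m.2.2.1 (x 1) * slotF m.2.2.2 (x 2))]
  else
    (rv m.1.2.1 * (m.1.2.2.map fun r => Real.log (rv r)).prod) •
      ![-(slotF m.2.1 (x 0) * slotF m.2.2.1 (x 1) * slotG m.2.2.2 (x 2)), 0,
        slotG m.2.1 (x 0) * slotF m.2.2.1 (x 1) * slotF m.2.2.2 (x 2)]

/-- The time profile of a switch. -/
def switchVal (c : Bool × QD × QD) (t : ℝ) : ℝ :=
  rv c.2.1 * timeFactor (c.1, Sum.inl (0, 0, c.2.1, c.2.2)) t / kappa

lemma spaceVal_one (g : Bump) (y : ℝ) : spaceVal [g] y = per (bumpFun g) y := by simp [spaceVal]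

lemma kappa_z4 : kappa ^ zval (0, 4) = (kappa ^ 4)⁻¹ := by
  rw [show zval (0, 4) = -((4 : ℕ) : ℤ) by simp [zval], zpow_neg, zpow_natCast]

lemma pot_d2 (ν : ℝ) (m : TMove) (t : ℝ) (x : Pt) :
    lval ν (d2 (potTerms m)) t x = switchVal m.1 t *
      (rv m.2.1.2.1 * (m.2.1.2.2.map fun r => Real.log (rv r)).prod *
        (slotF m.2.2.1 (x 0) * slotF m.2.2.2.1 (x 1) * slotG m.2.2.2.2 (x 2))) := by
  have hk := kappa_ne
  rw [d2_val]
  simp only [potTerms, slotTerms, List.flatMap_cons, List.flatMap_nil, List.map_cons, List.map_nil,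
    List.append_nil, List.cons_append, List.nil_append, List.sum_cons, List.sum_nil, coefVal_eq,
    rv_qmul, kappa_z4, timeVal, List.prod_cons, List.prod_nil, spaceVal_one, slotF, slotG,
    switchVal]
  field_simp
  ring

lemma pot_d1 (ν : ℝ) (m : TMove) (t : ℝ) (x : Pt) :
    lval ν (d1 (potTerms m)) t x = switchVal m.1 t *
      (rv m.2.1.2.1 * (m.2.1.2.2.map fun r => Real.log (rv r)).prod *
        (slotF m.2.2.1 (x 0) * slotG m.2.2.2.1 (x 1) * slotF m.2.2.2.2 (x 2))) := by
  have hk := kappa_ne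
  rw [d1_val]
  simp only [potTerms, slotTerms, List.flatMap_cons, List.flatMap_nil, List.map_cons, List.map_nil,
    List.append_nil, List.cons_append, List.nil_append, List.sum_cons, List.sum_nil, coefVal_eq,
    rv_qmul, kappa_z4, timeVal, List.prod_cons, List.prod_nil, spaceVal_one, slotF, slotG,
    switchVal]
  field_simp
  ring

lemma pot_d0 (ν : ℝ) (m : TMove) (t : ℝ) (x : Pt) :
    lval ν (d0 (potTerms m)) t x = switchVal m.1 t *
      (rv m.2.1.2.1 * (m.2.1.2.2.map fun r => Real.log (rv r)).prod *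
        (slotG m.2.2.1 (x 0) * slotF m.2.2.2.1 (x 1) * slotF m.2.2.2.2 (x 2))) := by
  have hk := kappa_ne
  rw [d0_val]
  simp only [potTerms, slotTerms, List.flatMap_cons, List.flatMap_nil, List.map_cons, List.map_nil,
    List.append_nil, List.cons_append, List.nil_append, List.sum_cons, List.sum_nil, coefVal_eq,
    rv_qmul, kappa_z4, timeVal, List.prod_cons, List.prod_nil, spaceVal_one, slotF, slotG,
    switchVal]
  field_simp
  ring

lemma moveVel_val (ν : ℝ) (m : TMove) (t : ℝ) (x : Pt) :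
    forceVal ν (moveVel m) t x = switchVal m.1 t • moveField m.2 x := by
  funext i
  rw [forceVal_eq]
  rcases hb : m.2.1.1 with _ | _ <;>
    simp only [moveVel, moveField, hb, Bool.false_eq_true, if_false, if_true] <;>
    fin_cases i <;>
    simp [component, lval_neg, pot_d0, pot_d1, pot_d2] <;> ring

lemma velOf_val (ν : ℝ) (ms : List TMove) (t : ℝ) (x : Pt) :
    forceVal ν (velOf ms) t x = (ms.map fun m => switchVal m.1 t • moveField m.2 x).sum := by
  have e : forceVal ν (velOf ms) t x = (ms.map fun m => forceVal ν (moveVel m) t x).sum := by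
    induction ms with
    | nil => funext i; fin_cases i <;> simp [velOf, forceVal_eq, component]
    | cons m ms ih =>
        rw [List.map_cons, List.sum_cons, ← ih]
        funext i
        simp only [Pi.add_apply, forceVal_eq]
        fin_cases i <;> simp [component, velOf]
  rw [e]
  congr 1
  apply List.map_congr_left
  intro m _
  exact moveVel_val ν m t x

/-! ### Admissibility -/

/-- A slot with a cut inside the unit interval. -/
def SlotOK (s : Slot) : Prop :=
  0 < rv s.2.2.1 ∧ rv s.1 ≤ rv s.2.1 ∧ 0 ≤ rv s.1 - 2 / rv s.2.2.1 ∧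
    rv s.2.1 + 2 / rv s.2.2.1 ≤ 1

/-- Allowed parameters of a move. -/
def MoveOK (m : Move) : Prop :=
  (∀ r ∈ m.1.2.2, 0 < rv r) ∧ SlotOK m.2.1 ∧ SlotOK m.2.2.1 ∧ SlotOK m.2.2.2

/-- A switch active inside the first unit of time. -/
def SwitchOK (c : Bool × QD × QD) : Prop :=
  0 < rv c.2.1 ∧ 1 ≤ rv c.2.2 ∧ rv c.2.2 + 1 ≤ rv c.2.1

lemma rv_ne {a : QD} (h : 0 < rv a) : qval a ≠ 0 := fun h0 => by simp [rv, h0] at h

lemma rv_pos {a : QD} (h : 0 < rv a) : 0 < qval a := by simpa [rv] using h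

lemma slotBump_ok {s : Slot} (h : SlotOK s) (k : ℕ) : bumpOK (slotBump k s) := by
  refine ⟨rv_ne h.1, rv_pos ?_⟩
  simp only [rv_qadd, rv_qmul, rv_qsub, rv_qnat]
  push_cast
  nlinarith [mul_nonneg h.1.le (sub_nonneg.2 h.2.1)]

lemma potTerms_good {m : TMove} (hm : MoveOK m.2) (hc : SwitchOK m.1) :
    LGood (potTerms m) := by
  intro T hT
  simp only [potTerms, List.mem_flatMap, List.mem_map] at hT
  obtain ⟨a, ha, b, hb, c, hc', rfl⟩ := hT
  have key : ∀ {s : Slot}, SlotOK s → ∀ p ∈ slotTerms s, bumpOK p.2 := by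
    intro s hs p hp
    simp only [slotTerms, List.mem_cons, List.not_mem_nil, or_false] at hp
    rcases hp with rfl | rfl <;> exact slotBump_ok hs _
  refine ⟨⟨fun r hr => rv_pos (hm.1 r hr), ?_, ?_, ?_, ?_⟩, ?_⟩ <;>
    simp only [List.mem_singleton, forall_eq]
  · exact rv_ne hc.1
  · exact key hm.2.1 a ha
  · exact key hm.2.2.1 b hb
  · exact key hm.2.2.2 c hc'
  · intro _; exact ⟨hc.1, hc.2.2⟩

lemma moveVel_good {m : TMove} (hm : MoveOK m.2) (hc : SwitchOK m.1) (i : Fin 3) :
    LGood (component (moveVel m) i) := by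
  have h := potTerms_good hm hc
  have h0 : LGood ([] : List Term) := by intro T hT; simp at hT
  rw [moveVel]
  split_ifs <;> fin_cases i
  exacts [h0, h.d2, h.d1.lNeg, h.d2.lNeg, h0, h.d0]

lemma velOf_good {ms : List TMove} (h : ∀ m ∈ ms, MoveOK m.2 ∧ SwitchOK m.1) (i : Fin 3) :
    LGood (component (velOf ms) i) := by
  intro T hT
  have : ∃ m ∈ ms, T ∈ component (moveVel m) i := by
    fin_cases i <;> exact List.mem_flatMap.1 hT
  obtain ⟨m, hm, hT⟩ := this
  exact moveVel_good (h m hm).1 (h m hm).2 i T hT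

lemma switchVal_zero_start {c : Bool × QD × QD} (h : SwitchOK c) : switchVal c 0 = 0 := by
  have z : ∀ s : ℝ, s ≤ 0 ∨ 1 ≤ s → bumpFun (Sum.inl (0, 0, c.2.1, c.2.2)) s = 0 := by
    intro s hs
    have h1 := h.1; have h2 := h.2.1; have h3 := h.2.2
    simp only [rv] at h1 h2 h3
    simp only [bumpFun]
    rw [iterDeriv_rho_zero, mul_zero]
    rcases hs with hs | hs
    · rw [abs_of_nonpos (by nlinarith)]; nlinarith
    · rw [abs_of_nonneg (by nlinarith)]; nlinarith
  unfold switchVal timeFactor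
  rcases c.1 with _ | _
  · simp [z 0 (Or.inl le_rfl)]
  · simp [per_eq_self (fun s hs => z s (Or.inl hs)) (fun s hs => z s (Or.inr hs))
      (left_mem_Icc.2 zero_le_one), z 0 (Or.inl le_rfl)]

lemma sum_neg' {α : Type} (f : α → ℝ) (l : List α) :
    (l.map fun a => -f a).sum = -(l.map f).sum := by
  induction l with
  | nil => simp
  | cons a l ih => simp only [List.map_cons, List.sum_cons, ih]; ring

lemma velOK_velOf {ms : List TMove} (h : ∀ m ∈ ms, MoveOK m.2 ∧ SwitchOK m.1) (ν : ℝ) :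
    VelOK ν (velOf ms) where
  good := velOf_good h
  div := fun t x => by
    have neg_flat : ∀ (f : List Term → List Term),
        (∀ A B, f (A ++ B) = f A ++ f B) → f [] = [] → ∀ (g : TMove → List Term) (l : List TMove),
        lval ν (f (l.flatMap g)) t x = (l.map fun m => lval ν (f (g m)) t x).sum := by
      intro f hf hf0 g l
      induction l with
      | nil => simp [hf0]
      | cons a l ih => simp [List.flatMap_cons, hf, ih]
    rw [velOf]
    simp only
    rw [neg_flat d0 (fun A B => List.flatMap_append) rfl,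
      neg_flat d1 (fun A B => List.flatMap_append) rfl,
      neg_flat d2 (fun A B => List.flatMap_append) rfl, ← List.sum_map_add, ← List.sum_map_add]
    apply List.sum_eq_zero
    intro y hy
    obtain ⟨m, hm, rfl⟩ := List.mem_map.1 hy
    have hneg0 : ∀ L : List Term, lval ν (d0 (lNeg L)) t x = -lval ν (d0 L) t x := by
      intro L
      simp only [d0_val, lNeg, List.map_map, Function.comp_def, coefVal_eq, rv_qneg, neg_mul]
      exact sum_neg' _ _
    have hneg2 : ∀ L : List Term, lval ν (d2 (lNeg L)) t x = -lval ν (d2 L) t x := by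
      intro L
      simp only [d2_val, lNeg, List.map_map, Function.comp_def, coefVal_eq, rv_qneg, neg_mul]
      exact sum_neg' _ _
    rcases hb : m.2.1.1 with _ | _
    · simp only [moveVel, hb, Bool.false_eq_true, if_false, hneg0, d02_comm]
      simp [d1]
    · simp only [moveVel, hb, if_true, hneg2, d12_comm]
      simp [d0]
  zero := fun i x => by
    have := congrFun (velOf_val ν ms 0 x) i
    rw [forceVal_eq] at this
    rw [this, List.sum_eq_zero (l := ms.map fun m => switchVal m.1 0 • moveField m.2 x)]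
    · rfl
    · intro y hy
      obtain ⟨m, hm, rfl⟩ := List.mem_map.1 hy
      rw [switchVal_zero_start (h m hm).2, zero_smul]

lemma velOf_contDiff {ms : List TMove} (h : ∀ m ∈ ms, MoveOK m.2 ∧ SwitchOK m.1) (ν : ℝ) :
    ContDiff ℝ ∞ fun z : ℝ × Pt => forceVal ν (velOf ms) z.1 z.2 :=
  contDiff_pi.2 fun i => lval_smooth ν (velOf_good h i).lok

/-! ### Values inside and outside the cut -/

lemma slot_outside {s : Slot} (h : SlotOK s) {y : ℝ} (hy : y ∈ Icc (0 : ℝ) 1)
    (ho : y ≤ rv s.1 - 2 / rv s.2.2.1 ∨ rv s.2.1 + 2 / rv s.2.2.1 ≤ y) :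
    slotF s y = 0 ∧ slotG s y = 0 := by
  obtain ⟨ha, hlh, h0, h1⟩ := h
  have hz : ∀ k j : ℕ, ∀ z : ℝ, (z ≤ rv s.1 - 2 / rv s.2.2.1 ∨ rv s.2.1 + 2 / rv s.2.2.1 ≤ z) →
      bumpFun (slotBump k s) z = 0 ∧
      bumpFun (Sum.inl (k, j, s.2.2.1, qsub (qmul s.2.2.1 s.1) (qnat 1))) z = 0 ∧
      bumpFun (Sum.inl (k, j, s.2.2.1, qadd (qsub (qmul s.2.2.1 s.1) (qnat 1))
        (qadd (qmul s.2.2.1 (qsub s.2.1 s.1)) (qnat 2)))) z = 0 := by
    intro k j z hz
    have e : ∀ q : QD, (qval q : ℝ) = rv q := fun _ => rfl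
    simp only [slotBump, bumpFun, e, rv_qadd, rv_qsub, rv_qmul, rv_qnat]
    push_cast
    have hw : (0 : ℝ) ≤ rv s.2.2.1 * (rv s.2.1 - rv s.1) := mul_nonneg ha.le (sub_nonneg.2 hlh)
    have m1 : rv s.2.2.1 * (2 / rv s.2.2.1) = 2 := by field_simp
    rcases hz with hz | hz
    · have : rv s.2.2.1 * z ≤ rv s.2.2.1 * rv s.1 - 2 := by
        nlinarith [mul_le_mul_of_nonneg_left hz ha.le]
      refine ⟨?_, ?_, ?_⟩
      · rw [piFun_low (by linarith) (by linarith), mul_zero]
      · rw [iterDeriv_rho_zero j (by rw [abs_of_nonpos (by linarith)]; linarith), mul_zero]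
      · rw [iterDeriv_rho_zero j (by rw [abs_of_nonpos (by linarith)]; linarith), mul_zero]
    · have : rv s.2.2.1 * rv s.2.1 + 2 ≤ rv s.2.2.1 * z := by
        nlinarith [mul_le_mul_of_nonneg_left hz ha.le]
      refine ⟨?_, ?_, ?_⟩
      · rw [piFun_high (by linarith) (by linarith), mul_zero]
      · rw [iterDeriv_rho_zero j (by rw [abs_of_nonneg (by linarith)]; linarith), mul_zero]
      · rw [iterDeriv_rho_zero j (by rw [abs_of_nonneg (by linarith)]; linarith), mul_zero]
  have out0 : ∀ z : ℝ, z ≤ 0 → z ≤ rv s.1 - 2 / rv s.2.2.1 := fun z hz => hz.trans h0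
  have out1 : ∀ z : ℝ, 1 ≤ z → rv s.2.1 + 2 / rv s.2.2.1 ≤ z := fun z hz => h1.trans hz
  constructor
  · simp only [slotF]
    rw [per_eq_self (fun z hz' => (hz 0 0 z (Or.inl (out0 z hz'))).1)
      (fun z hz' => (hz 0 0 z (Or.inr (out1 z hz'))).1) hy,
      per_eq_self (fun z hz' => (hz 1 0 z (Or.inl (out0 z hz'))).1)
      (fun z hz' => (hz 1 0 z (Or.inr (out1 z hz'))).1) hy, (hz 0 0 y ho).1, (hz 1 0 y ho).1]
    simp
  · simp only [slotG, spaceD, slotBump, dProd, dBump, List.map_cons, List.map_nil,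
      List.append_nil, List.sum_cons, List.sum_nil, spaceVal_one]
    simp only [slotBump] at hz
    rw [per_eq_self (fun z hz' => (hz (0 - 1) 0 z (Or.inl (out0 z hz'))).1)
        (fun z hz' => (hz (0 - 1) 0 z (Or.inr (out1 z hz'))).1) hy,
      per_eq_self (fun z hz' => (hz 0 0 z (Or.inl (out0 z hz'))).2.1)
        (fun z hz' => (hz 0 0 z (Or.inr (out1 z hz'))).2.1) hy,
      per_eq_self (fun z hz' => (hz 0 0 z (Or.inl (out0 z hz'))).2.2)
        (fun z hz' => (hz 0 0 z (Or.inr (out1 z hz'))).2.2) hy,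
      per_eq_self (fun z hz' => (hz 1 0 z (Or.inl (out0 z hz'))).2.1)
        (fun z hz' => (hz 1 0 z (Or.inr (out1 z hz'))).2.1) hy,
      per_eq_self (fun z hz' => (hz 1 0 z (Or.inl (out0 z hz'))).2.2)
        (fun z hz' => (hz 1 0 z (Or.inr (out1 z hz'))).2.2) hy]
    have a0 := hz 0 0 y ho
    have a1 := hz 1 0 y ho
    have a2 := hz (1 - 1) 0 y ho
    simp [a0.1, a0.2.1, a0.2.2, a1.1, a1.2.1, a1.2.2]

lemma slot_inside {s : Slot} (h : SlotOK s) {y : ℝ} (hl : rv s.1 ≤ y) (hh : y ≤ rv s.2.1) :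
    slotF s y = rv s.2.2.2.1 + rv s.2.2.2.2 * y ∧ slotG s y = rv s.2.2.2.2 := by
  obtain ⟨ha, hlh, h0, h1⟩ := h
  have h2 : 0 ≤ 2 / rv s.2.2.1 := by positivity
  have hy : y ∈ Icc (0 : ℝ) 1 := ⟨by linarith, by linarith⟩
  have m1 : rv s.2.2.1 * (2 / rv s.2.2.1) = 2 := by field_simp
  have hw : (0 : ℝ) ≤ rv s.2.2.1 * (rv s.2.1 - rv s.1) := mul_nonneg ha.le (sub_nonneg.2 hlh)
  have e : ∀ q : QD, (qval q : ℝ) = rv q := fun _ => rfl
  have hper : ∀ B : Bump, (∀ z : ℝ, (z ≤ 0 ∨ 1 ≤ z) → bumpFun B z = 0) →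
      per (bumpFun B) y = bumpFun B y := fun B hB =>
    per_eq_self (fun z hz => hB z (Or.inl hz)) (fun z hz => hB z (Or.inr hz)) hy
  have zero_pi : ∀ k : ℕ, ∀ z : ℝ, (z ≤ 0 ∨ 1 ≤ z) → bumpFun (slotBump k s) z = 0 := by
    intro k z hz
    simp only [slotBump, bumpFun, e, rv_qadd, rv_qsub, rv_qmul, rv_qnat]
    push_cast
    rcases hz with hz | hz
    · rw [piFun_low (by linarith)
        (by nlinarith [mul_le_mul_of_nonneg_left (hz.trans h0) ha.le]), mul_zero]
    · rw [piFun_high (by linarith)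
        (by nlinarith [mul_le_mul_of_nonneg_left (h1.trans hz) ha.le]), mul_zero]
  have zero_rho : ∀ k : ℕ, ∀ b : QD, (rv b = rv s.2.2.1 * rv s.1 - 1 ∨
      rv b = rv s.2.2.1 * rv s.2.1 + 1) → ∀ z : ℝ, (z ≤ 0 ∨ 1 ≤ z) →
      bumpFun (Sum.inl (k, 0, s.2.2.1, b)) z = 0 := by
    intro k b hb z hz
    simp only [bumpFun, e]
    rw [iterDeriv_rho_zero, mul_zero]
    rcases hz with hz | hz
    · have := mul_le_mul_of_nonneg_left (hz.trans h0) ha.le
      rw [abs_of_nonpos (by rcases hb with hb | hb <;> nlinarith)]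
      rcases hb with hb | hb <;> nlinarith
    · have := mul_le_mul_of_nonneg_left (h1.trans hz) ha.le
      rw [abs_of_nonneg (by rcases hb with hb | hb <;> nlinarith)]
      rcases hb with hb | hb <;> nlinarith
  have one_pi : ∀ k : ℕ, bumpFun (slotBump k s) y = y ^ k * kappa := by
    intro k
    simp only [slotBump, bumpFun, e, rv_qadd, rv_qsub, rv_qmul, rv_qnat]
    push_cast
    rw [piFun_one (by nlinarith) (by nlinarith)]
  have no_rho : ∀ k : ℕ, ∀ b : QD, (rv b = rv s.2.2.1 * rv s.1 - 1 ∨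
      rv b = rv s.2.2.1 * rv s.2.1 + 1) → bumpFun (Sum.inl (k, 0, s.2.2.1, b)) y = 0 := by
    intro k b hb
    simp only [bumpFun, e]
    rw [iterDeriv_rho_zero, mul_zero]
    rcases hb with hb | hb
    · rw [abs_of_nonneg (by nlinarith)]; nlinarith
    · rw [abs_of_nonpos (by nlinarith)]; nlinarith
  have hk := kappa_ne
  constructor
  · simp only [slotF, hper _ (zero_pi 0), hper _ (zero_pi 1), one_pi]
    field_simp
  · let b0 : QD := qsub (qmul s.2.2.1 s.1) (qnat 1)
    let b1 : QD := qadd b0 (qadd (qmul s.2.2.1 (qsub s.2.1 s.1)) (qnat 2))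
    have hb0 : rv b0 = rv s.2.2.1 * rv s.1 - 1 := by simp [b0]
    have hb1 : rv b1 = rv s.2.2.1 * rv s.2.1 + 1 := by simp [b1, b0]; ring
    simp only [slotG, spaceD, slotBump, dProd, dBump, List.map_cons, List.map_nil,
      List.append_nil, List.sum_cons, List.sum_nil, spaceVal_one]
    rw [hper _ (zero_rho 0 b0 (Or.inl hb0)), hper _ (zero_rho 0 b1 (Or.inr hb1)),
      hper _ (zero_rho 1 b0 (Or.inl hb0)), hper _ (zero_rho 1 b1 (Or.inr hb1)),
      no_rho 0 b0 (Or.inl hb0), no_rho 0 b1 (Or.inr hb1), no_rho 1 b0 (Or.inl hb0),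
      no_rho 1 b1 (Or.inr hb1)]
    have p0 := hper _ (zero_pi (1 - 1))
    have o0 := one_pi (1 - 1)
    simp only [slotBump] at p0 o0
    rw [p0, o0]
    simp [rv_qnat]
    field_simp

lemma moveField_outside {m : Move} (h : MoveOK m) {x : Pt} (hx : x ∈ cube)
    (ho : (x 0 ≤ rv m.2.1.1 - 2 / rv m.2.1.2.2.1 ∨ rv m.2.1.2.1 + 2 / rv m.2.1.2.2.1 ≤ x 0) ∨
      (x 1 ≤ rv m.2.2.1.1 - 2 / rv m.2.2.1.2.2.1 ∨
        rv m.2.2.1.2.1 + 2 / rv m.2.2.1.2.2.1 ≤ x 1) ∨
      (x 2 ≤ rv m.2.2.2.1 - 2 / rv m.2.2.2.2.2.1 ∨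
        rv m.2.2.2.2.1 + 2 / rv m.2.2.2.2.2.1 ≤ x 2)) : moveField m x = 0 := by
  rcases ho with ho | ho | ho
  · obtain ⟨a, b⟩ := slot_outside h.2.1 ⟨hx.1 0, hx.2 0⟩ ho
    unfold moveField
    split_ifs <;> (funext i; fin_cases i <;> simp [a, b])
  · obtain ⟨a, b⟩ := slot_outside h.2.2.1 ⟨hx.1 1, hx.2 1⟩ ho
    unfold moveField
    split_ifs <;> (funext i; fin_cases i <;> simp [a, b])
  · obtain ⟨a, b⟩ := slot_outside h.2.2.2 ⟨hx.1 2, hx.2 2⟩ ho
    unfold moveField
    split_ifs <;> (funext i; fin_cases i <;> simp [a, b])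

end Vale.Agent.P113
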