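import Vale.Agent.P113.Sim
import Vale.Agent.P113.Compiler

/-! The compiler detects halting. -/

noncomputable section

open Set
open scoped ContDiff

namespace Vale.Agent.P113

/-- The observed point, the centre of the cell. -/
def observed : Fin 3 → ℚ := fun _ => 1 / 2

/-- Lower corner of the detecting box. -/
def boxLo : Fin 3 → ℚ := ![1 / 2, 1 / 8, 1 / 8]

/-- Upper corner of the detecting box. -/
def boxHi : Fin 3 → ℚ := ![7 / 8, 7 / 8, 3 / 8]

lemma box_in_cube {p : Pt} (hp : p ∈ cube) (h : p ∈ boxImage boxLo boxHi) :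
    1 / 2 < p 0 ∧ p 2 < 3 / 8 := by
  obtain ⟨n, hn⟩ := h
  have key : ∀ i, (0 : ℝ) < boxLo i ∧ (boxHi i : ℝ) < 1 := by
    intro i; fin_cases i <;> norm_num [boxLo, boxHi]
  have hn0 : ∀ i, n i = 0 := by
    intro i
    have h0 : 0 ≤ p i := hp.1 i
    have h1 : p i ≤ 1 := hp.2 i
    have a : ((-1 : ℤ) : ℝ) < n i := by push_cast; linarith [(hn i).1, (key i).1]
    have b : (n i : ℝ) < ((1 : ℤ) : ℝ) := by push_cast; linarith [(hn i).2, (key i).2]
    have a' := Int.cast_lt.1 a
    have b' := Int.cast_lt.1 b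
    omega
  have h0 := (hn 0).1
  have h2 := (hn 2).2
  rw [hn0 0] at h0
  rw [hn0 2] at h2
  rw [show boxLo 0 = 1 / 2 from rfl] at h0
  rw [show boxHi 2 = 3 / 8 from rfl] at h2
  norm_num at h0 h2
  exact ⟨by linarith, by linarith⟩

/-- The point of a configuration. -/
def cfgPt (c : MCode) (C : RCfg) : Pt :=
  stackPt (cBase c) (C.encR c) (C.encL c) (1 / 4)

lemma stM_halted (c : MCode) {p : ℕ} (hp : p < cJ c + 1) :
    (cHalt c (cState c p) = true → cS c ≤ stM c p) ∧
      (cHalt c (cState c p) = false → stM c p < cS c) := by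
  have hS : cJ c + 1 + (cJ c + 1) * cJ c + cJ c + (cK c + 3 + (cJ c + 1)) = cS c := rfl
  rcases stM_val c p with ⟨h1, h2⟩ | ⟨h1, h2⟩ <;> simp [h1] <;> omega

lemma head_low {c : MCode} {a : ℕ} {l : List ℕ} (ha : a < cS c) (hd : Digs (cBase c) (a :: l)) :
    xi (cBase c) (a :: l) < 1 / 2 := by
  obtain ⟨-, h⟩ := xi_bounds (base_three c) (l := l) fun b hb => hd b (by simp [hb])
  have ha' : (a : ℝ) + 1 ≤ cS c := by exact_mod_cast ha
  have e : (cBase c : ℝ) = 4 * cS c + 2 := by unfold cBase; push_cast; ring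
  simp only [xi]
  rw [e, div_lt_iff₀ (by positivity)]
  linarith

lemma head_high {c : MCode} {a : ℕ} {l : List ℕ} (ha : cS c ≤ a) (hd : Digs (cBase c) (a :: l)) :
    1 / 2 < xi (cBase c) (a :: l) := by
  obtain ⟨h, -⟩ := xi_bounds (base_three c) (l := l) fun b hb => hd b (by simp [hb])
  have ha' : (cS c : ℝ) ≤ a := by exact_mod_cast ha
  have e : (cBase c : ℝ) = 4 * cS c + 2 := by unfold cBase; push_cast; ring
  simp only [xi]
  rw [e, lt_div_iff₀ (by positivity)]
  linarith

lemma halted_coord {c : MCode} {C : RCfg} (h : C.Valid c) :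
    (C.halted c = true → 1 / 2 < 1 / 4 + xi (cBase c) (C.encR c) / 2) ∧
    (C.halted c = false → 1 / 4 + xi (cBase c) (C.encR c) / 2 < 1 / 2) := by
  have hd := h.digs.1
  have hS : cJ c + 1 + (cJ c + 1) * cJ c + cJ c + (cK c + 3 + (cJ c + 1)) = cS c := rfl
  cases C with
  | main p L R H =>
      obtain ⟨h1, h2⟩ := stM_halted c h.1
      refine ⟨fun hh => ?_, fun hh => ?_⟩
      · have := head_high (h1 hh) hd
        simp only [RCfg.encR] at *
        linarith
      · have := head_low (h2 hh) hd
        simp only [RCfg.encR] at *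
        linarith
  | sa p j La L0 Rr H =>
      refine ⟨fun hh => by simp [RCfg.halted] at hh, fun _ => ?_⟩
      have := head_low (a := stA c p j) (l := Rr ++ sp' c :: H)
        (by have := stA_lt h.1 h.2.1; omega) hd
      simp only [RCfg.encR] at *
      linarith
  | sb j La L0 Rr H =>
      refine ⟨fun hh => by simp [RCfg.halted] at hh, fun _ => ?_⟩
      have := head_low (a := stB c j) (l := Rr ++ sp' c :: H)
        (by have := h.1; unfold stB; omega) hd
      simp only [RCfg.encR] at *
      linarith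

lemma route_load {A : Set Pt} (hA : High A) {x y : QD} (hx : rv x ∈ W) (hy : rv y ∈ W)
    (hlow : ∀ p ∈ cube, p 0 = rv x → p ∈ A) :
    Route A (loadMoves x y) (pt (1 / 2) (1 / 2) (1 / 2)) (pt (rv x) (rv y) (1 / 4)) := by
  have hh : (1 / 2 : ℝ) ∈ W := ⟨by norm_num, by norm_num⟩
  have e : ∀ q : QD, (1 / 2 : ℝ) + rv (qsub q (qfrac 1 2)) = rv q := fun q => by
    rw [rv_qsub, rv_qfrac 1 (show 2 ≠ 0 by norm_num)]; push_cast; ring
  have a1 := act_moveX hA (qsub x (qfrac 1 2)) hh hh (by rw [e]; exact hx)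
  rw [e] at a1
  have a2 := act_moveY hA (qsub y (qfrac 1 2)) hx hh (by rw [e]; exact hy)
  rw [e] at a2
  refine ⟨_, a1, _, a2, _, ?_, rfl⟩
  have h := act_moveZ (A := A) (qneg (qfrac 1 4)) (qfrac 1 4) (qfrac 1 2)
    (box (wide (qnat 1) (qnat 0))) (box (wide (qnat 1) (qnat 0)))
    (wide_ok _ _) (wide_ok _ _) zslot_low (z := 1 / 2)
    (x := rv x) (y := rv y)
    (by simpa [box, wide, rv_qfrac] using hx) (by simpa [box, wide, rv_qfrac] using hy)
    (fun s hs => by
      simp [rv_qfrac]; constructor <;> nlinarith [hs.1, hs.2])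
    (fun s hs => hlow _ (pt_mem_cube (W_sub hx) (W_sub hy)
      ⟨by simp [rv_qfrac]; nlinarith [hs.2], by simp [rv_qfrac]; nlinarith [hs.1]⟩) rfl)
  convert h using 2
  simp [rv_qfrac]; norm_num

lemma timed_filter (sw : ℕ → Bool × QD × QD) (flag : Bool) (hsw : ∀ i, (sw i).1 = flag)
    (ms : List Move) : ∀ m ∈ timed sw ms, m.1.1 = flag := by
  intro m hm
  simp only [timed, List.mem_map] at hm
  obtain ⟨i, -, rfl⟩ := hm
  exact hsw i

lemma potTerms_isPer (m : TMove) : ∀ T ∈ potTerms m, isPer T = m.1.1 := by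
  intro T hT
  simp only [potTerms, List.mem_flatMap, List.mem_map] at hT
  obtain ⟨a, -, b, -, c, -, rfl⟩ := hT
  simp [isPer]

lemma moveVel_isPer (m : TMove) (i : Fin 3) :
    ∀ T ∈ component (moveVel m) i, isPer T = m.1.1 := by
  have hp := potTerms_isPer m
  have h0 : ∀ T ∈ d0 (potTerms m), isPer T = m.1.1 := fun T hT => by
    simp only [d0, List.mem_flatMap, List.mem_map] at hT
    obtain ⟨S, hS, q, -, rfl⟩ := hT
    exact hp S hS
  have h1 : ∀ T ∈ lNeg (d1 (potTerms m)), isPer T = m.1.1 := fun T hT => by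
    simp only [lNeg, d1, List.mem_flatMap, List.mem_map] at hT
    obtain ⟨_, ⟨S, hS, q, -, rfl⟩, rfl⟩ := hT
    exact hp S hS
  have h2 : ∀ T ∈ d2 (potTerms m), isPer T = m.1.1 := fun T hT => by
    simp only [d2, List.mem_flatMap, List.mem_map] at hT
    obtain ⟨S, hS, q, -, rfl⟩ := hT
    exact hp S hS
  have h2' : ∀ T ∈ lNeg (d2 (potTerms m)), isPer T = m.1.1 := fun T hT => by
    simp only [lNeg, List.mem_map] at hT
    obtain ⟨S, hS, rfl⟩ := hT
    exact h2 S hS
  rw [moveVel]
  split_ifs <;> fin_cases i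
  exacts [fun T hT => absurd hT List.not_mem_nil, h2, h1, h2',
    fun T hT => absurd hT List.not_mem_nil, h0]

lemma filter_velSys (Ls Ps : List Move) (i : Fin 3) :
    (component (velSys Ls Ps) i).filter isPer
      = component (velOf (timed (switchP Ps.length) Ps)) i := by
  have e : ∀ (ms : List TMove), component (velOf ms) i
      = ms.flatMap fun m => component (moveVel m) i := by
    intro ms; fin_cases i <;> rfl
  rw [velSys, e, e, List.flatMap_append, List.filter_append]
  have h1 : ((timed switchL Ls).flatMap fun m => component (moveVel m) i).filter isPer = [] := by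
    rw [List.filter_eq_nil_iff]
    intro T hT
    obtain ⟨m, hm, hT⟩ := List.mem_flatMap.1 hT
    rw [moveVel_isPer m i T hT, timed_filter switchL false (fun _ => rfl) Ls m hm]
    simp
  rw [h1, List.nil_append, List.filter_eq_self]
  intro T hT
  obtain ⟨m, hm, hT⟩ := List.mem_flatMap.1 hT
  rw [moveVel_isPer m i T hT, timed_filter (switchP Ps.length) true (fun _ => rfl) Ps m hm]

lemma sys_ok (M : Machine) (w : List (Fin (M.nsym + 1))) :
    SysOK (startMoves (M.code, wordCode w)) (machineMoves M.code) where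
  loadLen := by simp [startMoves, loadMoves]
  nonempty := by simp [machineMoves, periodMoves]
  loadOK := loadMoves_ok _ _
  perOK := fun m hm => by
    simp only [machineMoves, periodMoves, List.mem_append, List.mem_flatMap,
      List.mem_singleton] at hm
    rcases hm with ⟨b, hb, hm⟩ | rfl
    · exact branchMoves_ok (base_three _) (rules_ok _ b hb) m hm
    · exact dropMove_ok

theorem compiler_isForceCompiler : IsForceCompiler compile where
  computable := compile_computable
  valid := fun M w i T hT =>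
    ((velOK_velOf (sys_ok M w).timed_ok 0).good_force i T hT).1
  transient := ⟨1, fun ν M w i T hT hp t x ht =>
    ((velOK_velOf (sys_ok M w).timed_ok 0).good_force i T hT).late hp ν x ht⟩
  periodic := fun M w w' i => by
    have e : ∀ w : List (Fin (M.nsym + 1)),
        (component (compile (M.code, wordCode w)) i).filter isPer
          = component (forceOf (velOf
              (timed (switchP (machineMoves M.code).length) (machineMoves M.code)))) i := by
      intro w
      have key := filter_velSys (startMoves (M.code, wordCode w)) (machineMoves M.code)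
      rw [compile, component_forceOf, component_forceOf, filter_forceComp, key i]
      have k0 := key 0; have k1 := key 1; have k2 := key 2
      simp only [component, Matrix.cons_val_zero, Matrix.cons_val_one, Matrix.cons_val] at k0 k1 k2
      rw [k0, k1, k2]
    rw [e, e]

/-- The trajectory of the observed point meets the box exactly when the machine halts. -/
theorem compile_detects (ν : ℝ) (M : Machine) (w : List (Fin (M.nsym + 1))) :
    let u := forceVal ν (velSys (startMoves (M.code, wordCode w)) (machineMoves M.code))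
    (∃ X, IsTrajectory u (fun i => (observed i : ℝ)) X) ∧
      ∀ X, IsTrajectory u (fun i => (observed i : ℝ)) X →
        ((∃ t : ℝ, 0 ≤ t ∧ X t ∈ boxImage boxLo boxHi) ↔ Halts M w) := by
  intro u
  have hok := sys_ok M w
  have hu : ContDiff ℝ 1 fun z : ℝ × Pt => u z.1 z.2 :=
    (velOf_contDiff hok.timed_ok ν).of_le (WithTop.coe_le_coe.2 le_top)
  have hB := base_three M.code
  let C : ℕ → RCfg := fun n => (RCfg.step M.code)^[n] (startCfg (wordCode w))
  have hC : ∀ n, (C n).Valid M.code := fun n => valid_iterate w n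
  let P : ℕ → Pt := fun n => if n = 0 then fun i => (observed i : ℝ) else cfgPt M.code (C n)
  let A : ℕ → Set Pt := fun n =>
    {p | p ∈ boxImage boxLo boxHi → (C n).halted M.code = true ∨ (C (n + 1)).halted M.code = true}
  have hvisit : ∀ n, Visit (A n) (1 / 4 + xi (cBase M.code) ((C n).encR M.code) / 2)
      (1 / 4 + xi (cBase M.code) ((C (n + 1)).encR M.code) / 2) := by
    intro n p hp hor hbox
    obtain ⟨h0, h2⟩ := box_in_cube hp hbox
    rcases hor with h | h | h
    · linarith
    · left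
      by_contra hh
      have := (halted_coord (hC n)).2 (by simpa using hh)
      linarith
    · right
      by_contra hh
      have := (halted_coord (hC (n + 1))).2 (by simpa using hh)
      linarith
  have mem : ∀ n, cfgPt M.code (C n) ∈ A n ∧ cfgPt M.code (C (n + 1)) ∈ A n := fun n =>
    ⟨hvisit n _ (pt_mem_cube (W_sub (coord_mem hB (hC n).digs.1))
      (W_sub (coord_mem hB (hC n).digs.2)) ⟨by norm_num, by norm_num⟩) (Or.inr (Or.inl rfl)),
    hvisit n _ (pt_mem_cube (W_sub (coord_mem hB (hC (n + 1)).digs.1))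
      (W_sub (coord_mem hB (hC (n + 1)).digs.2)) ⟨by norm_num, by norm_num⟩)
      (Or.inr (Or.inr rfl))⟩
  have hper : ∀ n : ℕ, Seg u (A n) (n + 1 / 10) (n + 1) (cfgPt M.code (C n))
      (cfgPt M.code (C (n + 1))) := by
    intro n
    refine period_seg hok (mem n).1 (mem n).2 ?_ n
    obtain ⟨b, hb, tR, tL, e1, e2, e3, e4, e5⟩ := rule_match (hC n)
    have d1 := (hC n).digs.1
    have d' := ((hC n).step).digs
    rw [e1] at d1
    rw [e4, e5] at d'
    have hv := hvisit n
    have eC : C (n + 1) = (C n).step M.code := Function.iterate_succ_apply' _ _ _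
    rw [eC] at hv ⊢
    rw [e1, e4] at hv
    have hr := route_period hB (rules_ok _) (rules_sep _) hb d1 e3 d'.1 d'.2 hv
    simpa [cfgPt, machineMoves, stackPt, e1, e2, e4, e5] using hr
  have hseg : ∀ n : ℕ, Seg u (A n) n (n + 1) (P n) (P (n + 1)) := by
    intro n
    rcases Nat.eq_zero_or_pos n with rfl | hn
    · have hx : rv (coordQ (cBase M.code) (stM M.code 0 :: (wordCode w ++ [sp' M.code])))
          = 1 / 4 + xi (cBase M.code) ((C 0).encR M.code) / 2 := by
        simp [coordQ, C, startCfg, RCfg.encR, rv_qfrac, rv_xiQ hB]; ring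
      have hy : rv (coordQ (cBase M.code) [])
          = 1 / 4 + xi (cBase M.code) ((C 0).encL M.code) / 2 := by
        simp [coordQ, C, startCfg, RCfg.encL, rv_qfrac, rv_xiQ hB]; ring
      have hl := route_load (A := A 0) (fun p hp hz => hvisit 0 p hp (Or.inl hz))
        (x := coordQ (cBase M.code) (stM M.code 0 :: (wordCode w ++ [sp' M.code])))
        (y := coordQ (cBase M.code) [])
        (by rw [hx]; exact coord_mem hB (hC 0).digs.1)
        (by rw [hy]; exact coord_mem hB (hC 0).digs.2)
        (fun p hp h => hvisit 0 p hp (Or.inr (Or.inl (by rw [h, hx]))))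
      rw [hx, hy] at hl
      have hobs : (fun i => (observed i : ℝ)) = pt (1 / 2) (1 / 2) (1 / 2) := by
        funext i; fin_cases i <;> norm_num [observed, pt]
      have h1 : Seg u (A 0) 0 (1 / 10) (pt (1 / 2) (1 / 2) (1 / 2)) (cfgPt M.code (C 0)) :=
        load_seg hok rfl (fun hbox => absurd (box_in_cube
          (pt_mem_cube (⟨by norm_num, by norm_num⟩) (⟨by norm_num, by norm_num⟩)
            (⟨by norm_num, by norm_num⟩)) hbox).2 (by simp; norm_num)) hl
      have h2 := hper 0
      simp only [Nat.cast_zero, zero_add] at h2 ⊢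
      simpa [P, hobs] using h1.trans h2
    · have h1 : Seg u (A n) (n : ℝ) (n + 1 / 10) (cfgPt M.code (C n)) (cfgPt M.code (C n)) :=
        quiet_seg hok (mem n).1 n (by linarith) (Or.inl ⟨hn, le_rfl, le_rfl⟩)
      simpa [P, hn.ne'] using h1.trans (hper n)
  obtain ⟨hex, hall⟩ := glue_forever hu P (a := fun i => (observed i : ℝ)) rfl A hseg
  refine ⟨hex, fun X hX => ⟨?_, ?_⟩⟩
  · rintro ⟨t, ht, hbox⟩
    obtain ⟨-, hA⟩ := hall X hX
    rcases hA ⌊t⌋₊ t ⟨Nat.floor_le ht, (Nat.lt_floor_add_one t).le⟩ hbox with h | h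
    · exact (halted_iff w).1 ⟨_, h⟩
    · exact (halted_iff w).1 ⟨_, h⟩
  · intro hh
    obtain ⟨k, hk⟩ := (halted_iff w).2 hh
    obtain ⟨hP, -⟩ := hall X hX
    refine ⟨((k + 1 : ℕ) : ℝ), Nat.cast_nonneg _, ?_⟩
    rw [hP (k + 1)]
    have hx := (halted_coord (hC (k + 1))).1 hk
    have h1 := coord_mem hB (hC (k + 1)).digs.1
    have h2 := coord_mem hB (hC (k + 1)).digs.2
    refine ⟨0, fun i => ?_⟩
    have hPk : P (k + 1) = cfgPt M.code (C (k + 1)) := if_neg (Nat.succ_ne_zero k)
    rw [hPk]
    fin_cases i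
    · refine ⟨?_, ?_⟩ <;> simp [boxLo, boxHi, cfgPt, stackPt] <;> linarith [hx, h1.2]
    · refine ⟨?_, ?_⟩ <;> simp [boxLo, boxHi, cfgPt, stackPt] <;> linarith [h2.1, h2.2]
    · refine ⟨?_, ?_⟩ <;> simp [boxLo, boxHi, cfgPt, stackPt] <;> norm_num

/-- The full statement: one observed point, one box and one compiler for every viscosity. -/
theorem halting_detection :
    ∃ (a lo hi : Fin 3 → ℚ) (F : MCode × List ℕ → ForceData),
      (∀ i, lo i < hi i) ∧ IsForceCompiler F ∧
      ∀ ν : ℝ, 0 < ν → ∀ (M : Machine) (w : List (Fin (M.nsym + 1))),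
        ∃ (u : ℝ → Pt → Fin 3 → ℝ) (p : ℝ → Pt → ℝ),
          ContDiff ℝ ∞ (fun z : ℝ × Pt => u z.1 z.2) ∧
          ContDiff ℝ ∞ (fun z : ℝ × Pt => p z.1 z.2) ∧
          (∀ T : ℝ, 0 < T → IsClassical ν T (forceVal ν (F (M.code, wordCode w))) u p) ∧
          (∀ T : ℝ, 0 < T → ∀ (v : ℝ → Pt → Fin 3 → ℝ) (q : ℝ → Pt → ℝ),
            IsClassical ν T (forceVal ν (F (M.code, wordCode w))) v q →
              ∀ t ∈ Icc 0 T, ∀ x, v t x = u t x ∧ q t x = p t x) ∧
          (∃ X, IsTrajectory u (fun i => (a i : ℝ)) X) ∧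
          ∀ X, IsTrajectory u (fun i => (a i : ℝ)) X →
            ((∃ t : ℝ, 0 ≤ t ∧ X t ∈ boxImage lo hi) ↔ Halts M w) := by
  refine ⟨observed, boxLo, boxHi, compile, ?_, compiler_isForceCompiler, ?_⟩
  · intro i; fin_cases i <;> norm_num [boxLo, boxHi]
  intro ν hν M w
  have hok := sys_ok M w
  have hV := velOK_velOf hok.timed_ok ν
  obtain ⟨h1, h2⟩ := compile_detects ν M w
  refine ⟨_, fun _ _ => 0, velOf_contDiff hok.timed_ok ν, contDiff_const,
    fun T _ => classical_of_velocity hV T, fun T hT v q hv => ?_, h1, h2⟩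
  exact classical_unique hν.le hT (classical_of_velocity hV T) hv

end Vale.Agent.P113
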