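import Vale.Agent.P113.BranchRoute

/-! A reversible two-stack machine for a given Turing machine, as prefix rules. -/

noncomputable section

namespace Vale.Agent.P113

/-- Number of nonblank symbols. -/
def cK (c : MCode) : ℕ := c.1

/-- Number of states less one. -/
def cQ (c : MCode) : ℕ := c.2.1

/-- Start state. -/
def cStart (c : MCode) : ℕ := c.2.2.1

/-- Halting flag of a state. -/
def cHalt (c : MCode) (q : ℕ) : Bool := c.2.2.2.1.getD q false

/-- The table entry. -/
def cEntry (c : MCode) (q s : ℕ) : Option (ℕ × ℕ × ℕ) := (c.2.2.2.2.getD q []).getD s none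

/-- The transition, halting and stuck configurations staying as they are, clamped to range. -/
def cTr (c : MCode) (q s : ℕ) : ℕ × ℕ × ℕ :=
  let r : ℕ × ℕ × ℕ := bif cHalt c q then (s, 1, q) else (cEntry c q s).getD (s, 1, q)
  (min r.1 (cK c), r.2.1, min r.2.2 (cQ c))

/-- Number of transition labels. -/
def cJ (c : MCode) : ℕ := (cQ c + 1) * (cK c + 2) * (cK c + 1)

/-- The label of state `q`, top of the right stack `r` and top of the left stack `l`. -/
def cLabel (c : MCode) (q r l : ℕ) : ℕ := (q * (cK c + 2) + r) * (cK c + 1) + l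

/-- The symbol read, when the top of the right stack is `r`. -/
def cRead (c : MCode) (r : ℕ) : ℕ := bif r == cK c + 1 then 0 else r

/-- The state after the label `j`. -/
def cAfter (c : MCode) (j : ℕ) : ℕ :=
  (cTr c (j / (cK c + 1) / (cK c + 2)) (cRead c (j / (cK c + 1) % (cK c + 2)))).2.2

/-- The state belonging to the index `p`: the start for `0`, and the state after `j` for `j+1`. -/
def cState (c : MCode) (p : ℕ) : ℕ :=
  bif p == 0 then min (cStart c) (cQ c) else cAfter c (p - 1)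

/-- Marker on the left stack. -/
def mk' (c : MCode) : ℕ := cK c + 1

/-- Separator on the right stack. -/
def sp' (c : MCode) : ℕ := cK c + 2

/-- History symbol. -/
def hist (c : MCode) (p : ℕ) : ℕ := cK c + 3 + p

/-- All symbols below this number, halting ones excepted. -/
def cS (c : MCode) : ℕ :=
  (cJ c + 1) + (cJ c + 1) * cJ c + cJ c + (cK c + 3 + (cJ c + 1))

/-- The base. -/
def cBase (c : MCode) : ℕ := 4 * cS c + 2

/-- Symbol of a main state. -/
def stM (c : MCode) (p : ℕ) : ℕ := bif cHalt c (cState c p) then cS c + p else p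

/-- Symbol of a first shuttle state. -/
def stA (c : MCode) (p j : ℕ) : ℕ := cJ c + 1 + (p * cJ c + j)

/-- Symbol of a second shuttle state. -/
def stB (c : MCode) (j : ℕ) : ℕ := cJ c + 1 + (cJ c + 1) * cJ c + j

/-- Top symbol of the right stack in a main state. -/
def topSym (c : MCode) (r : ℕ) : ℕ := bif r == cK c + 1 then sp' c else r

/-- The rule of a step of the machine. -/
def rule1 (c : MCode) (t : ℕ × ℕ × ℕ) : Branch :=
  let q := cState c t.1
  let o := cTr c q (cRead c t.2.1)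
  let e : List ℕ := bif t.2.1 == cK c + 1 then [sp' c] else []
  ([stM c t.1, topSym c t.2.1], [t.2.2],
    stA c t.1 (cLabel c q t.2.1 t.2.2) ::
      ((bif o.2.1 == 0 then [t.2.2, o.1] else bif o.2.1 == 1 then [o.1] else []) ++ e),
    mk' c :: (bif o.2.1 == 0 then [] else bif o.2.1 == 1 then [t.2.2] else [o.1, t.2.2]))

/-- Moving a symbol to the left stack. -/
def rule2 (c : MCode) (t : ℕ × ℕ × ℕ) : Branch :=
  ([stA c t.1 t.2.1, t.2.2], [], [stA c t.1 t.2.1], [t.2.2])

/-- Recording history. -/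
def rule3 (c : MCode) (t : ℕ × ℕ) : Branch :=
  ([stA c t.1 t.2, sp' c], [], [stB c t.2, sp' c, hist c t.1], [])

/-- Moving a symbol back. -/
def rule4 (c : MCode) (t : ℕ × ℕ) : Branch :=
  ([stB c t.1], [t.2], [stB c t.1, t.2], [])

/-- Back to a main state. -/
def rule5 (c : MCode) (j : ℕ) : Branch := ([stB c j], [mk' c], [stM c (j + 1)], [])

/-- Pairs. -/
def pairs (a b : ℕ) : List (ℕ × ℕ) :=
  (List.range a).flatMap fun i => (List.range b).map fun j => (i, j)

/-- Triples. -/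
def triples (a b d : ℕ) : List (ℕ × ℕ × ℕ) :=
  (List.range a).flatMap fun i => (pairs b d).map fun jl => (i, jl)

/-- All rules. -/
def rules (c : MCode) : List Branch :=
  (triples (cJ c + 1) (cK c + 2) (cK c + 1)).map (rule1 c) ++
    ((triples (cJ c + 1) (cJ c) (cK c + 1)).map (rule2 c) ++
      ((pairs (cJ c + 1) (cJ c)).map (rule3 c) ++
        ((pairs (cJ c) (cK c + 1)).map (rule4 c) ++ (List.range (cJ c)).map (rule5 c))))

lemma mem_pairs {a b : ℕ} {t : ℕ × ℕ} : t ∈ pairs a b ↔ t.1 < a ∧ t.2 < b := by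
  obtain ⟨i, j⟩ := t
  simp [pairs]

lemma mem_triples {a b d : ℕ} {t : ℕ × ℕ × ℕ} :
    t ∈ triples a b d ↔ t.1 < a ∧ t.2.1 < b ∧ t.2.2 < d := by
  obtain ⟨i, j, l⟩ := t
  simp [triples, mem_pairs]

lemma nodup_pairs (a b : ℕ) : (pairs a b).Nodup :=
  List.nodup_range.product List.nodup_range

lemma nodup_triples (a b d : ℕ) : (triples a b d).Nodup :=
  List.nodup_range.product (nodup_pairs b d)

lemma cTr_le (c : MCode) (q s : ℕ) : (cTr c q s).1 ≤ cK c ∧ (cTr c q s).2.2 ≤ cQ c :=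
  ⟨Nat.min_le_right _ _, Nat.min_le_right _ _⟩

lemma cState_le (c : MCode) (p : ℕ) : cState c p ≤ cQ c := by
  unfold cState
  rcases h : (p == 0) with _ | _
  · exact (cTr_le c _ _).2
  · exact Nat.min_le_right _ _

lemma cLabel_lt {c : MCode} {q r l : ℕ} (hq : q ≤ cQ c) (hr : r < cK c + 2) (hl : l < cK c + 1) :
    cLabel c q r l < cJ c := by
  unfold cLabel cJ
  have h1 : q * (cK c + 2) + r + 1 ≤ (cQ c + 1) * (cK c + 2) := by
    have := Nat.mul_le_mul_right (cK c + 2) hq
    rw [add_mul]; omega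
  have h2 := Nat.mul_le_mul_right (cK c + 1) h1
  rw [add_mul] at h2
  omega

lemma cLabel_div {c : MCode} {q r l : ℕ} (hr : r < cK c + 2) (hl : l < cK c + 1) :
    cLabel c q r l / (cK c + 1) / (cK c + 2) = q ∧
      cLabel c q r l / (cK c + 1) % (cK c + 2) = r := by
  have h1 : cLabel c q r l / (cK c + 1) = q * (cK c + 2) + r := by
    unfold cLabel
    rw [mul_comm, Nat.mul_add_div (by omega), Nat.div_eq_of_lt hl, add_zero]
  rw [h1]
  constructor
  · rw [mul_comm, Nat.mul_add_div (by omega), Nat.div_eq_of_lt hr, add_zero]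
  · rw [Nat.mul_add_mod_of_lt hr]

lemma cLabel_inj {c : MCode} {q r l r' l' : ℕ} (hr : r < cK c + 2) (hl : l < cK c + 1)
    (hr' : r' < cK c + 2) (hl' : l' < cK c + 1) (h : cLabel c q r l = cLabel c q r' l') :
    r = r' ∧ l = l' := by
  have a := (cLabel_div (q := q) hr hl).2
  have b := (cLabel_div (q := q) hr' hl').2
  rw [h, b] at a
  subst a
  unfold cLabel at h
  exact ⟨rfl, by omega⟩

lemma stA_lt {c : MCode} {p j : ℕ} (hp : p < cJ c + 1) (hj : j < cJ c) :
    stA c p j < cJ c + 1 + (cJ c + 1) * cJ c ∧ cJ c + 1 ≤ stA c p j := by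
  unfold stA
  have := Nat.mul_le_mul_right (cJ c) (show p + 1 ≤ cJ c + 1 by omega)
  rw [add_mul, one_mul] at this
  constructor <;> omega

lemma stA_inj {c : MCode} {p j p' j' : ℕ} (hj : j < cJ c) (hj' : j' < cJ c)
    (h : stA c p j = stA c p' j') : p = p' ∧ j = j' := by
  unfold stA at h
  have e : p * cJ c + j = p' * cJ c + j' := by omega
  have a : (p * cJ c + j) % cJ c = j := Nat.mul_add_mod_of_lt hj
  rw [e, Nat.mul_add_mod_of_lt hj'] at a
  subst a
  exact ⟨Nat.eq_of_mul_eq_mul_right (show 0 < cJ c by omega) (by omega), rfl⟩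

lemma stM_val (c : MCode) (p : ℕ) :
    (cHalt c (cState c p) = true ∧ stM c p = cS c + p) ∨
      (cHalt c (cState c p) = false ∧ stM c p = p) := by
  unfold stM
  rcases cHalt c (cState c p) with _ | _ <;> simp

lemma topSym_val (c : MCode) (r : ℕ) :
    (r = cK c + 1 ∧ topSym c r = sp' c) ∨ (r ≠ cK c + 1 ∧ topSym c r = r) := by
  unfold topSym
  by_cases h : r = cK c + 1
  · exact Or.inl ⟨h, by rw [beq_iff_eq.2 h]; rfl⟩
  · exact Or.inr ⟨h, by rw [beq_false_of_ne h]; rfl⟩

lemma cRead_lt {c : MCode} {r : ℕ} (hr : r < cK c + 2) : cRead c r ≤ cK c := by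
  unfold cRead
  by_cases h : r = cK c + 1
  · rw [beq_iff_eq.2 h]; exact Nat.zero_le _
  · rw [beq_false_of_ne h, cond_false]; omega

lemma rules_ok (c : MCode) : ∀ b ∈ rules c, BrOK (cBase c) b := by
  have key : ∀ a, a < 2 * cS c → 2 * a + 3 ≤ cBase c := fun a ha => by unfold cBase; omega
  have D : ∀ l : List ℕ, (∀ a ∈ l, a < 2 * cS c) → Digs (cBase c) l := fun l h a ha => key a (h a ha)
  have hS : cJ c + 1 + (cJ c + 1) * cJ c + cJ c + (cK c + 3 + (cJ c + 1)) = cS c := rfl
  have hsym : ∀ a, a ≤ cK c + 3 + cJ c → a < 2 * cS c := fun a ha => by omega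
  intro b hb
  simp only [rules, List.mem_append, List.mem_map] at hb
  rcases hb with ⟨⟨p, r, l⟩, ht, rfl⟩ | ⟨⟨p, j, r⟩, ht, rfl⟩ | ⟨⟨p, j⟩, ht, rfl⟩ |
      ⟨⟨j, l⟩, ht, rfl⟩ | ⟨j, ht, rfl⟩
  · obtain ⟨hp, hr, hl⟩ := mem_triples.1 ht
    dsimp only at hp hr hl
    have hlab := cLabel_lt (cState_le c p) hr hl
    have hA := (stA_lt hp hlab).1
    have ho := (cTr_le c (cState c p) (cRead c r)).1
    have hM := stM_val c p
    have ht' := topSym_val c r
    simp only [sp'] at ht'
    refine ⟨D _ ?_, D _ ?_, D _ ?_, D _ ?_⟩ <;>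
      simp only [rule1, List.forall_mem_cons, List.forall_mem_append]
    · exact ⟨by omega, by omega, fun a ha => absurd ha List.not_mem_nil⟩
    · exact ⟨hsym _ (by omega), fun a ha => absurd ha List.not_mem_nil⟩
    · refine ⟨by omega, ?_, ?_⟩
      · intro a ha
        apply hsym
        rcases h0 : ((cTr c (cState c p) (cRead c r)).2.1 == 0) with _ | _ <;>
          rcases h1 : ((cTr c (cState c p) (cRead c r)).2.1 == 1) with _ | _ <;>
          simp [h0, h1] at ha <;> omega
      · intro a ha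
        apply hsym
        rcases h0 : (r == cK c + 1) with _ | _ <;> simp [h0, sp'] at ha; omega
    · refine ⟨hsym _ (by unfold mk'; omega), ?_⟩
      intro a ha
      apply hsym
      rcases h0 : ((cTr c (cState c p) (cRead c r)).2.1 == 0) with _ | _ <;>
        rcases h1 : ((cTr c (cState c p) (cRead c r)).2.1 == 1) with _ | _ <;>
        simp [h0, h1] at ha <;> omega
  · obtain ⟨hp, hj, hr⟩ := mem_triples.1 ht
    dsimp only at hp hj hr
    have hA := (stA_lt hp hj).1
    refine ⟨D _ ?_, D _ ?_, D _ ?_, D _ ?_⟩ <;>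
      simp [rule2] <;> omega
  · obtain ⟨hp, hj⟩ := mem_pairs.1 ht
    dsimp only at hp hj
    have hA := (stA_lt hp hj).1
    refine ⟨D _ ?_, D _ ?_, D _ ?_, D _ ?_⟩ <;>
      simp [rule3, sp', hist, stB] <;> omega
  · obtain ⟨hj, hl⟩ := mem_pairs.1 ht
    dsimp only at hj hl
    refine ⟨D _ ?_, D _ ?_, D _ ?_, D _ ?_⟩ <;>
      simp [rule4, stB] <;> omega
  · have hj := List.mem_range.1 ht
    have hM := stM_val c (j + 1)
    refine ⟨D _ ?_, D _ ?_, D _ ?_, D _ ?_⟩ <;>
      simp [rule5, mk', stB] <;> omega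

lemma pairwise_of_nodup {α : Type} {R : α → α → Prop} {l : List α} (hn : l.Nodup)
    (h : ∀ a ∈ l, ∀ b ∈ l, a ≠ b → R a b) : l.Pairwise R :=
  List.Pairwise.imp_of_mem (R := (· ≠ ·)) (fun {a b} ha hb hab => h a ha b hb hab) hn

lemma incomp_head {a b : ℕ} {p q : List ℕ} (h : a ≠ b) : Incomp (a :: p) (b :: q) := Or.inl h

lemma incomp_second {a b a' b' : ℕ} {p q : List ℕ} (h : a' ≠ b') :
    Incomp (a :: a' :: p) (b :: b' :: q) := Or.inr (Or.inl h)

lemma incomp_third {a b a' b' a'' b'' : ℕ} {p q : List ℕ} (h : a'' ≠ b'') :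
    Incomp (a :: a' :: a'' :: p) (b :: b' :: b'' :: q) := Or.inr (Or.inr (Or.inl h))

lemma rules_sep (c : MCode) : (rules c).Pairwise fun b b' => Sep b b' ∧ Sep b' b := by
  have hS : cJ c + 1 + (cJ c + 1) * cJ c + cJ c + (cK c + 3 + (cJ c + 1)) = cS c := rfl
  have hM : ∀ p, p < cJ c + 1 → stM c p < cJ c + 1 ∨ cS c ≤ stM c p := fun p hp => by
    rcases stM_val c p with ⟨-, h⟩ | ⟨-, h⟩ <;> omega
  have hMinj : ∀ p p', p < cJ c + 1 → p' < cJ c + 1 → stM c p = stM c p' → p = p' :=
    fun p p' hp hp' h => by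
      rcases stM_val c p with ⟨-, a⟩ | ⟨-, a⟩ <;> rcases stM_val c p' with ⟨-, b⟩ | ⟨-, b⟩ <;> omega
  have hMA : ∀ p p' j, p < cJ c + 1 → p' < cJ c + 1 → j < cJ c → stM c p ≠ stA c p' j :=
    fun p p' j hp hp' hj => by have := hM p hp; have := stA_lt hp' hj; omega
  have hMB : ∀ p j, p < cJ c + 1 → j < cJ c → stM c p ≠ stB c j :=
    fun p j hp hj => by have := hM p hp; unfold stB; omega
  have hAB : ∀ p j j', p < cJ c + 1 → j < cJ c → stA c p j ≠ stB c j' :=
    fun p j j' hp hj => by have := stA_lt hp hj; unfold stB; omega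
  simp only [rules, List.pairwise_append, List.pairwise_map]
  simp only [List.forall_mem_map, List.forall_mem_append]
  refine ⟨?_, ⟨?_, ⟨?_, ⟨?_, ?_, ?_⟩, ?_⟩, ?_⟩, ?_⟩
  · -- rule1, rule1
    apply pairwise_of_nodup (nodup_triples _ _ _)
    rintro ⟨p, r, l⟩ ha ⟨p', r', l'⟩ hb hne
    obtain ⟨hp, hr, hl⟩ := mem_triples.1 ha
    obtain ⟨hp', hr', hl'⟩ := mem_triples.1 hb
    have key : ∀ {p r l p' r' l' : ℕ}, p < cJ c + 1 → p' < cJ c + 1 → r < cK c + 2 →
        r' < cK c + 2 → l < cK c + 1 → l' < cK c + 1 → (p, r, l) ≠ (p', r', l') →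
        Sep (rule1 c (p, r, l)) (rule1 c (p', r', l')) := by
      intro p r l p' r' l' hp hp' hr hr' hl hl' hne
      constructor
      · by_cases h1 : p = p'
        · subst h1
          by_cases h2 : r = r'
          · subst h2
            exact Or.inr (incomp_head fun h => hne (by dsimp only at h; rw [h]))
          · refine Or.inl (incomp_second ?_)
            have := topSym_val c r; have := topSym_val c r'
            simp only [sp'] at *
            omega
        · exact Or.inl (incomp_head fun h => h1 (hMinj p p' hp hp' h))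
      · refine Or.inl (incomp_head fun h => hne ?_)
        obtain ⟨rfl, h'⟩ := stA_inj (cLabel_lt (cState_le c p) hr hl)
          (cLabel_lt (cState_le c p') hr' hl') h
        obtain ⟨rfl, rfl⟩ := cLabel_inj hr hl hr' hl' h'
        rfl
    exact ⟨key hp hp' hr hr' hl hl' hne, key hp' hp hr' hr hl' hl fun h => hne h.symm⟩
  · -- rule2, rule2
    apply pairwise_of_nodup (nodup_triples _ _ _)
    rintro ⟨p, j, r⟩ ha ⟨p', j', r'⟩ hb hne
    obtain ⟨hp, hj, hr⟩ := mem_triples.1 ha
    obtain ⟨hp', hj', hr'⟩ := mem_triples.1 hb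
    have key : ∀ {p j r p' j' r' : ℕ}, j < cJ c → j' < cJ c → (p, j, r) ≠ (p', j', r') →
        Sep (rule2 c (p, j, r)) (rule2 c (p', j', r')) := by
      intro p j r p' j' r' hj hj' hne
      by_cases h : stA c p j = stA c p' j'
      · obtain ⟨rfl, rfl⟩ := stA_inj hj hj' h
        have hr : r ≠ r' := fun h => hne (by rw [h])
        exact ⟨Or.inl (incomp_second hr), Or.inr (incomp_head hr)⟩
      · exact ⟨Or.inl (incomp_head h), Or.inl (incomp_head h)⟩
    exact ⟨key hj hj' hne, key hj' hj fun h => hne h.symm⟩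
  · -- rule3, rule3
    apply pairwise_of_nodup (nodup_pairs _ _)
    rintro ⟨p, j⟩ ha ⟨p', j'⟩ hb hne
    obtain ⟨hp, hj⟩ := mem_pairs.1 ha
    obtain ⟨hp', hj'⟩ := mem_pairs.1 hb
    have key : ∀ {p j p' j' : ℕ}, j < cJ c → j' < cJ c → (p, j) ≠ (p', j') →
        Sep (rule3 c (p, j)) (rule3 c (p', j')) := by
      intro p j p' j' hj hj' hne
      refine ⟨Or.inl (incomp_head fun h => hne ?_), Or.inl ?_⟩
      · obtain ⟨rfl, rfl⟩ := stA_inj hj hj' h; rfl
      · by_cases h : j = j'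
        · refine incomp_third fun h' => hne ?_
          simp only [hist] at h'
          subst h; rw [show p = p' by omega]
        · exact incomp_head (by simp only [stB]; omega)
    exact ⟨key hj hj' hne, key hj' hj fun h => hne h.symm⟩
  · -- rule4, rule4
    apply pairwise_of_nodup (nodup_pairs _ _)
    rintro ⟨j, l⟩ - ⟨j', l'⟩ - hne
    have key : ∀ {j l j' l' : ℕ}, (j, l) ≠ (j', l') → Sep (rule4 c (j, l)) (rule4 c (j', l')) := by
      intro j l j' l' hne
      by_cases h : j = j'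
      · subst h
        have hl : l ≠ l' := fun h => hne (by rw [h])
        exact ⟨Or.inr (incomp_head hl), Or.inl (incomp_second hl)⟩
      · have h' : stB c j ≠ stB c j' := by simp only [stB]; omega
        exact ⟨Or.inl (incomp_head h'), Or.inl (incomp_head h')⟩
    exact ⟨key hne, key fun h => hne h.symm⟩
  · -- rule5, rule5
    apply pairwise_of_nodup List.nodup_range
    intro j hj j' hj' hne
    rw [List.mem_range] at hj hj'
    have key : ∀ {j j' : ℕ}, j < cJ c → j' < cJ c → j ≠ j' → Sep (rule5 c j) (rule5 c j') := by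
      intro j j' hj hj' hne
      exact ⟨Or.inl (incomp_head (by simp only [stB]; omega)),
        Or.inl (incomp_head fun h => hne (by have := hMinj _ _ (by omega) (by omega) h; omega))⟩
    exact ⟨key hj hj' hne, key hj' hj hne.symm⟩
  · -- rule4, rule5
    rintro ⟨j, l⟩ ha j' hb
    obtain ⟨hj, hl⟩ := mem_pairs.1 ha
    rw [List.mem_range] at hb
    have h1 : l ≠ mk' c := by simp only [mk']; dsimp only at hl; omega
    exact ⟨⟨Or.inr (incomp_head h1), Or.inl (incomp_head (hMB _ _ (by omega) hj).symm)⟩,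
      ⟨Or.inr (incomp_head h1.symm), Or.inl (incomp_head (hMB _ _ (by omega) hj))⟩⟩
  · -- rule3, rule4 and rule5
    refine fun a ha => ⟨?_, ?_⟩ <;> obtain ⟨p, j⟩ := a <;> obtain ⟨hp, hj⟩ := mem_pairs.1 ha
    · rintro ⟨j', l⟩ hb
      obtain ⟨hj', hl⟩ := mem_pairs.1 hb
      have h1 : sp' c ≠ l := by simp only [sp']; dsimp only at hl; omega
      exact ⟨⟨Or.inl (incomp_head (hAB _ _ _ hp hj)), Or.inl (incomp_second h1)⟩,
        ⟨Or.inl (incomp_head (hAB _ _ _ hp hj).symm), Or.inl (incomp_second h1.symm)⟩⟩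
    · intro j' hb
      rw [List.mem_range] at hb
      exact ⟨⟨Or.inl (incomp_head (hAB _ _ _ hp hj)),
          Or.inl (incomp_head (hMB _ _ (by omega) hj).symm)⟩,
        ⟨Or.inl (incomp_head (hAB _ _ _ hp hj).symm),
          Or.inl (incomp_head (hMB _ _ (by omega) hj))⟩⟩
  · -- rule2, rule3, rule4 and rule5
    refine fun a ha => ⟨?_, ?_, ?_⟩ <;> obtain ⟨p, j, r⟩ := a <;>
      obtain ⟨hp, hj, hr⟩ := mem_triples.1 ha
    · rintro ⟨p', j'⟩ hb
      obtain ⟨hp', hj'⟩ := mem_pairs.1 hb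
      have h1 : r ≠ sp' c := by simp only [sp']; dsimp only at hr; omega
      exact ⟨⟨Or.inl (incomp_second h1), Or.inl (incomp_head (hAB _ _ _ hp hj))⟩,
        ⟨Or.inl (incomp_second h1.symm), Or.inl (incomp_head (hAB _ _ _ hp hj).symm)⟩⟩
    · rintro ⟨j', l⟩ hb
      exact ⟨⟨Or.inl (incomp_head (hAB _ _ _ hp hj)), Or.inl (incomp_head (hAB _ _ _ hp hj))⟩,
        ⟨Or.inl (incomp_head (hAB _ _ _ hp hj).symm),
          Or.inl (incomp_head (hAB _ _ _ hp hj).symm)⟩⟩
    · intro j' hb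
      rw [List.mem_range] at hb
      exact ⟨⟨Or.inl (incomp_head (hAB _ _ _ hp hj)),
          Or.inl (incomp_head (hMA _ _ _ (by omega) hp hj).symm)⟩,
        ⟨Or.inl (incomp_head (hAB _ _ _ hp hj).symm),
          Or.inl (incomp_head (hMA _ _ _ (by omega) hp hj))⟩⟩
  · -- rule1 and the others
    refine fun a ha => ⟨?_, ?_, ?_, ?_⟩ <;> obtain ⟨p, r, l⟩ := a <;>
      obtain ⟨hp, hr, hl⟩ := mem_triples.1 ha <;>
      have hlab := cLabel_lt (cState_le c p) hr hl
    · rintro ⟨p', j', r'⟩ hb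
      obtain ⟨hp', hj', hr'⟩ := mem_triples.1 hb
      have h1 : mk' c ≠ r' := by simp only [mk']; dsimp only at hr'; omega
      exact ⟨⟨Or.inl (incomp_head (hMA _ _ _ hp hp' hj')), Or.inr (incomp_head h1)⟩,
        ⟨Or.inl (incomp_head (hMA _ _ _ hp hp' hj').symm), Or.inr (incomp_head h1.symm)⟩⟩
    · rintro ⟨p', j'⟩ hb
      obtain ⟨hp', hj'⟩ := mem_pairs.1 hb
      exact ⟨⟨Or.inl (incomp_head (hMA _ _ _ hp hp' hj')),
          Or.inl (incomp_head (hAB _ _ _ hp hlab))⟩,
        ⟨Or.inl (incomp_head (hMA _ _ _ hp hp' hj').symm),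
          Or.inl (incomp_head (hAB _ _ _ hp hlab).symm)⟩⟩
    · rintro ⟨j', l'⟩ hb
      obtain ⟨hj', -⟩ := mem_pairs.1 hb
      exact ⟨⟨Or.inl (incomp_head (hMB _ _ hp hj')), Or.inl (incomp_head (hAB _ _ _ hp hlab))⟩,
        ⟨Or.inl (incomp_head (hMB _ _ hp hj').symm),
          Or.inl (incomp_head (hAB _ _ _ hp hlab).symm)⟩⟩
    · intro j' hb
      rw [List.mem_range] at hb
      exact ⟨⟨Or.inl (incomp_head (hMB _ _ hp hb)),
          Or.inl (incomp_head (hMA _ _ _ (by omega) hp hlab).symm)⟩,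
        ⟨Or.inl (incomp_head (hMB _ _ hp hb).symm),
          Or.inl (incomp_head (hMA _ _ _ (by omega) hp hlab))⟩⟩

end Vale.Agent.P113
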