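import Vale.Agent.P113.Gadget

/-! Running a list of moves one after another. -/

noncomputable section

open Set
open scoped ContDiff

namespace Vale.Agent.P113

/-- The switch of the `i`-th of `n` periodic moves, active in a part of `[1/10, 9/10]`. -/
def switchP (n i : ℕ) : Bool × QD × QD := (true, qfrac (5 * n) 2, qfrac (n + 8 * i + 4) 4)

/-- The switch of the `i`-th loading move, active in a part of `[0, 1/10]`. -/
def switchL (i : ℕ) : Bool × QD × QD := (false, qnat 60, qnat (2 * i + 1))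

/-- A filler. -/
def noMove : Move :=
  ((false, (0, 0, 0), []),
    (((0, 0, 0), (0, 0, 0), (0, 0, 0), (0, 0, 0), (0, 0, 0)),
      ((0, 0, 0), (0, 0, 0), (0, 0, 0), (0, 0, 0), (0, 0, 0)),
      ((0, 0, 0), (0, 0, 0), (0, 0, 0), (0, 0, 0), (0, 0, 0))))

/-- Attach switches to a list of moves. -/
def timed (sw : ℕ → Bool × QD × QD) (ms : List Move) : List TMove :=
  (List.range ms.length).map fun i => (sw i, ms.getD i noMove)

/-- The velocity made of loading moves and periodic moves. -/
def velSys (Ls Ps : List Move) : ForceData :=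
  velOf (timed switchL Ls ++ timed (switchP Ps.length) Ps)

/-- The time profile `a * rho (a s - b) / kappa`. -/
def prof (a b s : ℝ) : ℝ := a * rho (a * s - b) / kappa

lemma prof_zero {a b s : ℝ} (h : 1 ≤ |a * s - b|) : prof a b s = 0 := by
  simp [prof, rho_zero h]

lemma switch_plain (i : ℕ) (t : ℝ) : switchVal (switchL i) t = prof 60 (2 * i + 1) t := by
  have e : ∀ q : QD, (qval q : ℝ) = rv q := fun _ => rfl
  simp [switchVal, switchL, timeFactor, bumpFun, prof, e]

lemma rv_switchP {n : ℕ} (i : ℕ) :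
    rv (switchP n i).2.1 = 5 * n / 2 ∧ rv (switchP n i).2.2 = (n : ℝ) / 4 + 2 * i + 1 := by
  constructor
  · simp [switchP, rv_qfrac]
  · simp [switchP, rv_qfrac]; ring

lemma switchP_ok {n i : ℕ} (hi : i < n) : SwitchOK (switchP n i) := by
  obtain ⟨ha, hb⟩ := rv_switchP (n := n) i
  have h1 : (i : ℝ) + 1 ≤ n := by exact_mod_cast hi
  have h2 : (0 : ℝ) ≤ i := Nat.cast_nonneg i
  refine ⟨?_, ?_, ?_⟩ <;> rw [ha] at * <;> simp only [hb] at * <;> linarith

lemma switchL_ok {i : ℕ} (hi : i < 3) : SwitchOK (switchL i) := by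
  have h1 : (i : ℝ) + 1 ≤ 3 := by exact_mod_cast hi
  refine ⟨by simp [switchL], ?_, ?_⟩ <;> simp [switchL] <;> linarith

lemma switch_periodic {n i : ℕ} (hi : i < n) (k : ℕ) {t : ℝ}
    (ht : t ∈ Icc (k : ℝ) (k + 1)) :
    switchVal (switchP n i) t = prof (5 * n / 2) ((n : ℝ) / 4 + 2 * i + 1) (t - k) := by
  obtain ⟨ha, hb⟩ := rv_switchP (n := n) i
  obtain ⟨h0, h1, h2⟩ := switchP_ok hi
  have e : ∀ q : QD, (qval q : ℝ) = rv q := fun _ => rfl
  let B : Bump := Sum.inl (0, 0, (switchP n i).2.1, (switchP n i).2.2)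
  have hz : ∀ s : ℝ, s ≤ 0 ∨ 1 ≤ s → bumpFun B s = 0 := by
    intro s hs
    simp only [B, bumpFun, e]
    rw [iterDeriv_rho_zero, mul_zero]
    rcases hs with hs | hs
    · rw [abs_of_nonpos (by nlinarith)]; nlinarith
    · rw [abs_of_nonneg (by nlinarith)]; nlinarith
  have hs : t = (t - k) + ((k : ℤ) : ℝ) := by push_cast; ring
  have : per (bumpFun B) t = bumpFun B (t - k) := by
    conv_lhs => rw [hs]
    rw [per_shift]
    exact per_eq_self (fun s hs => hz s (Or.inl hs)) (fun s hs => hz s (Or.inr hs))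
      ⟨by linarith [ht.1], by linarith [ht.2]⟩
  unfold switchVal
  rw [show timeFactor ((switchP n i).1, B) t = per (bumpFun B) t from rfl, this]
  simp [B, bumpFun, e, ha, hb, prof]

/-- A move carries `P` to `Q` along its field inside `A`. -/
def Act (V : Pt → Fin 3 → ℝ) (A : Set Pt) (P Q : Pt) : Prop :=
  ∃ γ : ℝ → Pt, γ 0 = P ∧ γ 1 = Q ∧
    ∀ s ∈ Icc (0 : ℝ) 1, HasDerivAt γ (V (γ s)) s ∧ γ s ∈ A

lemma Act.still {V : Pt → Fin 3 → ℝ} {A : Set Pt} {P : Pt} (h : V P = 0) (hP : P ∈ A) :
    Act V A P P :=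
  ⟨fun _ => P, rfl, rfl, fun s _ => ⟨by simpa [h] using hasDerivAt_const s P, hP⟩⟩

lemma Act.mem_left {V : Pt → Fin 3 → ℝ} {A : Set Pt} {P Q : Pt} (h : Act V A P Q) : P ∈ A := by
  obtain ⟨γ, h0, -, hγ⟩ := h
  rw [← h0]; exact (hγ 0 (left_mem_Icc.2 zero_le_one)).2

/-- The moves of a list carry `P` to `Q` in turn. -/
def Route (A : Set Pt) : List Move → Pt → Pt → Prop
  | [], P, Q => P = Q
  | m :: ms, P, Q => ∃ R, Act (moveField m) A P R ∧ Route A ms R Q

lemma Route.append {A : Set Pt} : ∀ {ms ns : List Move} {P Q R : Pt},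
    Route A ms P Q → Route A ns Q R → Route A (ms ++ ns) P R
  | [], _, _, _, _, h, k => by rw [show _ = _ from h]; exact k
  | _ :: ms, _, _, _, _, ⟨S, h1, h2⟩, k => ⟨S, h1, Route.append (ms := ms) h2 k⟩

lemma Route.still {A : Set Pt} {P : Pt} (hP : P ∈ A) :
    ∀ {ms : List Move}, (∀ m ∈ ms, moveField m P = 0) → Route A ms P P
  | [], _ => rfl
  | m :: _, h => ⟨P, Act.still (h m (by simp)) hP, Route.still hP fun n hn => h n (by simp [hn])⟩

lemma sigma_bounds (s : ℝ) : 0 ≤ sigma s ∧ sigma s ≤ kappa := by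
  unfold sigma kappa
  exact ⟨MeasureTheory.setIntegral_nonneg measurableSet_Iic fun x _ => rho_nonneg x,
    MeasureTheory.setIntegral_le_integral rho_int (Filter.Eventually.of_forall rho_nonneg)⟩

lemma act_seg {u : ℝ → Pt → Fin 3 → ℝ} {V : Pt → Fin 3 → ℝ} {A : Set Pt} {P Q : Pt}
    (h : Act V A P Q) {a b c : ℝ} (ha : 0 < a)
    (hu : ∀ t ∈ Icc (c + (b - 1) / a) (c + (b + 1) / a), ∀ x, u t x = prof a b (t - c) • V x) :
    Seg u A (c + (b - 1) / a) (c + (b + 1) / a) P Q := by
  obtain ⟨γ, h0, h1, hγ⟩ := h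
  have hk := kappa_ne
  let Θ : ℝ → ℝ := fun t => sigma (a * (t - c) - b) / kappa
  have hΘ : ∀ t, HasDerivAt Θ (prof a b (t - c)) t := by
    intro t
    have h1 : HasDerivAt (fun z : ℝ => a * (z - c) - b) a t := by
      simpa using (((hasDerivAt_id t).sub_const c).const_mul a).sub_const b
    have h2 := ((sigma_deriv (a * (t - c) - b)).comp t h1).div_const kappa
    refine h2.congr_deriv ?_
    simp only [prof]; ring
  refine ⟨by gcongr; linarith, γ ∘ Θ, ?_, ?_, fun t ht => ?_, fun t ht => ?_⟩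
  · have : a * (c + (b - 1) / a - c) - b = -1 := by field_simp; ring
    simp only [Θ, Function.comp_apply, this]
    simp [sigma_low, h0]
  · have : a * (c + (b + 1) / a - c) - b = 1 := by field_simp; ring
    simp only [Θ, Function.comp_apply, this]
    simp [sigma_high, hk, h1]
  · have hmem : Θ t ∈ Icc (0 : ℝ) 1 := by
      obtain ⟨e1, e2⟩ := sigma_bounds (a * (t - c) - b)
      exact ⟨div_nonneg e1 kappa_pos.le, (div_le_one kappa_pos).2 e2⟩
    have hd := HasDerivAt.scomp t (hγ (Θ t) hmem).1 (hΘ t)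
    rw [hu t ht]
    exact hd.hasDerivWithinAt
  · obtain ⟨e1, e2⟩ := sigma_bounds (a * (t - c) - b)
    exact (hγ (Θ t) ⟨div_nonneg e1 kappa_pos.le, (div_le_one kappa_pos).2 e2⟩).2

lemma route_seg {u : ℝ → Pt → Fin 3 → ℝ} {A : Set Pt} {a c : ℝ} (ha : 0 < a) :
    ∀ (ms : List Move) (b : ℝ) {P Q : Pt}, P ∈ A → Route A ms P Q →
      (∀ (j : ℕ) (hj : j < ms.length),
        ∀ t ∈ Icc (c + (b + 2 * j - 1) / a) (c + (b + 2 * j + 1) / a), ∀ x,
          u t x = prof a (b + 2 * j) (t - c) • moveField ms[j] x) →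
      Seg u A (c + (b - 1) / a) (c + (b + 2 * ms.length - 1) / a) P Q := by
  intro ms
  induction ms with
  | nil =>
      intro b P Q hP h _
      cases (show P = Q from h)
      simp only [List.length_nil, Nat.cast_zero, mul_zero, add_zero]
      refine ⟨le_rfl, fun _ => P, rfl, rfl, fun t ht => ?_, fun _ _ => hP⟩
      rw [Icc_self]
      exact HasFDerivWithinAt.of_subsingleton subsingleton_singleton
  | cons m ms ih =>
      intro b P Q hP h hu
      obtain ⟨R, hm, hr⟩ := h
      have s1 : Seg u A (c + (b - 1) / a) (c + (b + 1) / a) P R := by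
        apply act_seg hm ha
        intro t ht x
        have := hu 0 (by simp) t (by simpa using ht) x
        simpa using this
      have hR : R ∈ A := by
        obtain ⟨γ, -, g1, hγ⟩ := hm
        rw [← g1]; exact (hγ 1 (right_mem_Icc.2 zero_le_one)).2
      have s2 := ih (b + 2) hR hr (fun j hj t ht x => by
        have e : b + 2 * ((j + 1 : ℕ) : ℝ) = b + 2 + 2 * j := by push_cast; ring
        have := hu (j + 1) (by simpa using hj) t (by rw [e]; exact ht) x
        rw [e] at this
        simpa using this)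
      have e1 : c + (b + 2 - 1) / a = c + (b + 1) / a := by ring
      have e2 : b + 2 + 2 * (ms.length : ℝ) - 1 = b + 2 * ((m :: ms).length : ℝ) - 1 := by
        simp; ring
      rw [e1, e2] at s2
      exact s1.trans s2

lemma list_range_sum {β : Type} [AddCommMonoid β] (g : ℕ → β) (n : ℕ) :
    ((List.range n).map g).sum = ∑ i ∈ Finset.range n, g i := rfl

lemma velSys_val (ν : ℝ) (Ls Ps : List Move) (t : ℝ) (x : Pt) :
    forceVal ν (velSys Ls Ps) t x =
      (∑ i ∈ Finset.range Ls.length, switchVal (switchL i) t • moveField (Ls.getD i noMove) x) +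
      ∑ i ∈ Finset.range Ps.length,
        switchVal (switchP Ps.length i) t • moveField (Ps.getD i noMove) x := by
  rw [velSys, velOf_val, List.map_append, List.sum_append]
  simp only [timed, List.map_map, Function.comp_def, list_range_sum]

/-- Hypotheses on the two lists of moves. -/
structure SysOK (Ls Ps : List Move) : Prop where
  loadLen : Ls.length ≤ 3
  nonempty : 0 < Ps.length
  loadOK : ∀ m ∈ Ls, MoveOK m
  perOK : ∀ m ∈ Ps, MoveOK m

lemma getD_mem {l : List Move} {i : ℕ} (h : i < l.length) : l.getD i noMove ∈ l := by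
  rw [List.getD_eq_getElem _ _ h]; exact List.getElem_mem h

lemma SysOK.timed_ok {Ls Ps : List Move} (h : SysOK Ls Ps) :
    ∀ m ∈ timed switchL Ls ++ timed (switchP Ps.length) Ps, MoveOK m.2 ∧ SwitchOK m.1 := by
  intro m hm
  simp only [List.mem_append, timed, List.mem_map, List.mem_range] at hm
  rcases hm with ⟨i, hi, rfl⟩ | ⟨i, hi, rfl⟩
  · exact ⟨h.loadOK _ (getD_mem hi), switchL_ok (hi.trans_le h.loadLen)⟩
  · exact ⟨h.perOK _ (getD_mem hi), switchP_ok hi⟩

variable {ν : ℝ} {Ls Ps : List Move}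

lemma load_seg (h : SysOK Ls Ps) (h3 : Ls.length = 3) {A : Set Pt} {P Q : Pt} (hP : P ∈ A)
    (hr : Route A Ls P Q) : Seg (forceVal ν (velSys Ls Ps)) A 0 (1 / 10) P Q := by
  have := route_seg (u := forceVal ν (velSys Ls Ps)) (a := 60) (c := 0) (by norm_num) Ls 1 hP hr
    (fun j hj t ht x => by
      have hj3 : (j : ℝ) + 1 ≤ 3 := by exact_mod_cast (h3 ▸ hj : j < 3)
      have hj0 : (0 : ℝ) ≤ j := Nat.cast_nonneg j
      have l1 : (2 * (j : ℝ)) ≤ 60 * t := by
        have := ht.1
        rw [zero_add, div_le_iff₀ (by norm_num)] at this; linarith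
      have l2 : 60 * t ≤ 2 * (j : ℝ) + 2 := by
        have := ht.2
        rw [zero_add, le_div_iff₀ (by norm_num)] at this; linarith
      rw [velSys_val, Finset.sum_eq_single j, Finset.sum_eq_zero, add_zero, switch_plain,
        List.getD_eq_getElem _ _ hj, sub_zero]
      · congr 2; ring
      · intro i hi
        rw [switch_periodic (Finset.mem_range.1 hi) 0
          (by simp only [Nat.cast_zero, zero_add]; exact ⟨by linarith, by linarith⟩), prof_zero, zero_smul]
        have hi0 : (0 : ℝ) ≤ i := Nat.cast_nonneg i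
        have hn : (0 : ℝ) < Ps.length := by exact_mod_cast h.nonempty
        rw [Nat.cast_zero, sub_zero, abs_of_nonpos (by nlinarith)]
        nlinarith
      · intro i _ hij
        rw [switch_plain, prof_zero, zero_smul]
        rcases lt_or_gt_of_ne hij with hlt | hlt
        · have : (i : ℝ) + 1 ≤ j := by exact_mod_cast hlt
          rw [abs_of_nonneg (by linarith)]; linarith
        · have : (j : ℝ) + 1 ≤ i := by exact_mod_cast hlt
          rw [abs_of_nonpos (by linarith)]; linarith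
      · intro hn; exact absurd (Finset.mem_range.2 hj) hn)
  rw [h3] at this
  norm_num at this
  exact this

lemma quiet_seg (h : SysOK Ls Ps) {A : Set Pt} {P : Pt} (hP : P ∈ A) (k : ℕ) {a b : ℝ}
    (hab : a ≤ b) (hwin : (1 ≤ k ∧ (k : ℝ) ≤ a ∧ b ≤ k + 1 / 10) ∨
      ((k : ℝ) + 9 / 10 ≤ a ∧ b ≤ k + 1)) :
    Seg (forceVal ν (velSys Ls Ps)) A a b P P := by
  apply Seg.still hab hP
  intro t ht
  have hk0 : (0 : ℝ) ≤ k := Nat.cast_nonneg k
  have htk : t ∈ Icc (k : ℝ) (k + 1) := by
    rcases hwin with ⟨-, w1, w2⟩ | ⟨w1, w2⟩ <;> constructor <;> linarith [ht.1, ht.2]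
  rw [velSys_val, Finset.sum_eq_zero, Finset.sum_eq_zero, add_zero]
  · intro i hi
    have hi' := Finset.mem_range.1 hi
    rw [switch_periodic hi' k htk, prof_zero, zero_smul]
    have h1 : (i : ℝ) + 1 ≤ Ps.length := by exact_mod_cast hi'
    have hi0 : (0 : ℝ) ≤ i := Nat.cast_nonneg i
    rcases hwin with ⟨-, w1, w2⟩ | ⟨w1, w2⟩
    · have : t - k ≤ 1 / 10 := by linarith [ht.2]
      rw [abs_of_nonpos (by nlinarith)]; nlinarith
    · have : 9 / 10 ≤ t - k := by linarith [ht.1]
      rw [abs_of_nonneg (by nlinarith)]; nlinarith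
  · intro i hi
    rw [switch_plain, prof_zero, zero_smul]
    have h1 : (i : ℝ) + 1 ≤ 3 := by
      exact_mod_cast lt_of_lt_of_le (Finset.mem_range.1 hi) h.loadLen
    have : (1 : ℝ) / 10 ≤ t := by
      rcases hwin with ⟨w0, w1, w2⟩ | ⟨w1, w2⟩
      · have : (1 : ℝ) ≤ k := by exact_mod_cast w0
        linarith [ht.1]
      · linarith [ht.1]
    rw [abs_of_nonneg (by linarith)]; linarith

lemma period_seg (h : SysOK Ls Ps) {A : Set Pt} {P Q : Pt} (hP : P ∈ A) (hQ : Q ∈ A)
    (hr : Route A Ps P Q) (k : ℕ) :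
    Seg (forceVal ν (velSys Ls Ps)) A (k + 1 / 10) (k + 1) P Q := by
  have hn : (0 : ℝ) < Ps.length := by exact_mod_cast h.nonempty
  have := route_seg (u := forceVal ν (velSys Ls Ps)) (a := 5 * Ps.length / 2) (c := k)
    (by positivity) Ps ((Ps.length : ℝ) / 4 + 1) hP hr
    (fun j hj t ht x => by
      have hj1 : (j : ℝ) + 1 ≤ Ps.length := by exact_mod_cast hj
      have hj0 : (0 : ℝ) ≤ j := Nat.cast_nonneg j
      have l1 : (Ps.length : ℝ) / 4 + 2 * j ≤ 5 * Ps.length / 2 * (t - k) := by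
        have := ht.1
        rw [← le_sub_iff_add_le', div_le_iff₀ (by positivity)] at this
        linarith
      have l2 : 5 * Ps.length / 2 * (t - k) ≤ (Ps.length : ℝ) / 4 + 2 * j + 2 := by
        have := ht.2
        rw [← sub_le_iff_le_add', le_div_iff₀ (by positivity)] at this
        linarith
      have hs0 : 1 / 10 ≤ t - (k : ℝ) := by nlinarith
      have hs1 : t - (k : ℝ) ≤ 1 := by nlinarith
      have htk : t ∈ Icc (k : ℝ) (k + 1) := ⟨by linarith, by linarith⟩
      rw [velSys_val, Finset.sum_eq_zero, Finset.sum_eq_single j, zero_add,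
        switch_periodic hj k htk, List.getD_eq_getElem _ _ hj]
      · congr 2; ring
      · intro i hi hij
        rw [switch_periodic (Finset.mem_range.1 hi) k htk, prof_zero, zero_smul]
        rcases lt_or_gt_of_ne hij with hlt | hlt
        · have : (i : ℝ) + 1 ≤ j := by exact_mod_cast hlt
          rw [abs_of_nonneg (by linarith)]; linarith
        · have : (j : ℝ) + 1 ≤ i := by exact_mod_cast hlt
          rw [abs_of_nonpos (by linarith)]; linarith
      · intro hn'; exact absurd (Finset.mem_range.2 hj) hn'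
      · intro i hi
        rw [switch_plain, prof_zero, zero_smul]
        have h1 : (i : ℝ) + 1 ≤ 3 := by
          exact_mod_cast lt_of_lt_of_le (Finset.mem_range.1 hi) h.loadLen
        have hk0 : (0 : ℝ) ≤ k := Nat.cast_nonneg k
        rw [abs_of_nonneg (by linarith)]; linarith)
  have e1 : (k : ℝ) + ((Ps.length : ℝ) / 4 + 1 - 1) / (5 * Ps.length / 2) = k + 1 / 10 := by
    field_simp; ring
  have e2 : (k : ℝ) + ((Ps.length : ℝ) / 4 + 1 + 2 * Ps.length - 1) / (5 * Ps.length / 2)
      = k + 9 / 10 := by field_simp; ring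
  rw [e1, e2] at this
  exact this.trans (quiet_seg h hQ k (by linarith) (Or.inr ⟨le_rfl, le_rfl⟩))

end Vale.Agent.P113
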