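import Vale.Agent.P113.Rules

/-! The two-stack machine simulates the Turing machine. -/

noncomputable section

namespace Vale.Agent.P113

/-- A configuration of the two-stack machine, with the stacks split at their markers. -/
inductive RCfg : Type
  | main (p : ℕ) (L R H : List ℕ)
  | sa (p j : ℕ) (La L0 Rr H : List ℕ)
  | sb (j : ℕ) (La L0 Rr H : List ℕ)

/-- The right stack. -/
def RCfg.encR (c : MCode) : RCfg → List ℕ
  | RCfg.main p _ R H => stM c p :: (R ++ sp' c :: H)
  | RCfg.sa p j _ _ Rr H => stA c p j :: (Rr ++ sp' c :: H)
  | RCfg.sb j _ _ Rr H => stB c j :: (Rr ++ sp' c :: H)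

/-- The left stack. -/
def RCfg.encL (c : MCode) : RCfg → List ℕ
  | RCfg.main _ L _ _ => L
  | RCfg.sa _ _ La L0 _ _ => La ++ mk' c :: L0
  | RCfg.sb _ La L0 _ _ => La ++ mk' c :: L0

/-- The top of the right stack, above the separator. -/
def rTop (c : MCode) (R : List ℕ) : ℕ := R.headD (cK c + 1)

/-- One step. -/
def RCfg.step (c : MCode) : RCfg → RCfg
  | RCfg.main p L R H =>
      let o := cTr c (cState c p) (cRead c (rTop c R))
      RCfg.sa p (cLabel c (cState c p) (rTop c R) (L.headD 0)) []
        ((bif o.2.1 == 0 then [] else bif o.2.1 == 1 then [L.headD 0] else [o.1, L.headD 0]) ++ L.tail)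
        ((bif o.2.1 == 0 then [L.headD 0, o.1] else bif o.2.1 == 1 then [o.1] else []) ++ R.tail) H
  | RCfg.sa p j La L0 [] H => RCfg.sb j La L0 [] (hist c p :: H)
  | RCfg.sa p j La L0 (a :: Rr) H => RCfg.sa p j (a :: La) L0 Rr H
  | RCfg.sb j [] L0 Rr H => RCfg.main (j + 1) L0 Rr H
  | RCfg.sb j (a :: La) L0 Rr H => RCfg.sb j La L0 (a :: Rr) H

/-- The configuration is in range. -/
def RCfg.Valid (c : MCode) : RCfg → Prop
  | RCfg.main p L R H => p < cJ c + 1 ∧ (∀ a ∈ L ++ R, a ≤ cK c) ∧ ∀ a ∈ H, a ≤ cK c + 3 + cJ c
  | RCfg.sa p j La L0 Rr H => p < cJ c + 1 ∧ j < cJ c ∧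
      (∀ a ∈ La ++ (L0 ++ Rr), a ≤ cK c) ∧ ∀ a ∈ H, a ≤ cK c + 3 + cJ c
  | RCfg.sb j La L0 Rr H => j < cJ c ∧
      (∀ a ∈ La ++ (L0 ++ Rr), a ≤ cK c) ∧ ∀ a ∈ H, a ≤ cK c + 3 + cJ c

lemma rTop_lt {c : MCode} {R : List ℕ} (h : ∀ a ∈ R, a ≤ cK c) : rTop c R < cK c + 2 := by
  cases R with
  | nil => simp [rTop]
  | cons a R => have := h a (by simp); simp [rTop]; omega

lemma headD_le {c : MCode} {L : List ℕ} (h : ∀ a ∈ L, a ≤ cK c) : L.headD 0 ≤ cK c := by
  cases L with
  | nil => simp
  | cons a L => simpa using h a (by simp)

lemma RCfg.Valid.step {c : MCode} : ∀ {C : RCfg}, C.Valid c → (C.step c).Valid c := by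
  intro C h
  cases C with
  | main p L R H =>
      obtain ⟨hp, hLR, hH⟩ := h
      have hl := headD_le (c := c) fun a ha => hLR a (List.mem_append_left _ ha)
      have hr := rTop_lt (c := c) fun a ha => hLR a (List.mem_append_right _ ha)
      have ho := (cTr_le c (cState c p) (cRead c (rTop c R))).1
      refine ⟨hp, cLabel_lt (cState_le c p) hr (by omega), ?_, hH⟩
      intro a ha
      simp only [List.nil_append, List.mem_append] at ha
      rcases ha with (ha | ha) | ha | ha
      · rcases h0 : ((cTr c (cState c p) (cRead c (rTop c R))).2.1 == 0) with _ | _ <;>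
          rcases h1 : ((cTr c (cState c p) (cRead c (rTop c R))).2.1 == 1) with _ | _ <;>
          simp only [h0, h1, cond_true, cond_false, List.mem_cons, List.not_mem_nil, or_false] at ha <;>
          (try (rcases ha with rfl | rfl)) <;> (try subst ha) <;> omega
      · exact hLR a (List.mem_append_left _ (List.mem_of_mem_tail ha))
      · rcases h0 : ((cTr c (cState c p) (cRead c (rTop c R))).2.1 == 0) with _ | _ <;>
          rcases h1 : ((cTr c (cState c p) (cRead c (rTop c R))).2.1 == 1) with _ | _ <;>
          simp only [h0, h1, cond_true, cond_false, List.mem_cons, List.not_mem_nil, or_false] at ha <;>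
          (try (rcases ha with rfl | rfl)) <;> (try subst ha) <;> omega
      · exact hLR a (List.mem_append_right _ (List.mem_of_mem_tail ha))
  | sa p j La L0 Rr H =>
      obtain ⟨hp, hj, h1, h2⟩ := h
      cases Rr with
      | nil =>
          refine ⟨hj, h1, fun a ha => ?_⟩
          rcases List.mem_cons.1 ha with rfl | ha
          · simp only [hist]; omega
          · exact h2 a ha
      | cons b Rr =>
          refine ⟨hp, hj, fun a ha => h1 a ?_, h2⟩
          simp only [List.mem_append, List.mem_cons] at ha ⊢
          tauto
  | sb j La L0 Rr H =>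
      obtain ⟨hj, h1, h2⟩ := h
      cases La with
      | nil => exact ⟨by omega, fun a ha => h1 a (by simpa using ha), h2⟩
      | cons b La =>
          refine ⟨hj, fun a ha => h1 a ?_, h2⟩
          simp only [List.mem_append, List.mem_cons] at ha ⊢
          tauto

lemma sym_bound (c : MCode) {a : ℕ} (ha : a ≤ cK c + 3 + cJ c) : 2 * a + 3 ≤ cBase c := by
  have hS : cJ c + 1 + (cJ c + 1) * cJ c + cJ c + (cK c + 3 + (cJ c + 1)) = cS c := rfl
  unfold cBase; omega

lemma RCfg.Valid.digs {c : MCode} : ∀ {C : RCfg}, C.Valid c →
    Digs (cBase c) (C.encR c) ∧ Digs (cBase c) (C.encL c) := by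
  intro C h
  have hS : cJ c + 1 + (cJ c + 1) * cJ c + cJ c + (cK c + 3 + (cJ c + 1)) = cS c := rfl
  cases C with
  | main p L R H =>
      obtain ⟨hp, h1, h2⟩ := h
      have := stM_val c p
      refine ⟨fun a ha => ?_, fun a ha => sym_bound c (by
        have := h1 a (List.mem_append_left _ ha); omega)⟩
      simp only [RCfg.encR, List.mem_cons, List.mem_append] at ha
      rcases ha with rfl | ha | rfl | ha
      · unfold cBase; omega
      · exact sym_bound c (by have := h1 a (List.mem_append_right _ ha); omega)
      · exact sym_bound c (by simp only [sp']; omega)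
      · exact sym_bound c (h2 a ha)
  | sa p j La L0 Rr H =>
      obtain ⟨hp, hj, h1, h2⟩ := h
      have := stA_lt hp hj
      refine ⟨fun a ha => ?_, fun a ha => ?_⟩
      · simp only [RCfg.encR, List.mem_cons, List.mem_append] at ha
        rcases ha with rfl | ha | rfl | ha
        · unfold cBase; omega
        · exact sym_bound c (by have := h1 a (by simp [ha]); omega)
        · exact sym_bound c (by simp only [sp']; omega)
        · exact sym_bound c (h2 a ha)
      · simp only [RCfg.encL, List.mem_cons, List.mem_append] at ha
        rcases ha with ha | rfl | ha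
        · exact sym_bound c (by have := h1 a (by simp [ha]); omega)
        · exact sym_bound c (by simp only [mk']; omega)
        · exact sym_bound c (by have := h1 a (by simp [ha]); omega)
  | sb j La L0 Rr H =>
      obtain ⟨hj, h1, h2⟩ := h
      refine ⟨fun a ha => ?_, fun a ha => ?_⟩
      · simp only [RCfg.encR, List.mem_cons, List.mem_append] at ha
        rcases ha with rfl | ha | rfl | ha
        · unfold cBase stB; omega
        · exact sym_bound c (by have := h1 a (by simp [ha]); omega)
        · exact sym_bound c (by simp only [sp']; omega)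
        · exact sym_bound c (h2 a ha)
      · simp only [RCfg.encL, List.mem_cons, List.mem_append] at ha
        rcases ha with ha | rfl | ha
        · exact sym_bound c (by have := h1 a (by simp [ha]); omega)
        · exact sym_bound c (by simp only [mk']; omega)
        · exact sym_bound c (by have := h1 a (by simp [ha]); omega)

lemma xi_cons_head {B : ℕ} (hB : 3 ≤ B) (L : List ℕ) :
    xi B L = xi B (L.headD 0 :: L.tail) := by
  cases L with
  | nil => exact xi_nil hB
  | cons a L => rfl

lemma base_three (c : MCode) : 3 ≤ cBase c := by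
  unfold cBase cS; omega

/-- Every configuration in range is moved by one of the rules. -/
lemma rule_match {c : MCode} : ∀ {C : RCfg}, C.Valid c → ∃ b ∈ rules c, ∃ tR tL : List ℕ,
    C.encR c = b.1 ++ tR ∧ xi (cBase c) (C.encL c) = xi (cBase c) (b.2.1 ++ tL) ∧
    Digs (cBase c) (b.2.1 ++ tL) ∧
    (C.step c).encR c = b.2.2.1 ++ tR ∧ (C.step c).encL c = b.2.2.2 ++ tL := by
  intro C h
  have hd := h.digs
  cases C with
  | main p L R H =>
      obtain ⟨hp, hLR, hH⟩ := h
      have hl := headD_le (c := c) fun a ha => hLR a (List.mem_append_left _ ha)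
      have hr := rTop_lt (c := c) fun a ha => hLR a (List.mem_append_right _ ha)
      have hdl : Digs (cBase c) (L.headD 0 :: L.tail) := fun a ha => by
        rcases List.mem_cons.1 ha with rfl | ha
        · exact sym_bound c (by omega)
        · exact hd.2 a (List.mem_of_mem_tail ha)
      cases R with
      | nil =>
          refine ⟨rule1 c (p, cK c + 1, L.headD 0), ?_, H, L.tail, ?_, xi_cons_head (base_three c) L,
            hdl, ?_, ?_⟩
          · simp only [rules, List.mem_append, List.mem_map]
            exact Or.inl ⟨_, mem_triples.2 ⟨hp, by simp, by simpa using Nat.lt_succ_of_le hl⟩, rfl⟩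
          all_goals simp [RCfg.encR, RCfg.encL, RCfg.step, rule1, rTop, topSym]
      | cons a R =>
          have ha : a ≤ cK c := hLR a (by simp)
          have hne : (a == cK c + 1) = false := beq_false_of_ne (by omega)
          refine ⟨rule1 c (p, a, L.headD 0), ?_, R ++ sp' c :: H, L.tail, ?_,
            xi_cons_head (base_three c) L, hdl, ?_, ?_⟩
          · simp only [rules, List.mem_append, List.mem_map]
            exact Or.inl ⟨_, mem_triples.2 ⟨hp, by simp; omega,
              by simpa using Nat.lt_succ_of_le hl⟩, rfl⟩
          all_goals simp [RCfg.encR, RCfg.encL, RCfg.step, rule1, rTop, topSym, hne]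
  | sa p j La L0 Rr H =>
      obtain ⟨hp, hj, h1, h2⟩ := h
      cases Rr with
      | nil =>
          refine ⟨rule3 c (p, j), ?_, H, La ++ mk' c :: L0, ?_, rfl, hd.2, ?_, ?_⟩
          · simp only [rules, List.mem_append, List.mem_map]
            exact Or.inr (Or.inr (Or.inl ⟨_, mem_pairs.2 ⟨hp, hj⟩, rfl⟩))
          all_goals simp [RCfg.encR, RCfg.encL, RCfg.step, rule3]
      | cons a Rr =>
          refine ⟨rule2 c (p, j, a), ?_, Rr ++ sp' c :: H, La ++ mk' c :: L0, ?_, rfl, hd.2, ?_, ?_⟩
          · simp only [rules, List.mem_append, List.mem_map]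
            refine Or.inr (Or.inl ⟨_, mem_triples.2 ⟨hp, hj, ?_⟩, rfl⟩)
            have := h1 a (by simp)
            simp; omega
          all_goals simp [RCfg.encR, RCfg.encL, RCfg.step, rule2]
  | sb j La L0 Rr H =>
      obtain ⟨hj, h1, h2⟩ := h
      cases La with
      | nil =>
          refine ⟨rule5 c j, ?_, Rr ++ sp' c :: H, L0, ?_, rfl, hd.2, ?_, ?_⟩
          · simp only [rules, List.mem_append, List.mem_map]
            exact Or.inr (Or.inr (Or.inr (Or.inr ⟨_, List.mem_range.2 hj, rfl⟩)))
          all_goals simp [RCfg.encR, RCfg.encL, RCfg.step, rule5]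
      | cons a La =>
          refine ⟨rule4 c (j, a), ?_, Rr ++ sp' c :: H, La ++ mk' c :: L0, ?_, rfl, hd.2, ?_, ?_⟩
          · simp only [rules, List.mem_append, List.mem_map]
            refine Or.inr (Or.inr (Or.inr (Or.inl ⟨_, mem_pairs.2 ⟨hj, ?_⟩, rfl⟩)))
            have := h1 a (by simp)
            simp; omega
          all_goals simp [RCfg.encR, RCfg.encL, RCfg.step, rule4]

/-! ### Relation to the Turing machine -/

lemma code_K (M : Machine) : cK M.code = M.nsym := rfl

lemma code_Q (M : Machine) : cQ M.code = M.nst := rfl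

lemma code_halt (M : Machine) (q : Fin (M.nst + 1)) : cHalt M.code q.val = M.halting q := by
  simp only [cHalt, Machine.code, List.getD_eq_getElem?_getD, List.getElem?_ofFn]
  rw [dif_pos q.isLt]
  rfl

lemma code_entry (M : Machine) (q : Fin (M.nst + 1)) (s : Fin (M.nsym + 1)) :
    cEntry M.code q.val s.val = (M.tr q s).map fun r => (r.1.val, r.2.1.num, r.2.2.val) := by
  simp only [cEntry, Machine.code, List.getD_eq_getElem?_getD, List.getElem?_ofFn]
  rw [dif_pos q.isLt]
  simp only [Option.getD_some, List.getElem?_ofFn]
  rw [dif_pos s.isLt]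
  rfl

/-- The displacement coded by a number. -/
def numShift (d : ℕ) : ℤ := bif d == 0 then -1 else bif d == 1 then 0 else 1

lemma next_spec (M : Machine) (cf : Cfg M) :
    ((next M cf).state.val = (cTr M.code cf.state.val (cf.tape cf.head).val).2.2) ∧
    (∀ i, ((next M cf).tape i).val = if i = cf.head
      then (cTr M.code cf.state.val (cf.tape cf.head).val).1 else (cf.tape i).val) ∧
    (next M cf).head = cf.head + numShift (cTr M.code cf.state.val (cf.tape cf.head).val).2.1 := by
  have hs := (cf.tape cf.head).isLt
  have hq := cf.state.isLt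
  rcases hh : M.halting cf.state with _ | _
  · rcases he : M.tr cf.state (cf.tape cf.head) with _ | ⟨a, d, q⟩
    · have e : cTr M.code cf.state.val (cf.tape cf.head).val
          = ((cf.tape cf.head).val, 1, cf.state.val) := by
        simp [cTr, code_halt, code_entry, hh, he, code_K, code_Q]
        exact ⟨by omega, by omega⟩
      rw [e]
      simp [next, hh, he, numShift]
    · have e : cTr M.code cf.state.val (cf.tape cf.head).val = (a.val, d.num, q.val) := by
        have := a.isLt
        have := q.isLt
        simp [cTr, code_halt, code_entry, hh, he, code_K, code_Q]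
        exact ⟨by omega, by omega⟩
      rw [e]
      refine ⟨by simp [next, hh, he], fun i => ?_, ?_⟩
      · by_cases hi : i = cf.head <;> simp [next, hh, he, hi]
      · cases d <;> simp [next, hh, he, numShift, Dir.num, Dir.shift]
  · have e : cTr M.code cf.state.val (cf.tape cf.head).val
        = ((cf.tape cf.head).val, 1, cf.state.val) := by
      simp [cTr, code_halt, hh, code_K, code_Q]
      exact ⟨by omega, by omega⟩
    rw [e]
    simp [next, hh, numShift]

/-- The two halves of a tape, read from the head. -/
def TapeRel (M : Machine) (cf : Cfg M) (q : ℕ) (L R : List ℕ) : Prop :=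
  cf.state.val = q ∧ ∀ i : ℕ, (cf.tape (cf.head + i)).val = R.getD i 0 ∧
    (cf.tape (cf.head - 1 - i)).val = L.getD i 0

/-- The relation between configurations. -/
def Rel (M : Machine) : RCfg → Cfg M → Prop
  | RCfg.main p L R _, cf => TapeRel M cf (cState M.code p) L R
  | RCfg.sa _ j La L0 Rr _, cf => TapeRel M cf (cState M.code (j + 1)) L0 (La.reverse ++ Rr)
  | RCfg.sb j La L0 Rr _, cf => TapeRel M cf (cState M.code (j + 1)) L0 (La.reverse ++ Rr)

/-- The configuration is a main one in a halting state. -/
def RCfg.halted (c : MCode) : RCfg → Bool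
  | RCfg.main p _ _ _ => cHalt c (cState c p)
  | _ => false

lemma cons_head_tail (L : List ℕ) (i : ℕ) :
    (L.headD 0 :: L.tail).getD i 0 = L.getD i 0 := by
  cases L with
  | nil => cases i <;> simp
  | cons a L => simp

lemma rTop_read (c : MCode) (R : List ℕ) (h : ∀ a ∈ R, a ≤ cK c) :
    cRead c (rTop c R) = R.getD 0 0 := by
  cases R with
  | nil => simp [cRead, rTop]
  | cons a R =>
      have := h a (by simp)
      simp only [cRead, rTop, List.headD_cons, List.getD_cons_zero]
      rw [beq_false_of_ne (by omega), cond_false]

lemma getD_tail (R : List ℕ) (i : ℕ) : R.tail.getD i 0 = R.getD (i + 1) 0 := by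
  cases R <;> simp

lemma rel_step_main {M : Machine} {p : ℕ} {L R H : List ℕ} {cf : Cfg M}
    (hv : (RCfg.main p L R H).Valid M.code) (h : Rel M (RCfg.main p L R H) cf) :
    Rel M ((RCfg.main p L R H).step M.code) (next M cf) := by
  obtain ⟨hp, hLR, -⟩ := hv
  obtain ⟨hq, ht⟩ := h
  have hl := headD_le (c := M.code) fun a ha => hLR a (List.mem_append_left _ ha)
  have hr := rTop_lt (c := M.code) fun a ha => hLR a (List.mem_append_right _ ha)
  have hread := rTop_read M.code R fun a ha => hLR a (List.mem_append_right _ ha)
  have h00 := (ht 0).1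
  simp only [Nat.cast_zero, add_zero] at h00
  obtain ⟨e1, e2, e3⟩ := next_spec M cf
  rw [hq, h00, ← hread] at e1 e2 e3
  simp only [RCfg.step, Rel, List.reverse_nil, List.nil_append]
  refine ⟨?_, fun i => ?_⟩
  · obtain ⟨a, b⟩ := cLabel_div (c := M.code) (q := cState M.code p) hr
      (show L.headD 0 < cK M.code + 1 by omega)
    rw [e1, show ∀ j, cState M.code (j + 1) = cAfter M.code j from fun j => rfl, cAfter, a, b]
  · generalize cTr M.code (cState M.code p) (cRead M.code (rTop M.code R)) = o at e1 e2 e3
    have eR : ∀ k : ℕ, (cf.tape (cf.head + k)).val = R.getD k 0 := fun k => (ht k).1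
    have eL : ∀ k : ℕ, (cf.tape (cf.head - 1 - k)).val = L.getD k 0 := fun k => (ht k).2
    rw [e3, e2, e2]
    by_cases d0 : o.2.1 = 0
    · simp only [d0, numShift, beq_self_eq_true, cond_true, List.nil_append]
      constructor
      · rcases i with _ | _ | i
        · rw [if_neg (by omega)]
          simp only [List.cons_append, List.getD_cons_zero]
          rw [show L.headD 0 = L.getD 0 0 by cases L <;> simp, ← eL 0]
          congr 2

        · rw [if_pos (by push_cast; ring)]; simp
        · rw [if_neg (by push_cast; omega)]
          simp only [List.cons_append, List.getD_cons_succ, List.nil_append, getD_tail]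
          rw [← eR (i + 1)]
          congr 2; push_cast; ring
      · rw [if_neg (by omega), getD_tail, ← eL (i + 1)]
        congr 2; push_cast; ring
    · by_cases d1 : o.2.1 = 1
      · simp only [d1, numShift, show ((1 : ℕ) == 0) = false from rfl, beq_self_eq_true, cond_true,
          cond_false, add_zero]
        constructor
        · rcases i with _ | i
          · simp
          · rw [if_neg (by push_cast; omega)]
            simp only [List.cons_append, List.getD_cons_succ, List.nil_append, getD_tail]
            exact eR (i + 1)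
        · rw [if_neg (by omega), List.singleton_append, cons_head_tail]
          exact eL i
      · simp only [numShift, beq_false_of_ne d0, beq_false_of_ne d1, cond_false, List.nil_append]
        constructor
        · rw [if_neg (by omega), getD_tail, ← eR (i + 1)]
          congr 2; push_cast; ring
        · rcases i with _ | i
          · rw [if_pos (by simp)]; simp
          · rw [if_neg (by push_cast; omega)]
            simp only [List.cons_append, List.getD_cons_succ, List.nil_append]
            rw [cons_head_tail, ← eL i]
            congr 2; push_cast; ring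

/-- The configuration simulates some configuration of the machine on the input. -/
lemma rel_step {M : Machine} {C : RCfg} {cf : Cfg M} (hv : C.Valid M.code) (h : Rel M C cf) :
    Rel M (C.step M.code) cf ∨ Rel M (C.step M.code) (next M cf) := by
  cases C with
  | main p L R H => exact Or.inr (rel_step_main hv h)
  | sa p j La L0 Rr H =>
      left
      cases Rr with
      | nil => exact h
      | cons a Rr => simpa [RCfg.step, Rel] using h
  | sb j La L0 Rr H =>
      left
      cases La with
      | nil => simpa [RCfg.step, Rel] using h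
      | cons a La => simpa [RCfg.step, Rel] using h

lemma flush_sb (M : Machine) {cf : Cfg M} : ∀ (La : List ℕ) (j : ℕ) (L0 Rr H : List ℕ),
    Rel M (RCfg.sb j La L0 Rr H) cf → ∃ k p L R H', (RCfg.step M.code)^[k] (RCfg.sb j La L0 Rr H)
      = RCfg.main p L R H' ∧ Rel M (RCfg.main p L R H') cf := by
  intro La
  induction La with
  | nil =>
      intro j L0 Rr H h
      exact ⟨1, j + 1, L0, Rr, H, rfl, by simpa [Rel] using h⟩
  | cons a La ih =>
      intro j L0 Rr H h
      obtain ⟨k, p, L, R, H', e, e'⟩ := ih j L0 (a :: Rr) H (by simpa [Rel] using h)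
      exact ⟨k + 1, p, L, R, H', by rw [Function.iterate_succ_apply]; exact e, e'⟩

lemma flush_sa (M : Machine) {cf : Cfg M} : ∀ (Rr : List ℕ) (p j : ℕ) (La L0 H : List ℕ),
    Rel M (RCfg.sa p j La L0 Rr H) cf → ∃ k p' L R H', (RCfg.step M.code)^[k] (RCfg.sa p j La L0 Rr H)
      = RCfg.main p' L R H' ∧ Rel M (RCfg.main p' L R H') cf := by
  intro Rr
  induction Rr with
  | nil =>
      intro p j La L0 H h
      obtain ⟨k, p', L, R, H', e, e'⟩ := flush_sb M La j L0 [] (hist M.code p :: H) h
      exact ⟨k + 1, p', L, R, H', by rw [Function.iterate_succ_apply]; exact e, e'⟩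
  | cons a Rr ih =>
      intro p j La L0 H h
      obtain ⟨k, p', L, R, H', e, e'⟩ := ih p j (a :: La) L0 H (by simpa [Rel] using h)
      exact ⟨k + 1, p', L, R, H', by rw [Function.iterate_succ_apply]; exact e, e'⟩

/-- The start. -/
def startCfg (w : List ℕ) : RCfg := RCfg.main 0 [] w []

lemma valid_iterate {M : Machine} (w : List (Fin (M.nsym + 1))) (k : ℕ) :
    ((RCfg.step M.code)^[k] (startCfg (wordCode w))).Valid M.code := by
  induction k with
  | zero =>
      refine ⟨by omega, fun a ha => ?_, fun a ha => absurd ha List.not_mem_nil⟩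
      simp only [List.nil_append, wordCode, List.mem_map] at ha
      obtain ⟨s, -, rfl⟩ := ha
      have := s.isLt
      rw [code_K]; omega
  | succ k ih => rw [Function.iterate_succ_apply']; exact ih.step

lemma rel_start {M : Machine} (w : List (Fin (M.nsym + 1))) :
    Rel M (startCfg (wordCode w)) (initCfg M w) := by
  refine ⟨?_, fun i => ⟨?_, ?_⟩⟩
  · have hq := M.start.isLt
    simp [cState, initCfg, cStart, cQ, Machine.code]
    omega
  · simp only [initCfg, zero_add, Int.natCast_nonneg, if_true, Int.toNat_natCast, wordCode]
    simp only [List.getD_eq_getElem?_getD, List.getElem?_map]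
    cases w[i]? <;> simp
  · simp only [initCfg]
    rw [if_neg (by omega)]
    simp

/-- A halting main configuration occurs exactly when the machine halts. -/
theorem halted_iff {M : Machine} (w : List (Fin (M.nsym + 1))) :
    ((∃ k, ((RCfg.step M.code)^[k] (startCfg (wordCode w))).halted M.code = true) → Halts M w) ∧
    (Halts M w →
      ∃ k, ((RCfg.step M.code)^[k + 1] (startCfg (wordCode w))).halted M.code = true) := by
  constructor
  · rintro ⟨k, hk⟩
    have hall : ∀ k, ∃ n, Rel M ((RCfg.step M.code)^[k] (startCfg (wordCode w)))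
        ((next M)^[n] (initCfg M w)) := by
      intro k
      induction k with
      | zero => exact ⟨0, rel_start w⟩
      | succ k ih =>
          obtain ⟨n, hn⟩ := ih
          rw [Function.iterate_succ_apply']
          rcases rel_step (valid_iterate w k) hn with h | h
          · exact ⟨n, h⟩
          · exact ⟨n + 1, by rw [Function.iterate_succ_apply']; exact h⟩
    obtain ⟨n, hn⟩ := hall k
    generalize (RCfg.step M.code)^[k] (startCfg (wordCode w)) = C at hk hn
    cases C with
    | main p L R H =>
        refine ⟨n, ?_⟩
        rw [← code_halt, hn.1]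
        exact hk
    | sa p j La L0 Rr H => simp [RCfg.halted] at hk
    | sb j La L0 Rr H => simp [RCfg.halted] at hk
  · rintro ⟨n, hn⟩
    have hall : ∀ n, ∃ k p L R H, (RCfg.step M.code)^[k] (startCfg (wordCode w))
        = RCfg.main p L R H ∧ Rel M (RCfg.main p L R H) ((next M)^[n] (initCfg M w)) := by
      intro n
      induction n with
      | zero => exact ⟨0, 0, [], wordCode w, [], rfl, rel_start w⟩
      | succ n ih =>
          obtain ⟨k, p, L, R, H, e, h⟩ := ih
          have hv := valid_iterate w k
          rw [e] at hv
          have h' := rel_step_main hv h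
          obtain ⟨k', p', L', R', H', e', e''⟩ := flush_sa M _ _ _ _ _ _ h'
          refine ⟨k' + (k + 1), p', L', R', H', ?_, ?_⟩
          · rw [Function.iterate_add_apply, Function.iterate_succ_apply', e]; exact e'
          · rw [Function.iterate_succ_apply']; exact e''
    obtain ⟨k, p, L, R, H, e, h⟩ := hall n
    have hv := valid_iterate w k
    rw [e] at hv
    obtain ⟨k', p', L', R', H', e', e''⟩ := flush_sa M _ _ _ _ _ _ (rel_step_main hv h)
    refine ⟨k' + k, ?_⟩
    have he : (RCfg.step M.code)^[k' + k + 1] (startCfg (wordCode w))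
        = RCfg.main p' L' R' H' := by
      rw [add_assoc, Function.iterate_add_apply, Function.iterate_succ_apply', e]
      exact e'
    rw [he]
    show cHalt M.code (cState M.code p') = true
    rw [← e''.1, code_halt]
    simp [next, hn]

end Vale.Agent.P113
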