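import Vale.Agent.P113.BumpFacts

/-! An algebra of admissible term lists: derivatives, products and the force of a velocity. -/

noncomputable section

open Set
open scoped ContDiff

namespace Vale.Agent.P113

/-- The product rule on a list of factors. -/
def dProd {α : Type} (d : α → List (QD × α)) : List α → List (QD × List α)
  | [] => []
  | p :: rest => (d p).map (fun q => (q.1, q.2 :: rest)) ++
      (dProd d rest).map (fun q => (q.1, p :: q.2))

/-- The derivative of a flagged factor. -/
def dFlag (p : Bool × Bump) : List (QD × (Bool × Bump)) :=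
  (dBump p.2).map fun q => (q.1, (p.1, q.2))

abbrev Coef : Type := QD × ℕ × (ℕ × ℕ) × List QD

/-- Multiply a coefficient by a rational. -/
def cScale (q : QD) (c : Coef) : Coef := (qmul q c.1, c.2.1, c.2.2.1, c.2.2.2)

/-- Product of coefficients. -/
def cMul (c d : Coef) : Coef :=
  (qmul c.1 d.1, c.2.1 + d.2.1, (c.2.2.1.1 + d.2.2.1.1, c.2.2.1.2 + d.2.2.1.2), c.2.2.2 ++ d.2.2.2)

/-- Product of terms. -/
def tMul (S T : Term) : Term :=
  (cMul S.1 T.1, S.2.1 ++ T.2.1,
    (S.2.2.1 ++ T.2.2.1, S.2.2.2.1 ++ T.2.2.2.1, S.2.2.2.2 ++ T.2.2.2.2))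

/-- Product of lists of terms. -/
def lMul (A B : List Term) : List Term := A.flatMap fun S => B.map fun T => tMul S T

/-- The time derivative. -/
def dT (L : List Term) : List Term :=
  L.flatMap fun T => (dProd dFlag T.2.1).map fun q => (cScale q.1 T.1, q.2, T.2.2)

/-- The first partial derivative. -/
def d0 (L : List Term) : List Term :=
  L.flatMap fun T => (dProd dBump T.2.2.1).map fun q => (cScale q.1 T.1, T.2.1, (q.2, T.2.2.2))

/-- The second partial derivative. -/
def d1 (L : List Term) : List Term :=
  L.flatMap fun T => (dProd dBump T.2.2.2.1).map fun q =>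
    (cScale q.1 T.1, T.2.1, (T.2.2.1, q.2, T.2.2.2.2))

/-- The third partial derivative. -/
def d2 (L : List Term) : List Term :=
  L.flatMap fun T => (dProd dBump T.2.2.2.2).map fun q =>
    (cScale q.1 T.1, T.2.1, (T.2.2.1, T.2.2.2.1, q.2))

/-- Multiply by minus the viscosity. -/
def negNu (L : List Term) : List Term :=
  L.map fun T => ((qneg T.1.1, T.1.2.1 + 1, T.1.2.2), T.2)

/-- Negation. -/
def lNeg (L : List Term) : List Term :=
  L.map fun T => ((qneg T.1.1, T.1.2), T.2)

/-- One component of the force of a velocity `U`. -/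
def forceComp (U : ForceData) (L : List Term) : List Term :=
  dT L ++ (lMul U.1 (d0 L) ++ (lMul U.2.1 (d1 L) ++ (lMul U.2.2 (d2 L) ++
    negNu (d0 (d0 L) ++ (d1 (d1 L) ++ d2 (d2 L))))))

/-- The force of a velocity with zero pressure. -/
def forceOf (U : ForceData) : ForceData :=
  (forceComp U U.1, forceComp U U.2.1, forceComp U U.2.2)

/-- The value of a list of terms. -/
def lval (ν : ℝ) (L : List Term) (t : ℝ) (x : Pt) : ℝ := (L.map fun T => termVal ν T t x).sum

lemma forceVal_eq (ν : ℝ) (F : ForceData) (t : ℝ) (x : Pt) (i : Fin 3) :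
    forceVal ν F t x i = lval ν (component F i) t x := rfl

@[simp] lemma lval_nil (ν t : ℝ) (x : Pt) : lval ν [] t x = 0 := by simp [lval]

@[simp] lemma lval_cons (ν t : ℝ) (x : Pt) (T : Term) (L : List Term) :
    lval ν (T :: L) t x = termVal ν T t x + lval ν L t x := by simp [lval]

@[simp] lemma lval_append (ν t : ℝ) (x : Pt) (A B : List Term) :
    lval ν (A ++ B) t x = lval ν A t x + lval ν B t x := by simp [lval]

lemma coefVal_eq (ν : ℝ) (c : Coef) : coefVal ν c =
    rv c.1 * ν ^ c.2.1 * kappa ^ zval c.2.2.1 * (c.2.2.2.map fun x => Real.log (rv x)).prod := rfl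

lemma coefVal_scale (ν : ℝ) (q : QD) (c : Coef) :
    coefVal ν (cScale q c) = rv q * coefVal ν c := by
  simp only [coefVal_eq, cScale, rv_qmul]; ring

lemma coefVal_mul (ν : ℝ) (c d : Coef) :
    coefVal ν (cMul c d) = coefVal ν c * coefVal ν d := by
  have hz : zval (c.2.2.1.1 + d.2.2.1.1, c.2.2.1.2 + d.2.2.1.2)
      = zval c.2.2.1 + zval d.2.2.1 := by
    simp only [zval]; push_cast; ring
  simp only [coefVal_eq, cMul, rv_qmul, List.map_append, List.prod_append, pow_add, hz,
    zpow_add₀ kappa_ne]
  ring

lemma termVal_mul (ν : ℝ) (S T : Term) (t : ℝ) (x : Pt) :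
    termVal ν (tMul S T) t x = termVal ν S t x * termVal ν T t x := by
  simp only [termVal, tMul, coefVal_mul, timeVal, spaceVal, List.map_append, List.prod_append]
  ring

lemma lval_mul (ν : ℝ) (A B : List Term) (t : ℝ) (x : Pt) :
    lval ν (lMul A B) t x = lval ν A t x * lval ν B t x := by
  induction A with
  | nil => simp [lMul]
  | cons S A ih =>
      rw [show lMul (S :: A) B = B.map (fun T => tMul S T) ++ lMul A B by simp [lMul]]
      rw [lval_append, ih, lval_cons, add_mul]
      congr 1
      clear ih
      induction B with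
      | nil => simp
      | cons T B ih => simp [termVal_mul, ih, mul_add]

lemma lval_negNu (ν : ℝ) (L : List Term) (t : ℝ) (x : Pt) :
    lval ν (negNu L) t x = -ν * lval ν L t x := by
  induction L with
  | nil => simp [negNu]
  | cons T L ih =>
      have h : termVal ν (((qneg T.1.1, T.1.2.1 + 1, T.1.2.2), T.2) : Term) t x
          = -ν * termVal ν T t x := by
        simp only [termVal, coefVal_eq, rv_qneg, pow_succ]; ring
      rw [show negNu (T :: L) = ((qneg T.1.1, T.1.2.1 + 1, T.1.2.2), T.2) :: negNu L from rfl]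
      rw [lval_cons, lval_cons, ih, h]; ring

lemma lval_neg (ν : ℝ) (L : List Term) (t : ℝ) (x : Pt) :
    lval ν (lNeg L) t x = -lval ν L t x := by
  induction L with
  | nil => simp [lNeg]
  | cons T L ih =>
      have h : termVal ν (((qneg T.1.1, T.1.2), T.2) : Term) t x = -termVal ν T t x := by
        simp only [termVal, coefVal_eq, rv_qneg]; ring
      rw [show lNeg (T :: L) = ((qneg T.1.1, T.1.2), T.2) :: lNeg L from rfl]
      rw [lval_cons, lval_cons, ih, h]; ring

/-! ### Derivatives -/

lemma hasDeriv_dProd {α : Type} (d : α → List (QD × α)) (F : α → ℝ → ℝ) (s : ℝ) :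
    ∀ l : List α, (∀ p ∈ l, HasDerivAt (F p) ((d p).map fun q => rv q.1 * F q.2 s).sum s) →
      HasDerivAt (fun z => (l.map fun p => F p z).prod)
        ((dProd d l).map fun q => rv q.1 * (q.2.map fun p => F p s).prod).sum s := by
  intro l
  induction l with
  | nil => intro _; simpa [dProd] using hasDerivAt_const s (1 : ℝ)
  | cons p rest ih =>
      intro h
      have h1 := h p (by simp)
      have h2 := ih fun q hq => h q (by simp [hq])
      simp only [List.map_cons, List.prod_cons]
      · refine (h1.fun_mul h2).congr_deriv ?_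
        simp only [dProd, List.map_append, List.map_map, List.sum_append, Function.comp_def,
          List.map_cons, List.prod_cons]
        rw [← List.sum_map_mul_right, ← List.sum_map_mul_left]
        congr 2 <;> (apply List.map_congr_left; intro b _; ring)

lemma dProd_mem {α : Type} (d : α → List (QD × α)) (P : α → Prop)
    (hd : ∀ p, P p → ∀ q ∈ d p, P q.2) :
    ∀ l : List α, (∀ p ∈ l, P p) → ∀ q ∈ dProd d l, ∀ p ∈ q.2, P p := by
  intro l
  induction l with
  | nil => intro _ q hq; simp [dProd] at hq
  | cons a rest ih =>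
      intro h q hq p hp
      simp only [dProd, List.mem_append, List.mem_map] at hq
      rcases hq with ⟨r, hr, rfl⟩ | ⟨r, hr, rfl⟩
      · rcases List.mem_cons.1 hp with rfl | hp
        · exact hd a (h a (by simp)) r hr
        · exact h p (by simp [hp])
      · rcases List.mem_cons.1 hp with rfl | hp
        · exact h p (by simp)
        · exact ih (fun z hz => h z (by simp [hz])) r hr p hp

lemma dProd_flags (l : List (Bool × Bump)) :
    ∀ q ∈ dProd dFlag l, (q.2.all fun p => p.1) = l.all fun p => p.1 := by
  induction l with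
  | nil => simp [dProd]
  | cons a rest ih =>
      intro q hq
      simp only [dProd, List.mem_append, List.mem_map, dFlag] at hq
      rcases hq with ⟨r, ⟨b, _, rfl⟩, rfl⟩ | ⟨r, hr, rfl⟩
      · simp
      · simp [ih r hr]

lemma timeFactor_deriv {p : Bool × Bump} (h : bumpOK p.2) (t : ℝ) :
    HasDerivAt (timeFactor p) ((dFlag p).map fun q => rv q.1 * timeFactor q.2 t).sum t := by
  rcases p with ⟨c, B⟩
  cases c
  · refine (bumpFun_deriv B t).congr_deriv ?_ |>.congr_of_eventuallyEq ?_
    · simp [dFlag, timeFactor, List.map_map, Function.comp_def]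
    · exact Filter.Eventually.of_forall fun z => by simp [timeFactor]
  · refine ((bumpFun_nice h).per_deriv t).congr_deriv ?_ |>.congr_of_eventuallyEq ?_
    · simp only [dFlag, timeFactor, if_true, List.map_map, Function.comp_def]
      exact per_dBump h t
    · exact Filter.Eventually.of_forall fun z => by simp [timeFactor]
where
  per_dBump {B : Bump} (h : bumpOK B) (t : ℝ) : per (deriv (bumpFun B)) t
      = ((dBump B).map fun q => rv q.1 * per (bumpFun q.2) t).sum := by
    have key : ∀ l : List (QD × Bump), (∀ q ∈ l, bumpOK q.2) →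
        per (fun s => (l.map fun q => rv q.1 * bumpFun q.2 s).sum) t
          = (l.map fun q => rv q.1 * per (bumpFun q.2) t).sum := by
      intro l hl
      induction l with
      | nil => simp [per]
      | cons q l ih =>
          have hn : Nice (fun s => (l.map fun q => rv q.1 * bumpFun q.2 s).sum) :=
            nice_sum l fun r hr => hl r (by simp [hr])
          have e := per_add (nice_const_mul (rv q.1) (bumpFun_nice (hl q (by simp)))) hn t
          simp only [List.map_cons, List.sum_cons]
          rw [e, ih fun r hr => hl r (by simp [hr]), per, per, tsum_mul_left]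
    rw [show deriv (bumpFun B) = fun s => ((dBump B).map fun q => rv q.1 * bumpFun q.2 s).sum
      from funext fun s => (bumpFun_deriv B s).deriv]
    exact key _ (dBump_ok h)
  nice_const_mul (c : ℝ) {g : ℝ → ℝ} (h : Nice g) : Nice (fun s => c * g s) := by
    obtain ⟨hs, R, hR⟩ := h
    exact ⟨contDiff_const.mul hs, R, fun s hlt => by simp [hR s hlt]⟩
  nice_sum (l : List (QD × Bump)) (hl : ∀ q ∈ l, bumpOK q.2) :
      Nice (fun s => (l.map fun q => rv q.1 * bumpFun q.2 s).sum) := by
    induction l with
    | nil => exact ⟨by simpa using contDiff_const, 0, fun s _ => by simp⟩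
    | cons q l ih =>
        obtain ⟨h1, R1, e1⟩ := nice_const_mul (rv q.1) (bumpFun_nice (hl q (by simp)))
        obtain ⟨h2, R2, e2⟩ := ih fun r hr => hl r (by simp [hr])
        refine ⟨?_, max R1 R2, fun s hs => ?_⟩
        · simpa using h1.add h2
        · have a1 := e1 s (lt_of_le_of_lt (le_max_left _ _) hs)
          have a2 := e2 s (lt_of_le_of_lt (le_max_right _ _) hs)
          simp only [List.map_cons, List.sum_cons] at *
          rw [a1, a2, add_zero]
  per_add {g k : ℝ → ℝ} (hg : Nice g) (hk : Nice k) (t : ℝ) :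
      per (fun s => g s + k s) t = per g t + per k t := by
    obtain ⟨-, R, hR⟩ := hg
    obtain ⟨-, S, hS⟩ := hk
    obtain ⟨N, hN⟩ := exists_nat_gt (|t| + max R S)
    rw [per_eq_sum hR (N := N) (by linarith [le_max_left R S]),
      per_eq_sum hS (N := N) (by linarith [le_max_right R S]),
      per_eq_sum (R := max R S) (N := N) (fun s hs => by
        simp [hR s (lt_of_le_of_lt (le_max_left _ _) hs),
          hS s (lt_of_le_of_lt (le_max_right _ _) hs)]) (by linarith), ← Finset.sum_add_distrib]

lemma spaceFactor_deriv {B : Bump} (h : bumpOK B) (y : ℝ) :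
    HasDerivAt (per (bumpFun B)) ((dBump B).map fun q => rv q.1 * per (bumpFun q.2) y).sum y :=
  ((bumpFun_nice h).per_deriv y).congr_deriv (timeFactor_deriv.per_dBump h y)

lemma timeVal_deriv {θ : List (Bool × Bump)} (h : ∀ p ∈ θ, bumpOK p.2) (t : ℝ) :
    HasDerivAt (timeVal θ) ((dProd dFlag θ).map fun q => rv q.1 * timeVal q.2 t).sum t :=
  hasDeriv_dProd dFlag timeFactor t θ fun p hp => timeFactor_deriv (h p hp) t

lemma spaceVal_deriv {l : List Bump} (h : ∀ g ∈ l, bumpOK g) (y : ℝ) :
    HasDerivAt (spaceVal l) ((dProd dBump l).map fun q => rv q.1 * spaceVal q.2 y).sum y :=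
  hasDeriv_dProd dBump (fun g => per (bumpFun g)) y l fun p hp => spaceFactor_deriv (h p hp) y

lemma timeVal_smooth {θ : List (Bool × Bump)} (h : ∀ p ∈ θ, bumpOK p.2) :
    ContDiff ℝ ∞ (timeVal θ) := by
  induction θ with
  | nil => rw [show timeVal ([] : List (Bool × Bump)) = fun _ => (1 : ℝ) from funext fun z => rfl]
           exact contDiff_const
  | cons p θ ih =>
      have hp : ContDiff ℝ ∞ (timeFactor p) := by
        rcases p with ⟨c, B⟩
        cases c
        · exact bumpFun_smooth B
        · exact (bumpFun_nice (h (true, B) (by simp))).per_smooth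
      exact hp.mul (ih fun q hq => h q (by simp [hq]))

lemma spaceVal_smooth {l : List Bump} (h : ∀ g ∈ l, bumpOK g) : ContDiff ℝ ∞ (spaceVal l) := by
  induction l with
  | nil => rw [show spaceVal ([] : List Bump) = fun _ => (1 : ℝ) from funext fun z => rfl]
           exact contDiff_const
  | cons g l ih =>
      exact (bumpFun_nice (h g (by simp))).per_smooth.mul (ih fun q hq => h q (by simp [hq]))

/-- All terms of a list have allowed parameters. -/
def LOK (L : List Term) : Prop := ∀ T ∈ L, termOK T

lemma LOK.cons {T : Term} {L : List Term} (h : LOK (T :: L)) : termOK T ∧ LOK L :=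
  ⟨h T (by simp), fun S hS => h S (by simp [hS])⟩

lemma LOK.append {A B : List Term} (hA : LOK A) (hB : LOK B) : LOK (A ++ B) := by
  intro T hT
  rcases List.mem_append.1 hT with h | h
  exacts [hA T h, hB T h]

lemma lval_smooth (ν : ℝ) {L : List Term} (h : LOK L) :
    ContDiff ℝ ∞ (fun z : ℝ × Pt => lval ν L z.1 z.2) := by
  induction L with
  | nil => simp; exact contDiff_const
  | cons T L ih =>
      obtain ⟨⟨-, hθ, h0, h1, h2⟩, hL⟩ := h.cons
      simp only [lval_cons]
      refine ContDiff.add ?_ (ih hL)
      have px : ∀ i : Fin 3, ContDiff ℝ ∞ (fun z : ℝ × Pt => z.2 i) := fun i =>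
        (contDiff_apply ℝ ℝ i).comp contDiff_snd
      exact (contDiff_const.mul ((timeVal_smooth hθ).comp contDiff_fst)).mul
        ((((spaceVal_smooth h0).comp (px 0)).mul ((spaceVal_smooth h1).comp (px 1))).mul
          ((spaceVal_smooth h2).comp (px 2)))

lemma lval_map_sum (ν : ℝ) {β : Type} (f : β → Term) (l : List β) (t : ℝ) (x : Pt) :
    lval ν (l.map f) t x = (l.map fun q => termVal ν (f q) t x).sum := by
  simp [lval, List.map_map, Function.comp_def]

lemma lval_dT (ν : ℝ) {L : List Term} (h : LOK L) (t : ℝ) (x : Pt) :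
    HasDerivAt (fun s => lval ν L s x) (lval ν (dT L) t x) t := by
  induction L with
  | nil => simpa [dT] using hasDerivAt_const t (0 : ℝ)
  | cons T L ih =>
      obtain ⟨hT, hL⟩ := h.cons
      rw [show dT (T :: L) = ((dProd dFlag T.2.1).map fun q =>
        ((cScale q.1 T.1, q.2, T.2.2) : Term)) ++ dT L by simp [dT]]
      simp only [lval_cons, lval_append, lval_map_sum]
      refine HasDerivAt.add ?_ (ih hL)
      have := ((timeVal_deriv hT.2.1 t).const_mul (coefVal ν T.1)).mul_const
        (spaceVal T.2.2.1 (x 0) * spaceVal T.2.2.2.1 (x 1) * spaceVal T.2.2.2.2 (x 2))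
      refine this.congr_deriv ?_
      rw [← List.sum_map_mul_left, ← List.sum_map_mul_right]
      simp only [termVal, coefVal_scale]
      congr 1
      apply List.map_congr_left
      intro q _
      ring

lemma lval_d0 (ν : ℝ) {L : List Term} (h : LOK L) (t : ℝ) (x : Pt) :
    HasDerivAt (fun s => lval ν L t (Function.update x 0 s)) (lval ν (d0 L) t x) (x 0) := by
  induction L with
  | nil => simpa [d0] using hasDerivAt_const (x 0) (0 : ℝ)
  | cons T L ih =>
      obtain ⟨hT, hL⟩ := h.cons
      rw [show d0 (T :: L) = ((dProd dBump T.2.2.1).map fun q =>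
        ((cScale q.1 T.1, T.2.1, (q.2, T.2.2.2)) : Term)) ++ d0 L by simp [d0]]
      simp only [lval_cons, lval_append, lval_map_sum]
      refine HasDerivAt.add ?_ (ih hL)
      have := (((spaceVal_deriv hT.2.2.1 (x 0)).mul_const (spaceVal T.2.2.2.1 (x 1))).mul_const
        (spaceVal T.2.2.2.2 (x 2))).const_mul (coefVal ν T.1 * timeVal T.2.1 t)
      refine (this.congr_deriv ?_).congr_of_eventuallyEq
        (Filter.Eventually.of_forall fun s => by simp [termVal])
      rw [← List.sum_map_mul_right, ← List.sum_map_mul_right, ← List.sum_map_mul_left]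
      simp only [termVal, coefVal_scale]
      congr 1
      apply List.map_congr_left
      intro q _
      ring

lemma lval_d1 (ν : ℝ) {L : List Term} (h : LOK L) (t : ℝ) (x : Pt) :
    HasDerivAt (fun s => lval ν L t (Function.update x 1 s)) (lval ν (d1 L) t x) (x 1) := by
  induction L with
  | nil => simpa [d1] using hasDerivAt_const (x 1) (0 : ℝ)
  | cons T L ih =>
      obtain ⟨hT, hL⟩ := h.cons
      rw [show d1 (T :: L) = ((dProd dBump T.2.2.2.1).map fun q =>
        ((cScale q.1 T.1, T.2.1, (T.2.2.1, q.2, T.2.2.2.2)) : Term)) ++ d1 L by simp [d1]]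
      simp only [lval_cons, lval_append, lval_map_sum]
      refine HasDerivAt.add ?_ (ih hL)
      have := (((spaceVal_deriv hT.2.2.2.1 (x 1)).const_mul (spaceVal T.2.2.1 (x 0))).mul_const
        (spaceVal T.2.2.2.2 (x 2))).const_mul (coefVal ν T.1 * timeVal T.2.1 t)
      refine (this.congr_deriv ?_).congr_of_eventuallyEq
        (Filter.Eventually.of_forall fun s => by simp [termVal])
      rw [← List.sum_map_mul_left, ← List.sum_map_mul_right, ← List.sum_map_mul_left]
      simp only [termVal, coefVal_scale]
      congr 1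
      apply List.map_congr_left
      intro q _
      ring

lemma lval_d2 (ν : ℝ) {L : List Term} (h : LOK L) (t : ℝ) (x : Pt) :
    HasDerivAt (fun s => lval ν L t (Function.update x 2 s)) (lval ν (d2 L) t x) (x 2) := by
  induction L with
  | nil => simpa [d2] using hasDerivAt_const (x 2) (0 : ℝ)
  | cons T L ih =>
      obtain ⟨hT, hL⟩ := h.cons
      rw [show d2 (T :: L) = ((dProd dBump T.2.2.2.2).map fun q =>
        ((cScale q.1 T.1, T.2.1, (T.2.2.1, T.2.2.2.1, q.2)) : Term)) ++ d2 L by simp [d2]]
      simp only [lval_cons, lval_append, lval_map_sum]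
      refine HasDerivAt.add ?_ (ih hL)
      have := ((spaceVal_deriv hT.2.2.2.2 (x 2)).const_mul
        (spaceVal T.2.2.1 (x 0) * spaceVal T.2.2.2.1 (x 1))).const_mul
          (coefVal ν T.1 * timeVal T.2.1 t)
      refine (this.congr_deriv ?_).congr_of_eventuallyEq
        (Filter.Eventually.of_forall fun s => by simp [termVal])
      rw [← List.sum_map_mul_left, ← List.sum_map_mul_left]
      simp only [termVal, coefVal_scale]
      congr 1
      apply List.map_congr_left
      intro q _
      ring

/-- The partial derivative on lists. -/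
def dX : Fin 3 → List Term → List Term := ![d0, d1, d2]

lemma pd_lval (ν : ℝ) {L : List Term} (h : LOK L) (t : ℝ) (i : Fin 3) :
    pd i (fun y => lval ν L t y) = fun y => lval ν (dX i L) t y := by
  funext x
  fin_cases i
  · exact (lval_d0 ν h t x).deriv
  · exact (lval_d1 ν h t x).deriv
  · exact (lval_d2 ν h t x).deriv

lemma lval_periodic (ν : ℝ) (L : List Term) (t : ℝ) (x : Pt) (n : Fin 3 → ℤ) :
    lval ν L t (fun i => x i + n i) = lval ν L t x := by
  unfold lval
  congr 1
  apply List.map_congr_left
  intro T _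
  simp only [termVal, spaceVal, per_shift]

/-! ### Preserved properties -/

/-- A bump vanishing for arguments at least one. -/
def lateB : Bump → Prop
  | Sum.inl (_, _, a, b) => 0 < rv a ∧ rv b + 1 ≤ rv a
  | Sum.inr (_, l, a, b) => 0 < rv a ∧ 0 ≤ rv l ∧ rv b + rv l + 1 ≤ rv a

lemma lateB_dBump {B : Bump} (h : lateB B) : ∀ q ∈ dBump B, lateB q.2 := by
  rcases B with ⟨k, j, a, b⟩ | ⟨k, l, a, b⟩
  · simp_all [dBump, lateB]
  · obtain ⟨h1, h2, h3⟩ := h
    simp only [dBump, List.mem_cons, List.not_mem_nil, or_false]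
    rintro q (rfl | rfl | rfl) <;> simp only [lateB, rv_qadd] <;>
      first
        | exact ⟨h1, h2, h3⟩
        | exact ⟨h1, by linarith⟩

lemma lateB_zero {B : Bump} (h : lateB B) {t : ℝ} (ht : 1 ≤ t) : bumpFun B t = 0 := by
  rcases B with ⟨k, j, a, b⟩ | ⟨k, l, a, b⟩
  · obtain ⟨h1, h2⟩ := h
    simp only [rv] at h1 h2
    have : (1 : ℝ) ≤ (qval a : ℝ) * t - (qval b : ℝ) := by nlinarith
    simp [bumpFun, iterDeriv_rho_zero j (this.trans (le_abs_self _))]
  · obtain ⟨h1, h2, h3⟩ := h
    simp only [rv] at h1 h2 h3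
    simp [bumpFun, piFun_high h2 (show (qval l : ℝ) + 1 ≤ (qval a : ℝ) * t - (qval b : ℝ) by
      nlinarith)]

/-- Allowed parameters, and every factor that is not periodized vanishes from time one on. -/
def Good (T : Term) : Prop := termOK T ∧ ∀ p ∈ T.2.1, p.1 = false → lateB p.2

/-- All members are good. -/
def LGood (L : List Term) : Prop := ∀ T ∈ L, Good T

lemma LGood.lok {L : List Term} (h : LGood L) : LOK L := fun T hT => (h T hT).1

lemma LGood.append {A B : List Term} (hA : LGood A) (hB : LGood B) : LGood (A ++ B) := by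
  intro T hT
  rcases List.mem_append.1 hT with h | h
  exacts [hA T h, hB T h]

lemma LGood.dT {L : List Term} (h : LGood L) : LGood (dT L) := by
  intro T hT
  simp only [Vale.Agent.P113.dT, List.mem_flatMap, List.mem_map] at hT
  obtain ⟨S, hS, q, hq, rfl⟩ := hT
  obtain ⟨⟨hr, hθ, hsp⟩, hl⟩ := h S hS
  have h1 := dProd_mem dFlag (fun p => bumpOK p.2) (fun p hp r hr => by
    simp only [dFlag, List.mem_map] at hr
    obtain ⟨b, hb, rfl⟩ := hr
    exact dBump_ok hp b hb) S.2.1 hθ q hq
  have h2 := dProd_mem dFlag (fun p => p.1 = false → lateB p.2) (fun p hp r hr hf => by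
    simp only [dFlag, List.mem_map] at hr
    obtain ⟨b, hb, rfl⟩ := hr
    exact lateB_dBump (hp hf) b hb) S.2.1 hl q hq
  exact ⟨⟨hr, h1, hsp⟩, h2⟩

lemma LGood.d0 {L : List Term} (h : LGood L) : LGood (d0 L) := by
  intro T hT
  simp only [Vale.Agent.P113.d0, List.mem_flatMap, List.mem_map] at hT
  obtain ⟨S, hS, q, hq, rfl⟩ := hT
  obtain ⟨⟨hr, hθ, a, b, c⟩, hl⟩ := h S hS
  exact ⟨⟨hr, hθ, dProd_mem dBump bumpOK (fun p hp => dBump_ok hp) _ a q hq, b, c⟩, hl⟩

lemma LGood.d1 {L : List Term} (h : LGood L) : LGood (d1 L) := by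
  intro T hT
  simp only [Vale.Agent.P113.d1, List.mem_flatMap, List.mem_map] at hT
  obtain ⟨S, hS, q, hq, rfl⟩ := hT
  obtain ⟨⟨hr, hθ, a, b, c⟩, hl⟩ := h S hS
  exact ⟨⟨hr, hθ, a, dProd_mem dBump bumpOK (fun p hp => dBump_ok hp) _ b q hq, c⟩, hl⟩

lemma LGood.d2 {L : List Term} (h : LGood L) : LGood (d2 L) := by
  intro T hT
  simp only [Vale.Agent.P113.d2, List.mem_flatMap, List.mem_map] at hT
  obtain ⟨S, hS, q, hq, rfl⟩ := hT
  obtain ⟨⟨hr, hθ, a, b, c⟩, hl⟩ := h S hS
  exact ⟨⟨hr, hθ, a, b, dProd_mem dBump bumpOK (fun p hp => dBump_ok hp) _ c q hq⟩, hl⟩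

lemma LGood.lMul {A B : List Term} (hA : LGood A) (hB : LGood B) : LGood (lMul A B) := by
  intro T hT
  simp only [Vale.Agent.P113.lMul, List.mem_flatMap, List.mem_map] at hT
  obtain ⟨S, hS, R, hR, rfl⟩ := hT
  obtain ⟨⟨a1, a2, a3, a4, a5⟩, a6⟩ := hA S hS
  obtain ⟨⟨b1, b2, b3, b4, b5⟩, b6⟩ := hB R hR
  refine ⟨⟨?_, ?_, ?_, ?_, ?_⟩, ?_⟩ <;> simp only [tMul, cMul, List.mem_append] <;>
    intro z hz <;> rcases hz with hz | hz
  exacts [a1 z hz, b1 z hz, a2 z hz, b2 z hz, a3 z hz, b3 z hz, a4 z hz, b4 z hz, a5 z hz,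
    b5 z hz, a6 z hz, b6 z hz]

lemma LGood.negNu {L : List Term} (h : LGood L) : LGood (negNu L) := by
  intro T hT
  simp only [Vale.Agent.P113.negNu, List.mem_map] at hT
  obtain ⟨S, hS, rfl⟩ := hT
  exact h S hS

lemma LGood.lNeg {L : List Term} (h : LGood L) : LGood (lNeg L) := by
  intro T hT
  simp only [Vale.Agent.P113.lNeg, List.mem_map] at hT
  obtain ⟨S, hS, rfl⟩ := hT
  exact h S hS

lemma LGood.forceComp {U : ForceData} (h0 : LGood U.1) (h1 : LGood U.2.1) (h2 : LGood U.2.2)
    {L : List Term} (h : LGood L) : LGood (forceComp U L) :=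
  h.dT.append ((h0.lMul h.d0).append ((h1.lMul h.d1).append ((h2.lMul h.d2).append
    ((h.d0.d0.append (h.d1.d1.append h.d2.d2)).negNu))))

lemma Good.late {T : Term} (h : Good T) (hp : isPer T = false) (ν : ℝ) {t : ℝ} (x : Pt)
    (ht : 1 ≤ t) : termVal ν T t x = 0 := by
  simp only [isPer, List.all_eq_false] at hp
  obtain ⟨p, hp1, hp2⟩ := hp
  have hf : p.1 = false := by simpa using hp2
  have : timeVal T.2.1 t = 0 := by
    apply List.prod_eq_zero
    rw [List.mem_map]
    exact ⟨p, hp1, by simp [timeFactor, hf, lateB_zero (h.2 p hp1 hf) ht]⟩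
  simp [termVal, this]

/-! ### Periodic parts -/

lemma filter_flatMap_same {α β : Type} (p : α → Bool) (q : β → Bool) (f : α → List β)
    (h : ∀ a, ∀ b ∈ f a, q b = p a) :
    ∀ l : List α, (l.flatMap f).filter q = (l.filter p).flatMap f := by
  intro l
  induction l with
  | nil => simp
  | cons a l ih =>
      simp only [List.flatMap_cons, List.filter_append, ih, List.filter_cons]
      rcases hpa : p a with _ | _
      · have : (f a).filter q = [] := by
          rw [List.filter_eq_nil_iff]; intro b hb; simp [h a b hb, hpa]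
        simp [this]
      · have : (f a).filter q = f a := by
          rw [List.filter_eq_self]; intro b hb; simp [h a b hb, hpa]
        simp [this]

lemma filter_dT (L : List Term) : (dT L).filter isPer = dT (L.filter isPer) := by
  apply filter_flatMap_same
  intro S b hb
  simp only [List.mem_map] at hb
  obtain ⟨q, hq, rfl⟩ := hb
  exact dProd_flags S.2.1 q hq

lemma filter_d0 (L : List Term) : (d0 L).filter isPer = d0 (L.filter isPer) := by
  apply filter_flatMap_same
  intro S b hb
  simp only [List.mem_map] at hb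
  obtain ⟨q, hq, rfl⟩ := hb
  rfl

lemma filter_d1 (L : List Term) : (d1 L).filter isPer = d1 (L.filter isPer) := by
  apply filter_flatMap_same
  intro S b hb
  simp only [List.mem_map] at hb
  obtain ⟨q, hq, rfl⟩ := hb
  rfl

lemma filter_d2 (L : List Term) : (d2 L).filter isPer = d2 (L.filter isPer) := by
  apply filter_flatMap_same
  intro S b hb
  simp only [List.mem_map] at hb
  obtain ⟨q, hq, rfl⟩ := hb
  rfl

lemma filter_lMul (A B : List Term) :
    (lMul A B).filter isPer = lMul (A.filter isPer) (B.filter isPer) := by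
  induction A with
  | nil => simp [lMul]
  | cons S A ih =>
      have e : lMul (S :: A) B = B.map (fun T => tMul S T) ++ lMul A B := by simp [lMul]
      rw [e, List.filter_append, ih, List.filter_cons]
      have hm : ∀ T, isPer (tMul S T) = (isPer S && isPer T) := fun T => by
        simp [isPer, tMul]
      rcases hS : isPer S with _ | _
      · have : (B.map (fun T => tMul S T)).filter isPer = [] := by
          rw [List.filter_eq_nil_iff]; intro b hb
          obtain ⟨T, _, rfl⟩ := List.mem_map.1 hb
          simp [hm, hS]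
        simp [this]
      · have : (B.map (fun T => tMul S T)).filter isPer
            = (B.filter isPer).map (fun T => tMul S T) := by
          rw [List.filter_map]
          congr 1
          apply List.filter_congr
          intro T _
          simp [hm, hS]
        simp [this, lMul]

lemma filter_negNu (L : List Term) : (negNu L).filter isPer = negNu (L.filter isPer) := by
  rw [negNu, List.filter_map]; rfl

lemma filter_forceComp (U : ForceData) (L : List Term) :
    (forceComp U L).filter isPer = forceComp
      (U.1.filter isPer, U.2.1.filter isPer, U.2.2.filter isPer) (L.filter isPer) := by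
  simp only [forceComp, List.filter_append, filter_dT, filter_lMul, filter_negNu, filter_d0,
    filter_d1, filter_d2]

end Vale.Agent.P113
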